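import Mathlib

/-!
Abstract `L²` lemmas on a compact probability space: Fubini, orthogonality, Schur test and the
bound for the "Cauchy transform" of a Hermitian density.
-/

open MeasureTheory ComplexConjugate

namespace Crest.Agent.R132

variable {X : Type*} [TopologicalSpace X] [CompactSpace X] [T2Space X] [MeasurableSpace X]
  [BorelSpace X] [SecondCountableTopology X] {μ : Measure X} [IsProbabilityMeasure μ]

theorem integrable_cont {E : Type*} [NormedAddCommGroup E] {g : X → E} (hg : Continuous g) :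
    Integrable g μ :=
  hg.integrable_of_hasCompactSupport (HasCompactSupport.of_compactSpace g)

theorem cont_integral {E : Type*} [NormedAddCommGroup E] [NormedSpace ℝ E]
    {f : X → X → E} (hf : Continuous f.uncurry) : Continuous fun v => ∫ u, f v u ∂μ := by
  have := continuous_parametric_integral_of_continuous (μ := μ) hf isCompact_univ
  simpa using this

theorem fubini_cont {E : Type*} [NormedAddCommGroup E] [NormedSpace ℝ E]
    {f : X → X → E} (hf : Continuous f.uncurry) :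
    ∫ v, ∫ u, f v u ∂μ ∂μ = ∫ u, ∫ v, f v u ∂μ ∂μ :=
  integral_integral_swap (integrable_cont (μ := μ.prod μ) hf)

theorem normSq_three (c a b : ℂ) :
    ‖c + conj a + b‖ ^ 2 = ‖c‖ ^ 2 + ‖a‖ ^ 2 + ‖b‖ ^ 2 + 2 * (c * a).re + 2 * (conj c * b).re
      + 2 * (a * b).re := by
  simp only [Complex.sq_norm, Complex.normSq_apply, Complex.add_re, Complex.add_im,
    Complex.mul_re, Complex.conj_re, Complex.conj_im]
  ring

theorem integral_re_cont {g : X → ℂ} (hg : Continuous g) :
    ∫ x, (g x).re ∂μ = (∫ x, g x ∂μ).re := by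
  have := integral_re (μ := μ) (𝕜 := ℂ) (integrable_cont hg)
  simpa using this

/-- Orthogonality of constants, holomorphic and antiholomorphic parts. -/
theorem orth_three {a b : X → ℂ} (ha : Continuous a) (hb : Continuous b) (c : ℂ)
    (ha0 : ∫ x, a x ∂μ = 0) (hb0 : ∫ x, b x ∂μ = 0) (hab : ∫ x, a x * b x ∂μ = 0) :
    ∫ x, ‖c + conj (a x) + b x‖ ^ 2 ∂μ = ‖c‖ ^ 2 + ∫ x, ‖a x‖ ^ 2 ∂μ + ∫ x, ‖b x‖ ^ 2 ∂μ := by
  simp_rw [normSq_three]
  have h1 : ∫ x, 2 * (c * a x).re ∂μ = 0 := by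
    rw [integral_const_mul, integral_re_cont (by fun_prop), integral_const_mul, ha0]; simp
  have h2 : ∫ x, 2 * (conj c * b x).re ∂μ = 0 := by
    rw [integral_const_mul, integral_re_cont (by fun_prop), integral_const_mul, hb0]; simp
  have h3 : ∫ x, 2 * (a x * b x).re ∂μ = 0 := by
    rw [integral_const_mul, integral_re_cont (by fun_prop), hab]; simp
  rw [integral_add, integral_add, integral_add, integral_add, integral_add, h1, h2, h3]
  · simp
  all_goals exact integrable_cont (by fun_prop)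

/-- Superposition of orthogonality relations. -/
theorem sup_orth {a : X → X → ℂ} (ha : Continuous a.uncurry) {m b : X → ℂ} (hm : Continuous m)
    (hb : Continuous b) (h : ∀ u, ∫ v, a v u * b v ∂μ = 0) :
    ∫ v, (∫ u, m u * a v u ∂μ) * b v ∂μ = 0 := by
  have h1 : ∀ v, (∫ u, m u * a v u ∂μ) * b v = ∫ u, m u * (a v u * b v) ∂μ := by
    intro v
    rw [← integral_mul_const]
    congr 1; ext u; ring
  simp_rw [h1]
  rw [fubini_cont (f := fun v u => m u * (a v u * b v))]
  · simp_rw [integral_const_mul, h]; simp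
  · have : Continuous fun p : X × X => a p.1 p.2 := ha
    change Continuous fun p : X × X => m p.2 * (a p.1 p.2 * b p.1)
    fun_prop

/-- Schur test for a doubly stochastic kernel. -/
theorem schur_test {P : X → X → ℝ} (hP : Continuous P.uncurry) (hP0 : ∀ v u, 0 ≤ P v u)
    (hPu : ∀ v, ∫ u, P v u ∂μ = 1) (hPv : ∀ u, ∫ v, P v u ∂μ = 1) {m : X → ℂ}
    (hm : Continuous m) :
    ∫ v, ‖∫ u, m u * (P v u : ℂ) ∂μ‖ ^ 2 ∂μ ≤ ∫ u, ‖m u‖ ^ 2 ∂μ := by
  have hP' : Continuous fun p : X × X => P p.1 p.2 := hP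
  have key : ∀ v, ‖∫ u, m u * (P v u : ℂ) ∂μ‖ ^ 2 ≤ ∫ u, ‖m u‖ ^ 2 * P v u ∂μ := by
    intro v
    have hPv' : Continuous fun u => P v u := hP'.comp (Continuous.prodMk_right v)
    set s : ℝ := ∫ u, ‖m u‖ * P v u ∂μ with hs
    have h1 : ‖∫ u, m u * (P v u : ℂ) ∂μ‖ ≤ s := by
      refine (norm_integral_le_integral_norm _).trans (le_of_eq ?_)
      congr 1; ext u
      rw [norm_mul, Complex.norm_real, Real.norm_of_nonneg (hP0 v u)]
    have h2 : 0 ≤ ∫ u, (‖m u‖ - s) ^ 2 * P v u ∂μ :=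
      integral_nonneg fun u => mul_nonneg (sq_nonneg _) (hP0 v u)
    have h3 : ∫ u, (‖m u‖ - s) ^ 2 * P v u ∂μ = ∫ u, ‖m u‖ ^ 2 * P v u ∂μ - s ^ 2 := by
      have : ∀ u, (‖m u‖ - s) ^ 2 * P v u
          = ‖m u‖ ^ 2 * P v u - 2 * s * (‖m u‖ * P v u) + s ^ 2 * P v u := by intro u; ring
      simp_rw [this]
      rw [integral_add, integral_sub, integral_const_mul, integral_const_mul, hPu v, ← hs]
      · ring
      all_goals exact integrable_cont (by fun_prop)
    have h4 : ‖∫ u, m u * (P v u : ℂ) ∂μ‖ ^ 2 ≤ s ^ 2 :=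
      pow_le_pow_left₀ (norm_nonneg _) h1 2
    linarith
  have hc : Continuous (Function.uncurry fun v u => ‖m u‖ ^ 2 * P v u) := by
    change Continuous fun p : X × X => ‖m p.2‖ ^ 2 * P p.1 p.2
    fun_prop
  have hc' : Continuous (Function.uncurry fun v u => m u * (P v u : ℂ)) := by
    change Continuous fun p : X × X => m p.2 * (P p.1 p.2 : ℂ)
    fun_prop
  calc ∫ v, ‖∫ u, m u * (P v u : ℂ) ∂μ‖ ^ 2 ∂μ
      ≤ ∫ v, ∫ u, ‖m u‖ ^ 2 * P v u ∂μ ∂μ := by
        refine integral_mono (integrable_cont ?_) (integrable_cont (cont_integral hc)) key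
        exact (cont_integral hc').norm.pow 2
    _ = ∫ u, ‖m u‖ ^ 2 ∂μ := by
        rw [fubini_cont hc]
        simp_rw [integral_const_mul, hPv, mul_one]

/-- The hypotheses on the pair of kernels `C` (Cauchy kernel of the disc) and `Q` (the rest). -/
structure KernelPair (μ : Measure X) (C Q : X → X → ℂ) : Prop where
  contC : Continuous C.uncurry
  contQ : Continuous Q.uncurry
  intC : ∀ u, ∫ v, C v u ∂μ = 0
  intQ : ∀ u, ∫ v, Q v u ∂μ = 0
  intCC : ∀ u u', ∫ v, C v u * C v u' ∂μ = 0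
  intCQ : ∀ u u', ∫ v, C v u * Q v u' ∂μ = 0
  intQQ : ∀ u u', ∫ v, Q v u * Q v u' ∂μ = 0
  intC' : ∀ v, (∫ u, C v u ∂μ).re = 0
  intQ' : ∀ v, (∫ u, Q v u ∂μ).re = 0
  posC : ∀ v u, 0 ≤ 1 + 2 * (C v u).re
  posQ : ∀ v u, 0 ≤ 1 + 2 * (Q v u).re

theorem sup_orth₂ {a b : X → X → ℂ} (ha : Continuous a.uncurry) (hb : Continuous b.uncurry)
    {m m' : X → ℂ} (hm : Continuous m) (hm' : Continuous m')
    (h : ∀ u u', ∫ v, a v u * b v u' ∂μ = 0) :
    ∫ v, (∫ u, m u * a v u ∂μ) * (∫ u, m' u * b v u ∂μ) ∂μ = 0 := by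
  have ha' : Continuous fun p : X × X => a p.1 p.2 := ha
  have hb' : Continuous fun p : X × X => b p.1 p.2 := hb
  refine sup_orth ha hm (cont_integral (f := fun v u => m' u * b v u) ?_) fun u => ?_
  · change Continuous fun p : X × X => m' p.2 * b p.1 p.2
    fun_prop
  · simp_rw [mul_comm (a _ u)]
    refine sup_orth hb hm' (ha'.comp (Continuous.prodMk_left u)) fun u' => ?_
    simp_rw [mul_comm (b _ u')]
    exact h u u'

theorem sup_orth₁ {a : X → X → ℂ} (ha : Continuous a.uncurry)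
    {m : X → ℂ} (hm : Continuous m) (h : ∀ u, ∫ v, a v u ∂μ = 0) :
    ∫ v, (∫ u, m u * a v u ∂μ) ∂μ = 0 := by
  have := sup_orth (μ := μ) ha hm (b := fun _ => 1) continuous_const (by simpa using h)
  simpa using this

/-- One half of the kernel estimate. -/
theorem half_bound {ι : Type*} [Fintype ι] {a : X → X → ℂ} (ha : Continuous a.uncurry)
    (h1 : ∀ u, ∫ v, a v u ∂μ = 0) (h2 : ∀ u u', ∫ v, a v u * a v u' ∂μ = 0)
    (h3 : ∀ v, (∫ u, a v u ∂μ).re = 0) (h4 : ∀ v u, 0 ≤ 1 + 2 * (a v u).re)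
    {m : ι → ι → X → ℂ} (hm : ∀ i j, Continuous (m i j))
    (hherm : ∀ i j u, conj (m i j u) = m j i u) :
    ∑ i, ∑ j, ‖∫ u, m i j u ∂μ‖ ^ 2 + 2 * ∑ i, ∑ j, ∫ v, ‖∫ u, m i j u * a v u ∂μ‖ ^ 2 ∂μ
      ≤ ∑ i, ∑ j, ∫ u, ‖m i j u‖ ^ 2 ∂μ := by
  have ha' : Continuous fun p : X × X => a p.1 p.2 := ha
  have hx : ∀ i j, Continuous fun v => ∫ u, m i j u * a v u ∂μ := fun i j => by
    refine cont_integral (f := fun v u => m i j u * a v u) ?_
    change Continuous fun p : X × X => m i j p.2 * a p.1 p.2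
    fun_prop
  have key : ∀ i j, ‖∫ u, m i j u ∂μ‖ ^ 2 + ∫ v, ‖∫ u, m j i u * a v u ∂μ‖ ^ 2 ∂μ
      + ∫ v, ‖∫ u, m i j u * a v u ∂μ‖ ^ 2 ∂μ ≤ ∫ u, ‖m i j u‖ ^ 2 ∂μ := by
    intro i j
    rw [← orth_three (hx j i) (hx i j) _ (sup_orth₁ ha (hm j i) h1) (sup_orth₁ ha (hm i j) h1)
      (sup_orth₂ ha ha (hm j i) (hm i j) h2)]
    have hS := schur_test (μ := μ) (P := fun v u => 1 + 2 * (a v u).re) (m := m i j)
      (by change Continuous fun p : X × X => 1 + 2 * (a p.1 p.2).re; fun_prop) h4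
      (fun v => by
        have hav : Continuous fun u => a v u := ha'.comp (Continuous.prodMk_right v)
        rw [integral_add (integrable_const _) (integrable_cont (by fun_prop)), integral_const_mul,
          integral_re_cont hav, h3]
        simp)
      (fun u => by
        have hav : Continuous fun v => a v u := ha'.comp (Continuous.prodMk_left u)
        rw [integral_add (integrable_const _) (integrable_cont (by fun_prop)), integral_const_mul,
          integral_re_cont hav, h1]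
        simp) (hm i j)
    refine le_of_eq_of_le ?_ hS
    congr 1; ext v
    congr 2
    have hav : Continuous fun u => a v u := ha'.comp (Continuous.prodMk_right v)
    have hmij := hm i j
    have hmji := hm j i
    rw [← integral_conj, ← integral_add, ← integral_add]
    · congr 1; ext u
      rw [map_mul, hherm]
      push_cast
      rw [Complex.re_eq_add_conj]
      ring
    all_goals exact integrable_cont (by fun_prop)
  have := Finset.sum_le_sum (s := Finset.univ) fun i _ =>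
    Finset.sum_le_sum (s := Finset.univ) fun j _ => key i j
  simp only [Finset.sum_add_distrib] at this
  rw [Finset.sum_comm (f := fun i j => ∫ v, ‖∫ u, m j i u * a v u ∂μ‖ ^ 2 ∂μ)] at this
  linarith

/-- The Cauchy transform of a Hermitian density does not increase the `L²` norm. -/
theorem KernelPair.bound {C Q : X → X → ℂ} (h : KernelPair μ C Q) {ι : Type*} [Fintype ι]
    {m : ι → ι → X → ℂ} (hm : ∀ i j, Continuous (m i j))
    (hherm : ∀ i j u, conj (m i j u) = m j i u) :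
    ∑ i, ∑ j, ∫ v, ‖∫ u, m i j u * (1 + conj (C v u) + Q v u) ∂μ‖ ^ 2 ∂μ
      ≤ ∑ i, ∑ j, ∫ u, ‖m i j u‖ ^ 2 ∂μ := by
  have hC' : Continuous fun p : X × X => C p.1 p.2 := h.contC
  have hQ' : Continuous fun p : X × X => Q p.1 p.2 := h.contQ
  have hx : ∀ i j, Continuous fun v => ∫ u, m i j u * C v u ∂μ := fun i j => by
    refine cont_integral (f := fun v u => m i j u * C v u) ?_
    change Continuous fun p : X × X => m i j p.2 * C p.1 p.2
    fun_prop
  have hy : ∀ i j, Continuous fun v => ∫ u, m i j u * Q v u ∂μ := fun i j => by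
    refine cont_integral (f := fun v u => m i j u * Q v u) ?_
    change Continuous fun p : X × X => m i j p.2 * Q p.1 p.2
    fun_prop
  have key : ∀ i j, ∫ v, ‖∫ u, m i j u * (1 + conj (C v u) + Q v u) ∂μ‖ ^ 2 ∂μ
      = ‖∫ u, m i j u ∂μ‖ ^ 2 + ∫ v, ‖∫ u, m j i u * C v u ∂μ‖ ^ 2 ∂μ
        + ∫ v, ‖∫ u, m i j u * Q v u ∂μ‖ ^ 2 ∂μ := by
    intro i j
    rw [← orth_three (hx j i) (hy i j) _ (sup_orth₁ h.contC (hm j i) h.intC)
      (sup_orth₁ h.contQ (hm i j) h.intQ) (sup_orth₂ h.contC h.contQ (hm j i) (hm i j) h.intCQ)]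
    congr 1; ext v
    congr 2
    have hCv : Continuous fun u => C v u := hC'.comp (Continuous.prodMk_right v)
    have hQv : Continuous fun u => Q v u := hQ'.comp (Continuous.prodMk_right v)
    have hmij := hm i j
    have hmji := hm j i
    rw [← integral_conj, ← integral_add, ← integral_add]
    · congr 1; ext u
      rw [map_mul, hherm]
      ring
    all_goals exact integrable_cont (by fun_prop)
  have h1 := half_bound (μ := μ) h.contC h.intC h.intCC h.intC' h.posC hm hherm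
  have h2 := half_bound (μ := μ) h.contQ h.intQ h.intQQ h.intQ' h.posQ hm hherm
  simp_rw [key]
  simp only [Finset.sum_add_distrib]
  rw [Finset.sum_comm (f := fun i j => ∫ v, ‖∫ u, m j i u * C v u ∂μ‖ ^ 2 ∂μ)]
  linarith

end Crest.Agent.R132
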