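import Crest.Agent.R132.Abstract1

/-!
The abstract form of the `L²` argument giving the constant `2`.
-/

open MeasureTheory ComplexConjugate
open scoped ComplexOrder InnerProductSpace

namespace Crest.Agent.R132

variable {H : Type*} [NormedAddCommGroup H] [InnerProductSpace ℂ H]

/-- The Hermitian form of `Φ + Φ*`. -/
noncomputable def herm (Φ : H →L[ℂ] H) (x y : H) : ℂ := ⟪x, Φ y⟫_ℂ + conj ⟪y, Φ x⟫_ℂ

theorem conj_herm (Φ : H →L[ℂ] H) (x y : H) : conj (herm Φ x y) = herm Φ y x := by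
  simp [herm, add_comm]

theorem gram_bound {ι : Type*} [Fintype ι] (Φ : H →L[ℂ] H)
    (hΦ : ∀ x, 0 ≤ (⟪x, Φ x⟫_ℂ).re) (ξ η : ι → H) :
    2 * ∑ i, ∑ j, ‖herm Φ (η i) (ξ j)‖ ^ 2
      ≤ ∑ i, ∑ j, ‖herm Φ (ξ i) (ξ j)‖ ^ 2 + ∑ i, ∑ j, ‖herm Φ (η i) (η j)‖ ^ 2 := by
  classical
  let ζ : ι ⊕ ι → H := Sum.elim ξ η
  let Γ : Matrix (ι ⊕ ι) (ι ⊕ ι) ℂ := Matrix.of fun a b => herm Φ (ζ a) (ζ b)
  have hΓ : Γ.PosSemidef := by
    refine Matrix.PosSemidef.of_dotProduct_mulVec_nonneg ?_ fun x => ?_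
    · ext a b
      simp [Γ, conj_herm]
    · have : star x ⬝ᵥ Γ.mulVec x = herm Φ (∑ b, x b • ζ b) (∑ b, x b • ζ b) := by
        simp only [dotProduct, Matrix.mulVec, Γ, Matrix.of_apply, herm, map_sum, sum_inner,
          inner_sum, map_smul, inner_smul_left, inner_smul_right, Pi.star_apply, RCLike.star_def,
          Finset.mul_sum, map_mul, Complex.conj_conj, mul_add, add_mul, Finset.sum_add_distrib]
        congr 1
        · rw [Finset.sum_comm]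
          refine Finset.sum_congr rfl fun a _ => Finset.sum_congr rfl fun b _ => by ring
        · refine Finset.sum_congr rfl fun a _ => Finset.sum_congr rfl fun b _ => by ring
      rw [this, herm, Complex.add_conj]
      exact_mod_cast mul_nonneg zero_le_two (hΦ _)
  have h2 := (hΓ.hadamard hΓ.transpose).dotProduct_mulVec_nonneg (Sum.elim (fun _ => 1) fun _ => -1)
  have h3 : ∀ x y : H, herm Φ x y * herm Φ y x = ((‖herm Φ x y‖ ^ 2 : ℝ) : ℂ) := by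
    intro x y
    rw [← conj_herm Φ x y, Complex.mul_conj, Complex.sq_norm]
  have h4 : ∀ x y : H, ‖herm Φ x y‖ = ‖herm Φ y x‖ := by
    intro x y
    rw [← conj_herm Φ x y, Complex.norm_conj]
  simp only [dotProduct, Matrix.mulVec, Fintype.sum_sum_type, Matrix.hadamard_apply,
    Matrix.transpose_apply, Γ, Matrix.of_apply, ζ, Sum.elim_inl, Sum.elim_inr, Pi.star_apply,
    star_one, star_neg, h3, mul_one, one_mul, mul_neg, neg_mul, Finset.sum_neg_distrib,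
    Finset.sum_add_distrib, neg_add_rev, neg_neg] at h2
  have h5 : ∑ i, ∑ j, ‖herm Φ (ξ i) (η j)‖ ^ 2 = ∑ i, ∑ j, ‖herm Φ (η i) (ξ j)‖ ^ 2 := by
    rw [Finset.sum_comm]
    simp_rw [h4 (ξ _) (η _)]
  have h6 := (Complex.le_def.1 h2).1
  simp only [Complex.zero_re, Complex.add_re, Complex.neg_re, Complex.re_sum,
    Complex.ofReal_re] at h6
  linarith

theorem bilin_bound {ι : Type*} [Fintype ι] (F : ι → ι → ℂ) (M : ℝ)
    (hF : ∀ a : ι → ℂ, ∑ i, ‖∑ j, F i j * a j‖ ^ 2 ≤ M ^ 2 * ∑ j, ‖a j‖ ^ 2) (a b : ι → ℂ) :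
    ‖∑ i, ∑ j, b i * F i j * a j‖ ^ 2 ≤ M ^ 2 * (∑ j, ‖a j‖ ^ 2) * ∑ i, ‖b i‖ ^ 2 := by
  have h1 : ‖∑ i, ∑ j, b i * F i j * a j‖ ≤ ∑ i, ‖∑ j, F i j * a j‖ * ‖b i‖ := by
    refine (norm_sum_le _ _).trans (Finset.sum_le_sum fun i _ => le_of_eq ?_)
    rw [← norm_mul, Finset.sum_mul]
    congr 1
    refine Finset.sum_congr rfl fun j _ => by ring
  calc _ ≤ (∑ i, ‖∑ j, F i j * a j‖ * ‖b i‖) ^ 2 := pow_le_pow_left₀ (norm_nonneg _) h1 2
    _ ≤ (∑ i, ‖∑ j, F i j * a j‖ ^ 2) * ∑ i, ‖b i‖ ^ 2 := Finset.sum_mul_sq_le_sq_mul_sq _ _ _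
    _ ≤ _ := mul_le_mul_of_nonneg_right (hF a) (Finset.sum_nonneg fun _ _ => sq_nonneg _)

theorem amgm_bound {B M α β s : ℝ} (hs : 0 < s) (hα : 0 ≤ α) (hβ : 0 ≤ β)
    (h : B ^ 2 ≤ M ^ 2 * α * β) : B ≤ (s * α + M ^ 2 / s * β) / 2 := by
  refine le_trans (le_abs_self B) (abs_le_of_sq_le_sq' ?_ (by positivity)).2 |>.trans le_rfl
  rw [sq_abs]
  have : M ^ 2 * α * β = (s * α) * (M ^ 2 / s * β) := by field_simp
  nlinarith [sq_nonneg (s * α - M ^ 2 / s * β)]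

variable {X : Type*} [TopologicalSpace X] [CompactSpace X] [T2Space X] [MeasurableSpace X]
  [BorelSpace X] [SecondCountableTopology X] {μ : Measure X} [IsProbabilityMeasure μ]

theorem inner_integral_apply [CompleteSpace H] {Ψ : X → H →L[ℂ] H} (hΨ : Continuous Ψ) (x y : H) :
    ⟪x, (∫ v, Ψ v ∂μ) y⟫_ℂ = ∫ v, ⟪x, Ψ v y⟫_ℂ ∂μ := by
  rw [ContinuousLinearMap.integral_apply (integrable_cont hΨ), integral_inner]
  exact integrable_cont (by fun_prop)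

theorem sum_re_conj_herm {ι : Type*} [Fintype ι] (Φ : H →L[ℂ] H) (ξ : ι → H) :
    2 * (∑ j, ∑ l, herm Φ (ξ l) (ξ j) * ⟪ξ j, Φ (ξ l)⟫_ℂ).re
      = ∑ j, ∑ l, ‖herm Φ (ξ j) (ξ l)‖ ^ 2 := by
  have h1 : ∀ j l, ‖herm Φ (ξ j) (ξ l)‖ ^ 2 = (herm Φ (ξ l) (ξ j) * ⟪ξ j, Φ (ξ l)⟫_ℂ).re
      + (herm Φ (ξ j) (ξ l) * ⟪ξ l, Φ (ξ j)⟫_ℂ).re := by
    intro j l
    rw [← conj_herm Φ (ξ j) (ξ l)]
    have : herm Φ (ξ j) (ξ l) = ⟪ξ j, Φ (ξ l)⟫_ℂ + conj ⟪ξ l, Φ (ξ j)⟫_ℂ := rfl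
    generalize herm Φ (ξ j) (ξ l) = w at this ⊢
    generalize ⟪ξ j, Φ (ξ l)⟫_ℂ = p at this ⊢
    generalize ⟪ξ l, Φ (ξ j)⟫_ℂ = q at this ⊢
    subst this
    simp only [Complex.sq_norm, Complex.normSq_apply, Complex.add_re, Complex.add_im,
      Complex.mul_re, Complex.conj_re, Complex.conj_im]
    ring
  simp_rw [h1, Finset.sum_add_distrib, Complex.re_sum]
  rw [Finset.sum_comm (f := fun j l => (herm Φ (ξ j) (ξ l) * ⟪ξ l, Φ (ξ j)⟫_ℂ).re)]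
  ring

/-- Final arithmetic of one half of the argument. -/
theorem half_final {ι : Type*} [Fintype ι] {C Q : X → X → ℂ} (hK : KernelPair μ C Q)
    {Φ₂ : X → H →L[ℂ] H} (hΦ₂ : Continuous Φ₂) (ξ : ι → H) {κ M N : ℝ} (hκ : 0 < κ)
    {S : X → ℂ} (hS : Continuous S) {W : X → ℝ} (hW : Continuous W) (hN : ∫ v, W v ∂μ = N)
    (hint : ∫ v, S v ∂μ
      = κ * ∫ u, ∑ j, ∑ l, herm (Φ₂ u) (ξ l) (ξ j) * ⟪ξ j, Φ₂ u (ξ l)⟫_ℂ ∂μ)
    (hpt : ∀ v, ‖S v‖ ≤ (κ / 2 * (∑ j, ∑ l,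
      ‖∫ u, herm (Φ₂ u) (ξ l) (ξ j) * (1 + conj (C v u) + Q v u) ∂μ‖ ^ 2)
        + M ^ 2 / (κ / 2) * W v) / 2) :
    κ ^ 2 * ∑ j, ∑ l, ∫ u, ‖herm (Φ₂ u) (ξ j) (ξ l)‖ ^ 2 ∂μ ≤ 4 * M ^ 2 * N := by
  have hC' : Continuous fun p : X × X => C p.1 p.2 := hK.contC
  have hQ' : Continuous fun p : X × X => Q p.1 p.2 := hK.contQ
  have hm : ∀ j l, Continuous fun u => herm (Φ₂ u) (ξ l) (ξ j) := fun j l => by
    unfold herm; fun_prop
  have hh : ∀ j l, Continuous fun v =>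
      ∫ u, herm (Φ₂ u) (ξ l) (ξ j) * (1 + conj (C v u) + Q v u) ∂μ := fun j l => by
    refine cont_integral (f := fun v u => herm (Φ₂ u) (ξ l) (ξ j) * (1 + conj (C v u) + Q v u)) ?_
    change Continuous fun p : X × X =>
      herm (Φ₂ p.2) (ξ l) (ξ j) * (1 + conj (C p.1 p.2) + Q p.1 p.2)
    unfold herm
    fun_prop
  have hb := hK.bound (m := fun j l u => herm (Φ₂ u) (ξ l) (ξ j)) hm
    (fun j l u => conj_herm _ _ _)
  set a : ℝ := ∑ j, ∑ l, ∫ u, ‖herm (Φ₂ u) (ξ j) (ξ l)‖ ^ 2 ∂μ with ha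
  have ha' : ∑ j, ∑ l, ∫ u, ‖herm (Φ₂ u) (ξ l) (ξ j)‖ ^ 2 ∂μ = a := Finset.sum_comm
  rw [ha'] at hb
  have h1 : (∫ v, S v ∂μ).re = κ * a / 2 := by
    rw [hint, Complex.re_ofReal_mul, ← integral_re_cont (by fun_prop)]
    have : a = ∫ u, ∑ j, ∑ l, ‖herm (Φ₂ u) (ξ j) (ξ l)‖ ^ 2 ∂μ := by
      rw [integral_finsetSum _ fun j _ => integrable_cont (by fun_prop)]
      refine Finset.sum_congr rfl fun j _ => ?_
      rw [integral_finsetSum _ fun l _ => integrable_cont (by fun_prop)]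
    rw [this]
    simp_rw [← sum_re_conj_herm]
    rw [integral_const_mul]
    ring
  have h2 : (∫ v, S v ∂μ).re ≤ (κ / 2 * a + M ^ 2 / (κ / 2) * N) / 2 := by
    refine (Complex.re_le_norm _).trans ((norm_integral_le_integral_norm _).trans ?_)
    refine (integral_mono (integrable_cont hS.norm) (integrable_cont (by fun_prop)) hpt).trans ?_
    rw [integral_div, integral_add (integrable_cont (by fun_prop)) (integrable_cont (by fun_prop)),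
      integral_const_mul, integral_const_mul, hN]
    gcongr
    refine le_of_eq_of_le ?_ hb
    rw [integral_finsetSum _ fun j _ => integrable_cont (by fun_prop)]
    refine Finset.sum_congr rfl fun j _ => ?_
    rw [integral_finsetSum _ fun l _ => integrable_cont (by fun_prop)]
  rw [h1] at h2
  have h3 : M ^ 2 / (κ / 2) * N = 2 * M ^ 2 * N / κ := by field_simp
  rw [h3] at h2
  have h4 : κ * a / 4 ≤ M ^ 2 * N / κ := by
    have : 2 * M ^ 2 * N / κ = 2 * (M ^ 2 * N / κ) := by ring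
    linarith
  rw [le_div_iff₀ hκ] at h4
  nlinarith

theorem abstract_bound [CompleteSpace H] {ι : Type*} [Fintype ι] {C Q : X → X → ℂ}
    (hK : KernelPair μ C Q) {Φ₁ Φ₂ : X → H →L[ℂ] H} (hΦ₁ : Continuous Φ₁) (hΦ₂ : Continuous Φ₂)
    {F : ι → ι → X → ℂ} (hFc : ∀ i j, Continuous (F i j)) {M : ℝ}
    (hF : ∀ v, ∀ a : ι → ℂ, ∑ i, ‖∑ j, F i j v * a j‖ ^ 2 ≤ M ^ 2 * ∑ j, ‖a j‖ ^ 2)
    {T : ι → ι → H →L[ℂ] H}
    (hT : ∀ i j u, ∫ v, (F i j v * (1 + conj (C v u) + Q v u)) • Φ₁ v ∂μ = T i j * Φ₂ u)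
    (hcomm : ∀ i j u, T i j * Φ₂ u = Φ₂ u * T i j)
    (hpos : ∀ u x, 0 ≤ (⟪x, Φ₂ u x⟫_ℂ).re)
    (hmean : ∀ x y, ∫ u, (⟪x, Φ₂ u y⟫_ℂ - ⟪x, y⟫_ℂ) ∂μ = 0)
    (hmean₂ : ∀ x y x' y',
      ∫ u, (⟪x, Φ₂ u y⟫_ℂ - ⟪x, y⟫_ℂ) * (⟪x', Φ₂ u y'⟫_ℂ - ⟪x', y'⟫_ℂ) ∂μ = 0)
    (ξ η : ι → H) {κ : ℝ} (hκ : 0 < κ)
    (hξ : ∀ i, ∑ j, T i j (ξ j) = (κ : ℂ) • η i)
    (hη : ∀ j x, ∑ i, ⟪η i, T i j x⟫_ℂ = κ * ⟪ξ j, x⟫_ℂ) :
    κ ^ 2 * ∑ i, ∑ j, ∫ u, ‖⟪η i, Φ₂ u (ξ j)⟫_ℂ‖ ^ 2 ∂μ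
      ≤ 4 * M ^ 2 * ∑ i, ∑ j, ∫ v, ‖⟪η i, Φ₁ v (ξ j)⟫_ℂ‖ ^ 2 ∂μ := by
  have hC' : Continuous fun p : X × X => C p.1 p.2 := hK.contC
  have hQ' : Continuous fun p : X × X => Q p.1 p.2 := hK.contQ
  set N : ℝ := ∑ i, ∑ j, ∫ v, ‖⟪η i, Φ₁ v (ξ j)⟫_ℂ‖ ^ 2 ∂μ with hN
  have hN' : ∫ v, ∑ i, ∑ j, ‖⟪η i, Φ₁ v (ξ j)⟫_ℂ‖ ^ 2 ∂μ = N := by
    rw [integral_finsetSum _ fun j _ => integrable_cont (by fun_prop)]
    refine Finset.sum_congr rfl fun j _ => ?_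
    rw [integral_finsetSum _ fun l _ => integrable_cont (by fun_prop)]
  -- the basic Fubini identity
  have fub : ∀ (m : X → ℂ), Continuous m → ∀ i j x y,
      ∫ v, (∫ u, m u * (1 + conj (C v u) + Q v u) ∂μ) * F i j v * ⟪x, Φ₁ v y⟫_ℂ ∂μ
        = ∫ u, m u * ⟪x, T i j (Φ₂ u y)⟫_ℂ ∂μ := by
    intro m hm i j x y
    have hFij := hFc i j
    have e1 : ∀ v, (∫ u, m u * (1 + conj (C v u) + Q v u) ∂μ) * F i j v * ⟪x, Φ₁ v y⟫_ℂ
        = ∫ u, m u * ⟪x, ((F i j v * (1 + conj (C v u) + Q v u)) • Φ₁ v) y⟫_ℂ ∂μ := by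
      intro v
      rw [mul_assoc, ← integral_mul_const]
      congr 1; ext u
      rw [smul_apply, inner_smul_right]
      ring
    simp_rw [e1]
    rw [fubini_cont (f := fun v u =>
      m u * ⟪x, ((F i j v * (1 + conj (C v u) + Q v u)) • Φ₁ v) y⟫_ℂ)]
    · congr 1; ext u
      have hCu : Continuous fun v => C v u := hC'.comp (Continuous.prodMk_left u)
      have hQu : Continuous fun v => Q v u := hQ'.comp (Continuous.prodMk_left u)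
      rw [integral_const_mul, ← inner_integral_apply (by fun_prop), hT]
      rfl
    · change Continuous fun p : X × X =>
        m p.2 * ⟪x, ((F i j p.1 * (1 + conj (C p.1 p.2) + Q p.1 p.2)) • Φ₁ p.1) y⟫_ℂ
      fun_prop
  have hm : ∀ x y, Continuous fun u => herm (Φ₂ u) x y := fun x y => by
    unfold herm; fun_prop
  have hh : ∀ x y, Continuous fun v =>
      ∫ u, herm (Φ₂ u) x y * (1 + conj (C v u) + Q v u) ∂μ := fun x y => by
    refine cont_integral (f := fun v u => herm (Φ₂ u) x y * (1 + conj (C v u) + Q v u)) ?_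
    change Continuous fun p : X × X =>
      herm (Φ₂ p.2) x y * (1 + conj (C p.1 p.2) + Q p.1 p.2)
    unfold herm
    fun_prop
  have hκ2 : 0 < κ / 2 := by positivity
  -- the `ξ` half
  have hA := half_final (μ := μ) hK hΦ₂ ξ (M := M) hκ
    (S := fun v => ∑ l, ∑ i, ∑ j, ⟪η i, Φ₁ v (ξ l)⟫_ℂ * F i j v *
      ∫ u, herm (Φ₂ u) (ξ l) (ξ j) * (1 + conj (C v u) + Q v u) ∂μ)
    (by fun_prop) (W := fun v => ∑ i, ∑ j, ‖⟪η i, Φ₁ v (ξ j)⟫_ℂ‖ ^ 2) (by fun_prop) hN'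
    (by
      rw [← integral_const_mul]
      have e : ∀ u, (κ : ℂ) * ∑ j, ∑ l, herm (Φ₂ u) (ξ l) (ξ j) * ⟪ξ j, Φ₂ u (ξ l)⟫_ℂ
          = ∑ l, ∑ i, ∑ j, herm (Φ₂ u) (ξ l) (ξ j) * ⟪η i, T i j (Φ₂ u (ξ l))⟫_ℂ := by
        intro u
        rw [Finset.sum_comm, Finset.mul_sum]
        refine Finset.sum_congr rfl fun l _ => ?_
        rw [Finset.sum_comm, Finset.mul_sum]
        refine Finset.sum_congr rfl fun j _ => ?_
        rw [← Finset.mul_sum, hη]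
        ring
      simp_rw [e]
      rw [integral_finsetSum _ fun j _ => integrable_cont (by fun_prop),
        integral_finsetSum _ fun j _ => integrable_cont (by fun_prop)]
      refine Finset.sum_congr rfl fun l _ => ?_
      rw [integral_finsetSum _ fun j _ => integrable_cont (by fun_prop),
        integral_finsetSum _ fun j _ => integrable_cont (by fun_prop)]
      refine Finset.sum_congr rfl fun i _ => ?_
      rw [integral_finsetSum _ fun j _ => integrable_cont (by fun_prop),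
        integral_finsetSum _ fun j _ => integrable_cont (by fun_prop)]
      refine Finset.sum_congr rfl fun j _ => ?_
      rw [← fub _ (hm _ _)]
      congr 1; ext v; ring)
    (by
      intro v
      refine (norm_sum_le _ _).trans ?_
      refine (Finset.sum_le_sum fun l _ => amgm_bound hκ2
        (Finset.sum_nonneg fun _ _ => sq_nonneg _) (Finset.sum_nonneg fun _ _ => sq_nonneg _)
        (bilin_bound (fun i j => F i j v) M (hF v) _ _)).trans (le_of_eq ?_)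
      rw [← Finset.sum_div, Finset.sum_add_distrib, ← Finset.mul_sum, ← Finset.mul_sum,
        Finset.sum_comm, Finset.sum_comm (f := fun l i => ‖⟪η i, Φ₁ v (ξ l)⟫_ℂ‖ ^ 2)])
  -- the `η` half
  have hB := half_final (μ := μ) hK hΦ₂ η (M := M) hκ
    (S := fun v => ∑ i, ∑ l, ∑ j,
      (∫ u, herm (Φ₂ u) (η l) (η i) * (1 + conj (C v u) + Q v u) ∂μ) * F l j v *
        ⟪η i, Φ₁ v (ξ j)⟫_ℂ)
    (by fun_prop) (W := fun v => ∑ i, ∑ j, ‖⟪η i, Φ₁ v (ξ j)⟫_ℂ‖ ^ 2) (by fun_prop) hN'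
    (by
      rw [← integral_const_mul]
      have e : ∀ u, (κ : ℂ) * ∑ i, ∑ l, herm (Φ₂ u) (η l) (η i) * ⟪η i, Φ₂ u (η l)⟫_ℂ
          = ∑ i, ∑ l, ∑ j, herm (Φ₂ u) (η l) (η i) * ⟪η i, T l j (Φ₂ u (ξ j))⟫_ℂ := by
        intro u
        rw [Finset.mul_sum]
        refine Finset.sum_congr rfl fun i _ => ?_
        rw [Finset.mul_sum]
        refine Finset.sum_congr rfl fun l _ => ?_
        have : ∀ j, T l j (Φ₂ u (ξ j)) = Φ₂ u (T l j (ξ j)) := fun j =>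
          congrArg (fun S : H →L[ℂ] H => S (ξ j)) (hcomm l j u)
        simp_rw [this]
        rw [← Finset.mul_sum, ← inner_sum, ← map_sum, hξ, map_smul, inner_smul_right]
        ring
      simp_rw [e]
      rw [integral_finsetSum _ fun j _ => integrable_cont (by fun_prop),
        integral_finsetSum _ fun j _ => integrable_cont (by fun_prop)]
      refine Finset.sum_congr rfl fun l _ => ?_
      rw [integral_finsetSum _ fun j _ => integrable_cont (by fun_prop),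
        integral_finsetSum _ fun j _ => integrable_cont (by fun_prop)]
      refine Finset.sum_congr rfl fun i _ => ?_
      rw [integral_finsetSum _ fun j _ => integrable_cont (by fun_prop),
        integral_finsetSum _ fun j _ => integrable_cont (by fun_prop)]
      refine Finset.sum_congr rfl fun j _ => ?_
      rw [← fub _ (hm _ _)])
    (by
      intro v
      refine (norm_sum_le _ _).trans ?_
      refine (Finset.sum_le_sum fun i _ => amgm_bound hκ2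
        (Finset.sum_nonneg fun _ _ => sq_nonneg _) (Finset.sum_nonneg fun _ _ => sq_nonneg _)
        ((bilin_bound (fun i j => F i j v) M (hF v) _ _).trans
          (le_of_eq (mul_right_comm _ _ _)))).trans (le_of_eq ?_)
      rw [← Finset.sum_div, Finset.sum_add_distrib, ← Finset.mul_sum, ← Finset.mul_sum])
  -- comparison of `W` with the Hermitian part
  have hW : ∀ i j, ∫ u, ‖⟪η i, Φ₂ u (ξ j)⟫_ℂ‖ ^ 2 ∂μ
      ≤ ∫ u, ‖herm (Φ₂ u) (η i) (ξ j)‖ ^ 2 ∂μ := by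
    intro i j
    have e1 := orth_three (μ := μ) (a := fun _ => 0)
      (b := fun u => ⟪η i, Φ₂ u (ξ j)⟫_ℂ - ⟪η i, ξ j⟫_ℂ) continuous_const (by fun_prop)
      ⟪η i, ξ j⟫_ℂ (by simp) (hmean _ _) (by simp)
    have e2 := orth_three (μ := μ) (a := fun u => ⟪ξ j, Φ₂ u (η i)⟫_ℂ - ⟪ξ j, η i⟫_ℂ)
      (b := fun u => ⟪η i, Φ₂ u (ξ j)⟫_ℂ - ⟪η i, ξ j⟫_ℂ) (by fun_prop) (by fun_prop)
      (2 * ⟪η i, ξ j⟫_ℂ) (hmean _ _) (hmean _ _) (hmean₂ _ _ _ _)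
    have e3 : ∀ u, 2 * ⟪η i, ξ j⟫_ℂ + conj (⟪ξ j, Φ₂ u (η i)⟫_ℂ - ⟪ξ j, η i⟫_ℂ)
        + (⟪η i, Φ₂ u (ξ j)⟫_ℂ - ⟪η i, ξ j⟫_ℂ) = herm (Φ₂ u) (η i) (ξ j) := by
      intro u
      rw [map_sub, inner_conj_symm (η i) (ξ j), herm]
      ring
    simp only [map_zero, add_zero, add_sub_cancel, norm_zero, ne_eq, OfNat.ofNat_ne_zero,
      not_false_eq_true, zero_pow, integral_zero] at e1
    simp_rw [e3] at e2
    rw [e1, e2, norm_mul, Complex.norm_ofNat]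
    have : 0 ≤ ∫ u, ‖⟪ξ j, Φ₂ u (η i)⟫_ℂ - ⟪ξ j, η i⟫_ℂ‖ ^ 2 ∂μ :=
      integral_nonneg fun _ => sq_nonneg _
    nlinarith [sq_nonneg ‖⟪η i, ξ j⟫_ℂ‖]
  have hsum : ∀ x y : ι → H, ∑ i, ∑ j, ∫ u, ‖herm (Φ₂ u) (x i) (y j)‖ ^ 2 ∂μ
      = ∫ u, ∑ i, ∑ j, ‖herm (Φ₂ u) (x i) (y j)‖ ^ 2 ∂μ := by
    intro x y
    rw [integral_finsetSum _ fun j _ => integrable_cont (by fun_prop)]
    refine Finset.sum_congr rfl fun j _ => ?_
    rw [integral_finsetSum _ fun l _ => integrable_cont (by fun_prop)]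
  have hG : 2 * ∑ i, ∑ j, ∫ u, ‖herm (Φ₂ u) (η i) (ξ j)‖ ^ 2 ∂μ
      ≤ ∑ i, ∑ j, ∫ u, ‖herm (Φ₂ u) (ξ i) (ξ j)‖ ^ 2 ∂μ
        + ∑ i, ∑ j, ∫ u, ‖herm (Φ₂ u) (η i) (η j)‖ ^ 2 ∂μ := by
    rw [hsum, hsum, hsum, ← integral_const_mul, ← integral_add (integrable_cont (by fun_prop))
      (integrable_cont (by fun_prop))]
    exact integral_mono (integrable_cont (by fun_prop)) (integrable_cont (by fun_prop))
      fun u => gram_bound (Φ₂ u) (hpos u) ξ η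
  have hW' := Finset.sum_le_sum (s := Finset.univ) fun i _ =>
    Finset.sum_le_sum (s := Finset.univ) fun j _ => hW i j
  nlinarith [sq_nonneg κ]

end Crest.Agent.R132
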