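import Crest.Prelude.Def_NumRangeMetric

/-!
Factorisation `f = p + charpoly * k` for a polynomial agreeing with `f` on the spectrum.
-/

open Crest.AnalysisR.NumRange

namespace Crest.Agent.R132

namespace Agree

theorem exists_factor_multiset {V : Set ℂ} (hV : IsOpen V) (s : Multiset ℂ) :
    ∀ {g : ℂ → ℂ}, DifferentiableOn ℂ g V → (∀ μ ∈ s, μ ∈ V) →
      (∀ μ ∈ V, ((s.count μ : ℕ) : ℕ∞) ≤ analyticOrderAt g μ) →
      ∃ k : ℂ → ℂ, DifferentiableOn ℂ k V ∧ ∀ z ∈ V, g z = (s.map (fun μ => z - μ)).prod * k z := by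
  classical
  induction s using Multiset.induction_on with
  | empty => intro g hg _ _; exact ⟨g, hg, fun z _ => by simp⟩
  | cons a s ih =>
    intro g hg hs hord
    have ha : a ∈ V := hs a (Multiset.mem_cons_self a s)
    have hga : g a = 0 := by
      apply apply_eq_zero_of_analyticOrderAt_ne_zero
      intro h0
      have := hord a ha
      rw [h0, Multiset.count_cons_self] at this
      simp at this
    have hd : DifferentiableOn ℂ (dslope g a) V :=
      (Complex.differentiableOn_dslope (hV.mem_nhds ha)).2 hg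
    have hfac : g = (fun z => z - a) * dslope g a := by
      funext z
      have := sub_smul_dslope g a z
      simp only [smul_eq_mul, hga, sub_zero] at this
      simp [this]
    have hord' : ∀ μ ∈ V, ((s.count μ : ℕ) : ℕ∞) ≤ analyticOrderAt (dslope g a) μ := by
      intro μ hμ
      have h1 := hord μ hμ
      have han : AnalyticAt ℂ (dslope g a) μ := hd.analyticAt (hV.mem_nhds hμ)
      have h2 : analyticOrderAt g μ
          = analyticOrderAt (fun z : ℂ => z - a) μ + analyticOrderAt (dslope g a) μ := by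
        conv_lhs => rw [hfac]
        exact analyticOrderAt_mul (by fun_prop) han
      rw [h2] at h1
      by_cases hμa : μ = a
      · subst hμa
        rw [Multiset.count_cons_self, analyticOrderAt_id_sub_const_self, add_comm (1 : ℕ∞)] at h1
        push_cast at h1
        exact (ENat.add_le_add_iff_right (by simp)).1 h1
      · rw [Multiset.count_cons_of_ne hμa, analyticOrderAt_id_sub_const_of_ne hμa, zero_add] at h1
        exact h1
    obtain ⟨k, hk, hk'⟩ := ih hd (fun μ hμ => hs μ (Multiset.mem_cons_of_mem hμ)) hord'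
    refine ⟨k, hk, fun z hz => ?_⟩
    have := congrFun hfac z
    simp only [Pi.mul_apply] at this
    rw [this, hk' z hz, Multiset.map_cons, Multiset.prod_cons, mul_assoc]

end Agree

theorem exists_factor_of_agrees {n : ℕ} (A : Matrix (Fin n) (Fin n) ℂ) {V : Set ℂ} (hV : IsOpen V)
    (hsp : spectrum ℂ A ⊆ V) {f : ℂ → ℂ} (hf : DifferentiableOn ℂ f V) {p : Polynomial ℂ}
    (hp : AgreesOnSpectrum A f p) :
    ∃ k : ℂ → ℂ, DifferentiableOn ℂ k V ∧ ∀ z ∈ V, f z = p.eval z + A.charpoly.eval z * k z := by
  classical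
  have hmon : A.charpoly.Monic := A.charpoly_monic
  have hsplit : A.charpoly.Splits := IsAlgClosed.splits _
  have hcard : A.charpoly.roots.card = n := by
    rw [← hsplit.natDegree_eq_card_roots, Matrix.charpoly_natDegree_eq_dim, Fintype.card_fin]
  have hroot : ∀ μ ∈ A.charpoly.roots, μ ∈ spectrum ℂ A := fun μ hμ =>
    Matrix.mem_spectrum_iff_isRoot_charpoly.2 (Polynomial.isRoot_of_mem_roots hμ)
  have hpd : DifferentiableOn ℂ (fun z => p.eval z) V := p.differentiable.differentiableOn
  have hg : DifferentiableOn ℂ (fun z => f z - p.eval z) V := hf.sub hpd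
  obtain ⟨k, hk, hk'⟩ := Agree.exists_factor_multiset hV A.charpoly.roots hg
    (fun μ hμ => hsp (hroot μ hμ)) (by
      intro μ hμ
      by_cases hm : μ ∈ A.charpoly.roots
      · have han : AnalyticAt ℂ (fun z => f z - p.eval z) μ := hg.analyticAt (hV.mem_nhds hμ)
        have hfa : AnalyticAt ℂ f μ := hf.analyticAt (hV.mem_nhds hμ)
        have hpa : AnalyticAt ℂ (fun z => p.eval z) μ := hpd.analyticAt (hV.mem_nhds hμ)
        rw [natCast_le_analyticOrderAt_iff_iteratedDeriv_eq_zero han]
        intro i hi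
        have hin : i < n := lt_of_lt_of_le hi (by
          refine le_of_le_of_eq ?_ hcard
          convert Multiset.count_le_card μ A.charpoly.roots)
        rw [iteratedDeriv_fun_sub hfa.contDiffAt hpa.contDiffAt, hp μ (hroot μ hm) i hin, sub_self]
      · rw [Multiset.count_eq_zero_of_notMem hm]; simp)
  refine ⟨k, hk, fun z hz => ?_⟩
  have h1 : A.charpoly.eval z = (A.charpoly.roots.map (fun μ => z - μ)).prod := by
    conv_lhs => rw [hsplit.eq_prod_roots_of_monic hmon]
    rw [Polynomial.eval_multiset_prod, Multiset.map_map]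
    simp
  rw [h1, ← hk' z hz]; ring

theorem spectrum_subset_numRange {n : ℕ} (A : Matrix (Fin n) (Fin n) ℂ) :
    spectrum ℂ A ⊆ numRange A := by
  intro μ hμ
  rw [← Matrix.spectrum_toLpLin 2, ← Module.End.hasEigenvalue_iff_mem_spectrum] at hμ
  obtain ⟨v, hv⟩ := hμ.exists_hasEigenvector
  have hv0 : v ≠ 0 := hv.2
  have hn : ‖v‖ ≠ 0 := norm_ne_zero_iff.2 hv0
  have hAv : Matrix.toEuclideanLin A v = μ • v := hv.apply_eq_smul
  refine ⟨((‖v‖⁻¹ : ℝ) : ℂ) • v, ?_, ?_⟩
  · rw [norm_smul, Complex.norm_real, norm_inv, norm_norm, inv_mul_cancel₀ hn]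
  · rw [map_smul, hAv, inner_smul_left, inner_smul_right, inner_smul_right,
      inner_self_eq_norm_sq_to_K, Complex.conj_ofReal]
    have : ((‖v‖ : ℝ) : ℂ) ≠ 0 := by exact_mod_cast hn
    simp only [Complex.ofReal_inv, Complex.coe_algebraMap]
    field_simp

end Crest.Agent.R132
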