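import Mathlib

/-!
Shared definitions for result 132 (complete Crouzeix bound).
-/

namespace Crest.Agent.R132

/-- The algebra of functions `ℂ → ℂ` that are holomorphic on `V`. -/
def Hol (V : Set ℂ) : Subalgebra ℂ (ℂ → ℂ) where
  carrier := {g | DifferentiableOn ℂ g V}
  mul_mem' := fun ha hb => DifferentiableOn.mul ha hb
  add_mem' := fun ha hb => DifferentiableOn.add ha hb
  algebraMap_mem' := fun c => differentiableOn_const (c := c)

theorem mem_Hol {V : Set ℂ} {g : ℂ → ℂ} : g ∈ Hol V ↔ DifferentiableOn ℂ g V := Iff.rfl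

/-- The coordinate function `z ↦ z` as an element of `Hol V`. -/
def zHol (V : Set ℂ) : Hol V := ⟨fun z => z, differentiableOn_id⟩

@[simp] theorem zHol_apply (V : Set ℂ) (z : ℂ) : (zHol V : ℂ → ℂ) z = z := rfl

/-- `I` is a holomorphic functional calculus for `A` on `V` with complete bound `2`. -/
structure IsCalculus {H : Type*} [NormedAddCommGroup H] [InnerProductSpace ℂ H]
    (A : H →L[ℂ] H) (V : Set ℂ) (I : Hol V →ₗ[ℂ] (H →L[ℂ] H)) : Prop where
  /-- `I g` depends only on the values of `g` on `V`. -/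
  congr : ∀ g g' : Hol V, Set.EqOn (g : ℂ → ℂ) g' V → I g = I g'
  map_one : I 1 = 1
  map_z_mul : ∀ g : Hol V, I (zHol V * g) = A * I g
  comm : ∀ (B : H →L[ℂ] H), Commute A B → ∀ g : Hol V, Commute (I g) B
  /-- the complete bound with constant `2` -/
  bound : ∀ (ι : Type) [Fintype ι] (F : ι → ι → Hol V) (M : ℝ),
    (∀ z ∈ V, ∀ a : ι → ℂ,
      ∑ i, ‖∑ j, (F i j : ℂ → ℂ) z * a j‖ ^ 2 ≤ M ^ 2 * ∑ j, ‖a j‖ ^ 2) →
    ∀ v : ι → H, ∑ i, ‖∑ j, I (F i j) (v j)‖ ^ 2 ≤ (2 * M) ^ 2 * ∑ j, ‖v j‖ ^ 2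

/-- A polynomial as an element of `Hol V`. -/
noncomputable def polyHol (V : Set ℂ) (q : Polynomial ℂ) : Hol V :=
  ⟨fun z => q.eval z, q.differentiable.differentiableOn⟩

@[simp] theorem polyHol_apply (V : Set ℂ) (q : Polynomial ℂ) (z : ℂ) :
    (polyHol V q : ℂ → ℂ) z = q.eval z := rfl

theorem IsCalculus.map_poly_mul {H : Type*} [NormedAddCommGroup H] [InnerProductSpace ℂ H]
    {A : H →L[ℂ] H} {V : Set ℂ} {I : Hol V →ₗ[ℂ] (H →L[ℂ] H)} (h : IsCalculus A V I)
    (q : Polynomial ℂ) (g : Hol V) : I (polyHol V q * g) = Polynomial.aeval A q * I g := by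
  induction q using Polynomial.induction_on with
  | C a =>
    have : polyHol V (Polynomial.C a) * g = a • g := by
      ext z; simp
    rw [this, map_smul, Polynomial.aeval_C, Algebra.smul_def]
  | add p q hp hq =>
    have : polyHol V (p + q) * g = polyHol V p * g + polyHol V q * g := by
      ext z; simp [add_mul]
    rw [this, map_add, hp, hq, map_add, add_mul]
  | monomial n a ih =>
    have : polyHol V (Polynomial.C a * Polynomial.X ^ (n + 1)) * g
        = zHol V * (polyHol V (Polynomial.C a * Polynomial.X ^ n) * g) := by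
      ext z; simp; ring
    rw [this, h.map_z_mul, ih, ← mul_assoc]
    congr 1
    simp only [map_mul, Polynomial.aeval_C, map_pow, Polynomial.aeval_X]
    rw [pow_succ', ← mul_assoc, ← mul_assoc, Algebra.commutes]

theorem IsCalculus.map_poly {H : Type*} [NormedAddCommGroup H] [InnerProductSpace ℂ H]
    {A : H →L[ℂ] H} {V : Set ℂ} {I : Hol V →ₗ[ℂ] (H →L[ℂ] H)} (h : IsCalculus A V I)
    (q : Polynomial ℂ) : I (polyHol V q) = Polynomial.aeval A q := by
  have := h.map_poly_mul q 1
  rwa [mul_one, h.map_one, mul_one] at this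

end Crest.Agent.R132
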