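import Crest.Agent.R132.Core1
import Crest.Agent.R132.Defs

/-!
The functional calculus along a level curve of the exterior map and its complete bound.
-/

open Set Metric Filter Topology ComplexConjugate MeasureTheory
open scoped InnerProductSpace

namespace Crest.Agent.R132

variable {H : Type*} [NormedAddCommGroup H] [InnerProductSpace ℂ H]

theorem kerC_pos' {v u : ℂ} (h : ‖u‖ < ‖v‖) : 0 < 1 + 2 * (kerC v u).re := by
  have hne : v - u ≠ 0 := sub_ne_zero.2 fun h' => by simp [h'] at h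
  have hpos : 0 < Complex.normSq (v - u) := Complex.normSq_pos.2 hne
  have h2 : Complex.normSq u < Complex.normSq v := by
    rw [← Complex.sq_norm, ← Complex.sq_norm]
    exact pow_lt_pow_left₀ h (norm_nonneg _) two_ne_zero
  rw [kerC, Complex.conj_re, Complex.div_re]
  have : 1 + 2 * (u.re * (v - u).re / Complex.normSq (v - u)
      + u.im * (v - u).im / Complex.normSq (v - u))
      = (Complex.normSq v - Complex.normSq u) / Complex.normSq (v - u) := by
    field_simp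
    simp only [Complex.normSq_apply, Complex.sub_re, Complex.sub_im]
    ring
  rw [this]
  exact div_pos (by linarith) hpos

theorem convex_halfPlane (c p : ℂ) : Convex ℝ {z : ℂ | 0 < (c * (1 - p * z)).re} := by
  intro x hx y hy a b ha hb hab
  have hx' : 0 < (c * (1 - p * x)).re := hx
  have hy' : 0 < (c * (1 - p * y)).re := hy
  have h1 : c * (1 - p * (a • x + b • y)) = a * (c * (1 - p * x)) + b * (c * (1 - p * y)) := by
    have : (a : ℂ) + b = 1 := by exact_mod_cast hab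
    simp only [Complex.real_smul]
    linear_combination (-c) * this
  change 0 < (c * (1 - p * (a • x + b • y))).re
  rw [h1, Complex.add_re, Complex.re_ofReal_mul, Complex.re_ofReal_mul]
  rcases ha.eq_or_lt with rfl | ha'
  · have : b = 1 := by linarith
    rw [this]
    linarith
  · have := mul_pos ha' hx'
    have := mul_nonneg hb hy'.le
    linarith

theorem pt_mem {ρ : ℝ} (hρ : 0 < ρ) (hρ1 : ρ < 1) (v : Circ) :
    pt ρ v ∈ ball (0 : ℂ) 1 \ {0} :=
  ⟨by simpa [norm_pt hρ.le] using hρ1, norm_pos_iff.1 (by rw [norm_pt hρ.le]; exact hρ)⟩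

/-- The block operator with entries `T i j`. -/
noncomputable def blockOp [FiniteDimensional ℂ H] {ι : Type*} [Fintype ι]
    (T : ι → ι → H →L[ℂ] H) : PiLp 2 (fun _ : ι => H) →L[ℂ] PiLp 2 (fun _ : ι => H) :=
  LinearMap.toContinuousLinearMap
    { toFun := fun v => WithLp.toLp 2 fun i => ∑ j, T i j (v j)
      map_add' := fun v w => by
        ext i; simp [Finset.sum_add_distrib]
      map_smul' := fun c v => by
        ext i; simp [Finset.smul_sum] }

theorem blockOp_apply [FiniteDimensional ℂ H] {ι : Type*} [Fintype ι]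
    (T : ι → ι → H →L[ℂ] H) (v : PiLp 2 (fun _ : ι => H)) (i : ι) :
    blockOp T v i = ∑ j, T i j (v j) := rfl

namespace ExtMap

variable {K : Set ℂ} {r : ℝ} {φ ψ : ℂ → ℂ} (h : ExtMap K r φ ψ)
include h

theorem cont_inv_ψ {ρ : ℝ} (hρ : 0 < ρ) (hρ1 : ρ < 1) : Continuous fun v => (ψ (pt ρ v))⁻¹ :=
  (h.dψ.continuousOn.comp_continuous (continuous_pt ρ) fun v => (pt_mem hρ hρ1 v).1).inv₀
    fun v => h.ψ_ne_zero (pt_mem hρ hρ1 v).1 (pt_mem hρ hρ1 v).2

theorem cont_logd {ρ : ℝ} (hρ : 0 < ρ) (hρ1 : ρ < 1) : Continuous fun v => logd ψ (pt ρ v) :=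
  h.diff_logd.continuousOn.comp_continuous (continuous_pt ρ) fun u => (pt_mem hρ hρ1 u).1

variable [FiniteDimensional ℂ H] {A : H →L[ℂ] H} (hA : ∀ x : H, ‖x‖ = 1 → ⟪x, A x⟫_ℂ ∈ K)
include hA

theorem cont_opKer {ρ : ℝ} (hρ : 0 < ρ) (hρ1 : ρ < 1) : Continuous fun v => opKer ψ A (pt ρ v) :=
  (h.diff_opKer hA).continuousOn.comp_continuous (continuous_pt ρ) fun u => (pt_mem hρ hρ1 u).1

variable {V : Set ℂ} (hVo : IsOpen V) (hVc : Convex ℝ V) {ρ : ℝ} (hρ : 0 < ρ) (hρ1 : ρ < 1)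
  (hV : ∀ θ, (ψ (pt ρ θ))⁻¹ ∈ V)
include hVo hVc hρ hρ1 hV

theorem key_identity {g : ℂ → ℂ} (hg : DifferentiableOn ℂ g V) {u : ℂ} (hu : ‖u‖ < ρ) :
    ∫ v, (g (ψ (pt ρ v))⁻¹ * (1 + conj (kerC (pt ρ v) u) + kerQ ψ (pt ρ v) u))
        • opKer ψ A (pt ρ v) ∂mu
      = (∫ v, g (ψ (pt ρ v))⁻¹ • opKer ψ A (pt ρ v) ∂mu) * opKer ψ A u := by
  have : CompleteSpace H := FiniteDimensional.complete ℂ H
  have hu1 : u ∈ ball (0 : ℂ) 1 := by simpa using hu.trans hρ1
  have nv : ∀ v, ‖pt ρ v‖ = ρ := norm_pt hρ.le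
  have hne : ∀ v, pt ρ v ≠ u := fun v h' => by
    have := nv v
    rw [h'] at this
    linarith
  have hk : ∀ v, 1 + conj (kerC (pt ρ v) u) + kerQ ψ (pt ρ v) u
      = logd ψ u / (1 - ψ u * (ψ (pt ρ v))⁻¹) := by
    intro v
    rw [one_add_kerC (hne v), kerQ]
    ring
  have hpos : ∀ v, 0 < (conj (logd ψ u) * (1 - ψ u * (ψ (pt ρ v))⁻¹)).re := by
    intro v
    have h1 := kerC_pos' (v := pt ρ v) (u := u) (by rw [nv]; exact hu)
    have h2 := h.kerQ_pos (v := pt ρ v) (u := u) (by rw [nv]; exact hρ1) (by rw [nv]; exact hu)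
    have h3 := congrArg Complex.re (hk v)
    rw [Complex.add_re, Complex.add_re, Complex.conj_re, Complex.one_re, Complex.div_re,
      ← add_div] at h3
    have h4 : 0 < ((logd ψ u).re * (1 - ψ u * (ψ (pt ρ v))⁻¹).re
        + (logd ψ u).im * (1 - ψ u * (ψ (pt ρ v))⁻¹).im)
          / Complex.normSq (1 - ψ u * (ψ (pt ρ v))⁻¹) := by linarith
    have h5 := (div_pos_iff.1 h4).resolve_right fun h' =>
      absurd h'.2 (not_lt.2 (Complex.normSq_nonneg _))
    rw [Complex.mul_re, Complex.conj_re, Complex.conj_im]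
    linarith [h5.1]
  have hne' : ∀ z : ℂ, 0 < (conj (logd ψ u) * (1 - ψ u * z)).re → 1 - ψ u * z ≠ 0 := by
    intro z hz h0
    simp [h0] at hz
  have hvan := h.vanish hρ hρ1
    (W := V ∩ {z : ℂ | 0 < (conj (logd ψ u) * (1 - ψ u * z)).re})
    (hVo.inter (isOpen_lt continuous_const (by fun_prop)))
    (hVc.inter (convex_halfPlane _ _)) (fun θ => ⟨hV θ, hpos θ⟩)
    (g := fun z => g z * (ψ u / (1 - ψ u * z)))
    ((hg.mono inter_subset_left).mul ((differentiableOn_const _).div (by fun_prop)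
      fun z hz => hne' z hz.2))
  have cψ := h.cont_inv_ψ hρ hρ1
  have cl := h.cont_logd hρ hρ1
  have cK := h.cont_opKer hA hρ hρ1
  have cg : Continuous fun v => g (ψ (pt ρ v))⁻¹ := hg.continuousOn.comp_continuous cψ hV
  have cd : Continuous fun v => ψ u / (1 - ψ u * (ψ (pt ρ v))⁻¹) :=
    continuous_const.div (continuous_const.sub (continuous_const.mul cψ))
      fun v => hne' _ (hpos v)
  have e : ∀ v, (g (ψ (pt ρ v))⁻¹ * (1 + conj (kerC (pt ρ v) u) + kerQ ψ (pt ρ v) u))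
        • opKer ψ A (pt ρ v)
      = (g (ψ (pt ρ v))⁻¹ • opKer ψ A (pt ρ v)) * opKer ψ A u
        + (g (ψ (pt ρ v))⁻¹ * (ψ u / (1 - ψ u * (ψ (pt ρ v))⁻¹))
          * (logd ψ (pt ρ v) * (ψ (pt ρ v))⁻¹)) • opKer ψ A u := by
    intro v
    rw [hk, mul_smul, h.ker_smul_opKer hA hu1 (pt_mem hρ hρ1 v) (hne' _ (hpos v)), smul_add,
      smul_mul_assoc, smul_smul, mul_assoc]
  simp_rw [e]
  rw [integral_add, integral_smul_const, hvan, zero_smul, add_zero,
    integral_mul_const_of_integrable]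
  · exact integrable_cont (cg.smul cK)
  · exact integrable_cont ((cg.smul cK).mul continuous_const)
  · exact integrable_cont (((cg.mul cd).mul (cl.mul cψ)).smul continuous_const)

omit hVo hVc in
theorem commute_int {g : ℂ → ℂ} (hg : DifferentiableOn ℂ g V) {B : H →L[ℂ] H}
    (hB : Commute A B) :
    Commute (∫ v, g (ψ (pt ρ v))⁻¹ • opKer ψ A (pt ρ v) ∂mu) B := by
  have cψ := h.cont_inv_ψ hρ hρ1
  have cK := h.cont_opKer hA hρ hρ1
  have cg : Continuous fun v => g (ψ (pt ρ v))⁻¹ := hg.continuousOn.comp_continuous cψ hV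
  have hi : Integrable (fun v => g (ψ (pt ρ v))⁻¹ • opKer ψ A (pt ρ v)) mu :=
    integrable_cont (cg.smul cK)
  change _ * _ = _ * _
  rw [← integral_mul_const_of_integrable hi, ← integral_const_mul_of_integrable hi]
  congr 1; ext1 v
  exact ((h.commute_opKer hA (pt_mem hρ hρ1 v).1 hB).smul_left _).eq

theorem complete_bound {ι : Type*} [Fintype ι] {F : ι → ι → ℂ → ℂ}
    (hF : ∀ i j, DifferentiableOn ℂ (F i j) V) {M : ℝ}
    (hM : ∀ z ∈ V, ∀ a : ι → ℂ, ∑ i, ‖∑ j, F i j z * a j‖ ^ 2 ≤ M ^ 2 * ∑ j, ‖a j‖ ^ 2) :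
    ‖blockOp fun i j => ∫ v, F i j (ψ (pt ρ v))⁻¹ • opKer ψ A (pt ρ v) ∂mu‖ ^ 2
      ≤ (2 * M) ^ 2 := by
  classical
  have : CompleteSpace H := FiniteDimensional.complete ℂ H
  set T : ι → ι → H →L[ℂ] H :=
    fun i j => ∫ v, F i j (ψ (pt ρ v))⁻¹ • opKer ψ A (pt ρ v) ∂mu with hT
  rcases (norm_nonneg (blockOp T)).eq_or_lt with h0 | hκ
  · rw [← h0]; nlinarith [sq_nonneg (2 * M)]
  obtain ⟨ξ, η, hη1, hξ, hη⟩ := exists_singular_pair (blockOp T) hκ
  set κ : ℝ := ‖blockOp T‖ with hκdef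
  have hξ' : ∀ i, ∑ j, T i j (ξ j) = (κ : ℂ) • η i := fun i => by
    rw [← blockOp_apply, hξ]; rfl
  have hη' : ∀ j x, ∑ i, ⟪η i, T i j x⟫_ℂ = κ * ⟪ξ j, x⟫_ℂ := fun j x => by
    have := hη (PiLp.single 2 j x)
    rw [PiLp.inner_apply, PiLp.inner_apply] at this
    simp only [blockOp_apply] at this
    have e1 : ∑ i, ⟪ξ i, (PiLp.single 2 j x : PiLp 2 fun _ : ι => H) i⟫_ℂ = ⟪ξ j, x⟫_ℂ := by
      rw [Finset.sum_eq_single j (fun b _ hb => by rw [PiLp.single_eq_of_ne _ hb, inner_zero_right])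
        (by simp), PiLp.single_eq_same]
    rw [← e1, ← this]
    refine Finset.sum_congr rfl fun i _ => ?_
    rw [Finset.sum_eq_single j (fun b _ hb => by rw [PiLp.single_eq_of_ne _ hb, map_zero])
      (by simp), PiLp.single_eq_same]
  have cψ := h.cont_inv_ψ hρ hρ1
  have cK := h.cont_opKer hA hρ hρ1
  have cF : ∀ i j, Continuous fun v => F i j (ψ (pt ρ v))⁻¹ := fun i j =>
    (hF i j).continuousOn.comp_continuous cψ hV
  set N : ℝ → ℝ := fun s => ∑ i, ∑ j,
    Real.circleAverage (fun u => ‖⟪η i, opKer ψ A u (ξ j)⟫_ℂ‖ ^ 2) 0 s with hN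
  have hN' : ∀ s, N s = ∑ i, ∑ j, ∫ u, ‖⟪η i, opKer ψ A (pt s u) (ξ j)⟫_ℂ‖ ^ 2 ∂mu := by
    intro s
    simp only [hN, ← integral_pt]
  have hstep : ∀ s ∈ Ioo 0 ρ, κ ^ 2 * N s ≤ 4 * M ^ 2 * N ρ := by
    intro s hs
    have hs1 : s < 1 := hs.2.trans hρ1
    rw [hN', hN']
    refine abstract_bound (μ := mu) (h.kernelPair hs.1 hs.2 hρ1) cK (h.cont_opKer hA hs.1 hs1)
      cF (fun v => hM _ (hV v)) (T := T)
      (fun i j u => h.key_identity hA hVo hVc hρ hρ1 hV (hF i j)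
        (by rw [norm_pt hs.1.le]; exact hs.2))
      (fun i j u => (h.commute_int hA hρ hρ1 hV (hF i j)
        (h.commute_opKer hA (pt_mem hs.1 hs1 u).1 (Commute.refl A)).symm).eq)
      (fun u x => h.opKer_pos hA (pt_mem hs.1 hs1 u) x)
      (fun x y => (h.hol0_opKer hA hs1 x y).integral hs.1)
      (fun x y x' y' => ((h.hol0_opKer hA hs1 x y).mul (h.hol0_opKer hA hs1 x' y')).integral hs.1)
      ξ η hκ hξ' hη'
  have hcont : ContinuousOn N (Ico 0 1) := by
    refine continuousOn_finsetSum _ fun i _ => continuousOn_finsetSum _ fun j _ => ?_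
    refine Real.ContinuousOn.circleAverage ?_ fun s hs => hs.1
    have h1 : ContinuousOn (opKer ψ A) {z : ℂ | ‖z - 0‖ ∈ Ico (0 : ℝ) 1} :=
      (h.diff_opKer hA).continuousOn.mono fun z hz => by simpa using hz.2
    have h2 : Continuous fun S : H →L[ℂ] H => ‖⟪η i, S (ξ j)⟫_ℂ‖ ^ 2 := by fun_prop
    exact h2.comp_continuousOn h1
  have hlim : κ ^ 2 * N ρ ≤ 4 * M ^ 2 * N ρ := by
    have h1 : ContinuousAt N ρ := hcont.continuousAt (Ico_mem_nhds hρ hρ1)
    have h2 := (h1.tendsto.const_mul (κ ^ 2)).mono_left (nhdsWithin_le_nhds (s := Iio ρ))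
    refine le_of_tendsto h2 ?_
    filter_upwards [Ioo_mem_nhdsLT hρ] with s hs using hstep s hs
  have hnn : ∀ i j, 0 ≤ ∫ u, ‖⟪η i, opKer ψ A (pt ρ u) (ξ j)⟫_ℂ‖ ^ 2 ∂mu := fun i j =>
    integral_nonneg fun _ => sq_nonneg _
  have hNpos : 0 < N ρ := by
    rw [hN']
    refine lt_of_le_of_ne (Finset.sum_nonneg fun i _ => Finset.sum_nonneg fun j _ => hnn i j) ?_
    intro h0
    have h1 : ∀ i j, ⟪η i, T i j (ξ j)⟫_ℂ = 0 := by
      intro i j
      have h2 := (Finset.sum_eq_zero_iff_of_nonneg fun j _ => hnn i j).1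
        ((Finset.sum_eq_zero_iff_of_nonneg fun i _ => Finset.sum_nonneg fun j _ => hnn i j).1
          h0.symm i (Finset.mem_univ _)) j (Finset.mem_univ _)
      rw [integral_eq_zero_iff_of_nonneg (fun _ => sq_nonneg _)
        (integrable_cont (((show Continuous fun S : H →L[ℂ] H => ‖⟪η i, S (ξ j)⟫_ℂ‖ ^ 2 by
          fun_prop)).comp cK))] at h2
      simp only [hT]
      rw [inner_integral_apply ((cF i j).fun_smul cK)]
      refine integral_eq_zero_of_ae ?_
      filter_upwards [h2] with u hu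
      have hu' : ⟪η i, opKer ψ A (pt ρ u) (ξ j)⟫_ℂ = 0 := by simpa using hu
      simp [hu']
    have h3 : ⟪η, blockOp T ξ⟫_ℂ = 0 := by
      rw [PiLp.inner_apply]
      refine Finset.sum_eq_zero fun i _ => ?_
      rw [blockOp_apply, inner_sum]
      exact Finset.sum_eq_zero fun j _ => h1 i j
    rw [hξ, inner_smul_right, inner_self_eq_norm_sq_to_K, hη1] at h3
    have : (κ : ℂ) = 0 := by simpa using h3
    exact hκ.ne' (by exact_mod_cast this)
  have := le_of_mul_le_mul_right hlim hNpos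
  linarith

theorem exists_calculus : ∃ I : Hol V →ₗ[ℂ] (H →L[ℂ] H), IsCalculus A V I := by
  have : CompleteSpace H := FiniteDimensional.complete ℂ H
  have cψ := h.cont_inv_ψ hρ hρ1
  have cl := h.cont_logd hρ hρ1
  have cK := h.cont_opKer hA hρ hρ1
  have cg : ∀ g : Hol V, Continuous fun v => (g : ℂ → ℂ) (ψ (pt ρ v))⁻¹ := fun g =>
    (mem_Hol.1 g.2).continuousOn.comp_continuous cψ hV
  let I : Hol V →ₗ[ℂ] (H →L[ℂ] H) :=
    { toFun := fun g => ∫ v, (g : ℂ → ℂ) (ψ (pt ρ v))⁻¹ • opKer ψ A (pt ρ v) ∂mu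
      map_add' := fun g g' => by
        rw [← integral_add (integrable_cont ((cg g).fun_smul cK))
          (integrable_cont ((cg g').fun_smul cK))]
        congr 1; ext1 v
        simp [add_smul]
      map_smul' := fun c g => by
        rw [RingHom.id_apply, ← integral_smul]
        congr 1; ext1 v
        simp [mul_smul] }
  have hI : ∀ g : Hol V, I g = ∫ v, (g : ℂ → ℂ) (ψ (pt ρ v))⁻¹ • opKer ψ A (pt ρ v) ∂mu :=
    fun _ => rfl
  refine ⟨I, fun g g' hgg' => ?_, ?_, fun g => ?_, fun B hB g => ?_, fun ι _ F M hM v => ?_⟩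
  · rw [hI, hI]
    congr 1; ext1 v
    rw [hgg' (hV v)]
  · rw [hI]
    simp only [OneMemClass.coe_one, Pi.one_apply, one_smul]
    rw [mean_value hρ ((h.diff_opKer hA).mono (closedBall_subset_ball hρ1)), h.opKer_zero]
  · rw [hI, hI]
    have e : ∀ v, ((zHol V * g : Hol V) : ℂ → ℂ) (ψ (pt ρ v))⁻¹ • opKer ψ A (pt ρ v)
        = ((g : ℂ → ℂ) (ψ (pt ρ v))⁻¹ * (logd ψ (pt ρ v) * (ψ (pt ρ v))⁻¹)) • (1 : H →L[ℂ] H)
          + A * ((g : ℂ → ℂ) (ψ (pt ρ v))⁻¹ • opKer ψ A (pt ρ v)) := by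
      intro v
      rw [MulMemClass.coe_mul, Pi.mul_apply, zHol_apply, mul_comm, mul_smul,
        h.z_smul_opKer hA (pt_mem hρ hρ1 v), smul_add, smul_smul, mul_smul_comm]
    simp_rw [e]
    rw [integral_add, integral_smul_const, h.vanish hρ hρ1 hVo hVc hV (mem_Hol.1 g.2), zero_smul,
      zero_add, integral_const_mul_of_integrable]
    · exact integrable_cont ((cg g).smul cK)
    · exact integrable_cont (((cg g).mul (cl.mul cψ)).smul continuous_const)
    · exact integrable_cont (continuous_const.mul ((cg g).smul cK))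
  · exact h.commute_int hA hρ hρ1 hV (mem_Hol.1 g.2) hB
  · have h1 := h.complete_bound hA hVo hVc hρ hρ1 hV (F := fun i j => F i j)
      (fun i j => mem_Hol.1 (F i j).2) hM
    have h2 := (blockOp fun i j => I (F i j)).le_opNorm (WithLp.toLp 2 v)
    have h3 := pow_le_pow_left₀ (norm_nonneg _) h2 2
    rw [mul_pow, PiLp.norm_sq_eq_of_L2, PiLp.norm_sq_eq_of_L2] at h3
    refine h3.trans ?_
    exact mul_le_mul_of_nonneg_right h1 (Finset.sum_nonneg fun _ _ => sq_nonneg _)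

end ExtMap

end Crest.Agent.R132
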