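import Crest.Agent.R132.Defs
import Crest.Agent.R132.Core2
import Crest.Agent.Lib.RMT.Main

open Set Metric

namespace Crest.Agent.R132

theorem exists_calculus_zero {H : Type*} [NormedAddCommGroup H] [InnerProductSpace ℂ H]
    [FiniteDimensional ℂ H] (A : H →L[ℂ] H) (V K : Set ℂ) (hVo : IsOpen V) (hVc : Convex ℝ V)
    (hK : IsCompact K) (hKc : Convex ℝ K) (hKV : K ⊆ V) {r : ℝ} (hr : 0 < r)
    (hrK : ball 0 r ⊆ K) (hW : ∀ x : H, ‖x‖ = 1 → inner ℂ x (A x) ∈ K) :
    ∃ I : Hol V →ₗ[ℂ] (H →L[ℂ] H), IsCalculus A V I := by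
  obtain ⟨φ, ψ, h1, h2, h3, h4, h5, h6, h7⟩ := Crest.Agent.Lib.RMT.exists_biholo_ball
    (isOpen_extD hK) (isSimplyConnected_extD hKc (hrK (mem_ball_self hr))) (extD_ne_univ hr hrK)
    (zero_mem_extD K)
  have h : ExtMap K r φ ψ := ⟨hK, hKc, hr, hrK, h1, h2, h3, h4, h5, h6, h7⟩
  obtain ⟨δ, hδ, hδV⟩ := hK.exists_thickening_subset_open hVo hKV
  obtain ⟨s, hs, hsK⟩ := h.near_boundary hδ
  obtain ⟨ρ, hρ, hρ1⟩ := exists_between (max_lt hs one_pos)
  have hρ0 : 0 < ρ := (le_max_right _ _).trans_lt hρ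
  refine h.exists_calculus hW hVo hVc hρ0 hρ1 fun θ => hδV (hsK _ ?_ ?_)
  · rw [norm_pt hρ0.le]; exact (le_max_left _ _).trans_lt hρ
  · rw [norm_pt hρ0.le]; exact hρ1

/-- Translation of the variable. -/
def shiftHol (V : Set ℂ) (c : ℂ) : Hol V →ₗ[ℂ] Hol ((fun y => c + y) ⁻¹' V) where
  toFun g := ⟨fun y => (g : ℂ → ℂ) (c + y),
    (mem_Hol.1 g.2).comp ((differentiableOn_const c).add differentiableOn_id) fun _ hy => hy⟩
  map_add' _ _ := rfl
  map_smul' _ _ := rfl

/-- Core theorem: holomorphic functional calculus with complete bound `2`. -/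
theorem exists_calculus {H : Type*} [NormedAddCommGroup H] [InnerProductSpace ℂ H]
    [FiniteDimensional ℂ H] (A : H →L[ℂ] H) (V K : Set ℂ) (hVo : IsOpen V) (hVc : Convex ℝ V)
    (hK : IsCompact K) (hKc : Convex ℝ K) (hKV : K ⊆ V)
    (hW : ∀ x : H, ‖x‖ = 1 → inner ℂ x (A x) ∈ K) :
    ∃ I : Hol V →ₗ[ℂ] (H →L[ℂ] H), IsCalculus A V I := by
  rcases K.eq_empty_or_nonempty with rfl | ⟨c, hc⟩
  · have : Subsingleton H := by
      refine subsingleton_of_forall_eq 0 fun y => ?_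
      by_contra hy
      exact hW _ (inner_normalize A hy).1
    refine ⟨0, fun _ _ _ => rfl, Subsingleton.elim _ _, fun _ => Subsingleton.elim _ _,
      fun _ _ _ => Subsingleton.elim _ _, fun ι _ F M _ v => ?_⟩
    simp only [LinearMap.zero_apply, zero_apply, Finset.sum_const_zero, norm_zero, ne_eq,
      OfNat.ofNat_ne_zero, not_false_eq_true, zero_pow]
    positivity
  obtain ⟨δ, hδ, hδV⟩ := hK.exists_cthickening_subset_open hVo hKV
  have hconv : ∀ S : Set ℂ, Convex ℝ S → Convex ℝ ((fun y => c + y) ⁻¹' S) := fun S hS =>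
    hS.translate_preimage_right c
  obtain ⟨I, hI⟩ := exists_calculus_zero (A - c • 1) ((fun y => c + y) ⁻¹' V)
    ((fun y => c + y) ⁻¹' cthickening δ K) (hVo.preimage (by fun_prop)) (hconv V hVc)
    ((Homeomorph.addLeft c).isCompact_preimage.2 hK.cthickening) (hconv _ (hKc.cthickening δ))
    (preimage_mono hδV) hδ
    (fun y hy => mem_cthickening_of_dist_le (c + y) c δ K hc (by simpa using (mem_ball_zero_iff.1 hy).le))
    (fun x hx => by
      have h1 : c + inner ℂ x ((A - c • (1 : H →L[ℂ] H)) x) = inner ℂ x (A x) := by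
        simp [inner_self_eq_norm_sq_to_K, hx]
      change c + _ ∈ cthickening δ K
      rw [h1]
      exact self_subset_cthickening K (hW x hx))
  refine ⟨I ∘ₗ shiftHol V c, fun g g' hgg' => hI.congr _ _ fun y hy => hgg' hy, hI.map_one,
    fun g => ?_, fun B hB g => hI.comm B (hB.sub_left ((Commute.one_left B).smul_left c)) _,
    fun ι _ F M hM v => hI.bound ι (fun i j => shiftHol V c (F i j)) M (fun z hz => hM _ hz) v⟩
  have e : shiftHol V c (zHol V * g) = c • shiftHol V c g + zHol _ * shiftHol V c g := by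
    ext y
    simp [shiftHol, add_mul]
  rw [LinearMap.comp_apply, LinearMap.comp_apply, e, map_add, map_smul, hI.map_z_mul, sub_mul,
    smul_mul_assoc, one_mul]
  abel

end Crest.Agent.R132
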