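import Crest.Agent.R132.Kernel
import Crest.Agent.R132.Abstract2

/-!
The operator valued Cauchy kernel attached to the exterior map.
-/

open Set Metric Filter Topology ComplexConjugate MeasureTheory
open scoped InnerProductSpace

namespace Crest.Agent.R132

variable {H : Type*} [NormedAddCommGroup H] [InnerProductSpace ℂ H]

/-- Existence of a top singular pair. -/
theorem exists_singular_pair [FiniteDimensional ℂ H] (S : H →L[ℂ] H) (hS : 0 < ‖S‖) :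
    ∃ ξ η : H, ‖η‖ = 1 ∧ S ξ = (‖S‖ : ℂ) • η ∧ ∀ x, ⟪η, S x⟫_ℂ = ‖S‖ * ⟪ξ, x⟫_ℂ := by
  have : CompleteSpace H := FiniteDimensional.complete ℂ H
  have : ProperSpace H := FiniteDimensional.proper ℂ H
  obtain ⟨ξ, hξ, hmax⟩ := (isCompact_closedBall (0 : H) 1).exists_isMaxOn
    ⟨0, mem_closedBall_self zero_le_one⟩ (f := fun x => ‖S x‖) (by fun_prop)
  rw [mem_closedBall_zero_iff] at hξ
  have h1 : ‖S‖ ≤ ‖S ξ‖ :=
    ContinuousLinearMap.opNorm_le_of_unit_norm (norm_nonneg _) fun x hx =>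
      hmax (by simpa using hx.le)
  have h2 : ‖S ξ‖ ≤ ‖S‖ := by
    have := S.le_opNorm ξ
    nlinarith
  have h3 : ‖S ξ‖ = ‖S‖ := le_antisymm h2 h1
  have hS' : (‖S‖ : ℂ) ≠ 0 := by exact_mod_cast hS.ne'
  set η : H := (‖S‖ : ℂ)⁻¹ • S ξ with hη
  have hη1 : ‖η‖ = 1 := by
    rw [hη, norm_smul, h3, norm_inv, Complex.norm_real, Real.norm_of_nonneg hS.le,
      inv_mul_cancel₀ hS.ne']
  have hSξ : S ξ = (‖S‖ : ℂ) • η := by rw [hη, smul_inv_smul₀ hS']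
  refine ⟨ξ, η, hη1, hSξ, fun x => ?_⟩
  have h4 : ‖ContinuousLinearMap.adjoint S η‖ ≤ ‖S‖ := by
    have := (ContinuousLinearMap.adjoint S).le_opNorm η
    rwa [hη1, mul_one, LinearIsometryEquiv.norm_map] at this
  have h5 : ⟪ContinuousLinearMap.adjoint S η, (‖S‖ : ℂ) • ξ⟫_ℂ = ((‖S‖ ^ 2 : ℝ) : ℂ) := by
    rw [ContinuousLinearMap.adjoint_inner_left, map_smul, hSξ, inner_smul_right, inner_smul_right,
      inner_self_eq_norm_sq_to_K, hη1]
    push_cast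
    ring
  have h6 : ‖ContinuousLinearMap.adjoint S η - (‖S‖ : ℂ) • ξ‖ ^ 2 ≤ 0 := by
    rw [@norm_sub_sq ℂ, h5, norm_smul, Complex.norm_real, Real.norm_of_nonneg hS.le]
    have h7 : ‖ContinuousLinearMap.adjoint S η‖ ^ 2 ≤ ‖S‖ ^ 2 :=
      pow_le_pow_left₀ (norm_nonneg _) h4 2
    have h8 : (‖S‖ * ‖ξ‖) ^ 2 ≤ ‖S‖ ^ 2 :=
      pow_le_pow_left₀ (by positivity) (by nlinarith) 2
    simp only [RCLike.re_to_complex, Complex.ofReal_re]
    linarith
  have h9 : ContinuousLinearMap.adjoint S η = (‖S‖ : ℂ) • ξ := by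
    rw [← sub_eq_zero, ← norm_eq_zero]
    exact pow_eq_zero_iff two_ne_zero |>.1 (le_antisymm h6 (sq_nonneg _))
  rw [← ContinuousLinearMap.adjoint_inner_left, h9, inner_smul_left, Complex.conj_ofReal]

theorem inverse_identity {R : Type*} [Ring R] [Algebra ℂ R] {A : R} {p q : ℂ} (hp : p ≠ 0)
    (ha : IsUnit (1 - p • A)) (hb : IsUnit (1 - q • A)) :
    Ring.inverse (1 - p • A) = (1 - q * p⁻¹) • (Ring.inverse (1 - p • A) * Ring.inverse (1 - q • A))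
      + (q * p⁻¹) • Ring.inverse (1 - q • A) := by
  have h1 : (1 - q • A : R) = (1 - q * p⁻¹) • (1 : R) + (q * p⁻¹) • (1 - p • A) := by
    rw [smul_sub, smul_smul, mul_assoc, inv_mul_cancel₀ hp, mul_one, sub_smul, one_smul]
    abel
  calc Ring.inverse (1 - p • A)
      = Ring.inverse (1 - p • A) * (1 - q • A) * Ring.inverse (1 - q • A) := by
        rw [mul_assoc, Ring.mul_inverse_cancel _ hb, mul_one]
    _ = Ring.inverse (1 - p • A) * ((1 - q * p⁻¹) • (1 : R) + (q * p⁻¹) • (1 - p • A))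
          * Ring.inverse (1 - q • A) := by rw [← h1]
    _ = _ := by
        rw [mul_add, mul_smul_comm, mul_smul_comm, Ring.inverse_mul_cancel _ ha, mul_one, add_mul,
          smul_mul_assoc, smul_mul_assoc, one_mul]

theorem commute_inverse {R : Type*} [Ring R] {a b : R} (ha : IsUnit a) (h : Commute a b) :
    Commute (Ring.inverse a) b := by
  obtain ⟨u, rfl⟩ := ha
  rw [Ring.inverse_unit]
  exact h.units_inv_left

/-- The operator valued Cauchy kernel. -/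
noncomputable def opKer (ψ : ℂ → ℂ) (A : H →L[ℂ] H) (u : ℂ) : H →L[ℂ] H :=
  logd ψ u • Ring.inverse (1 - ψ u • A)

theorem inner_normalize (A : H →L[ℂ] H) {y : H} (hy : y ≠ 0) :
    ‖((‖y‖ : ℂ)⁻¹ • y)‖ = 1 ∧
      ⟪y, A y⟫_ℂ = (‖y‖ : ℂ) ^ 2 * ⟪(‖y‖ : ℂ)⁻¹ • y, A ((‖y‖ : ℂ)⁻¹ • y)⟫_ℂ := by
  have h1 : ‖y‖ ≠ 0 := norm_ne_zero_iff.2 hy
  have h2 : (‖y‖ : ℂ) ≠ 0 := by exact_mod_cast h1
  constructor
  · rw [norm_smul, norm_inv, Complex.norm_real, norm_norm, inv_mul_cancel₀ h1]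
  · rw [map_smul, inner_smul_left, inner_smul_right, map_inv₀, Complex.conj_ofReal]
    field_simp

namespace ExtMap

variable {K : Set ℂ} {r : ℝ} {φ ψ : ℂ → ℂ} (h : ExtMap K r φ ψ)
include h

/-- Cauchy's theorem along a level curve. -/
theorem vanish {ρ : ℝ} (hρ : 0 < ρ) (hρ1 : ρ < 1) {W : Set ℂ} (hWo : IsOpen W) (hWc : Convex ℝ W)
    (hW : ∀ θ, (ψ (pt ρ θ))⁻¹ ∈ W) {g : ℂ → ℂ} (hg : DifferentiableOn ℂ g W) :
    ∫ θ, g (ψ (pt ρ θ))⁻¹ * (logd ψ (pt ρ θ) * (ψ (pt ρ θ))⁻¹) ∂mu = 0 := by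
  obtain ⟨G, hG⟩ := hWc.exists_forall_hasDerivWithinAt hg
  have mv : ∀ v, pt ρ v ∈ ball (0 : ℂ) 1 \ {0} := fun v =>
    ⟨by simpa [norm_pt hρ.le] using hρ1, norm_pos_iff.1 (by rw [norm_pt hρ.le]; exact hρ)⟩
  have cψ : Continuous fun v => (ψ (pt ρ v))⁻¹ :=
    (h.dψ.continuousOn.comp_continuous (continuous_pt ρ) fun v => (mv v).1).inv₀
      fun v => h.ψ_ne_zero (mv v).1 (mv v).2
  have cl : Continuous fun v => logd ψ (pt ρ v) :=
    h.diff_logd.continuousOn.comp_continuous (continuous_pt ρ) fun u => (mv u).1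
  have cg : Continuous fun v => g (ψ (pt ρ v))⁻¹ := hg.continuousOn.comp_continuous cψ hW
  have hc : Continuous fun θ : ℝ => g (ψ (pt ρ θ))⁻¹ * (logd ψ (pt ρ θ) * (ψ (pt ρ θ))⁻¹) :=
    (cg.mul (cl.mul cψ)).comp (AddCircle.continuous_mk' _)
  rw [integral_pt (fun u => g (ψ u)⁻¹ * (logd ψ u * (ψ u)⁻¹)), Real.circleAverage_def]
  simp_rw [pt_coe] at hc
  have hder : ∀ θ : ℝ, HasDerivAt (fun θ => Complex.I * G (ψ (circleMap 0 ρ θ))⁻¹)
      (g (ψ (circleMap 0 ρ θ))⁻¹ * (logd ψ (circleMap 0 ρ θ) * (ψ (circleMap 0 ρ θ))⁻¹)) θ := by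
    intro θ
    have hu := mv θ
    have hWθ := hW θ
    rw [pt_coe] at hu hWθ
    have hψ := h.ψ_ne_zero hu.1 hu.2
    have h1 := (h.dψAt hu.1).hasDerivAt.comp θ (hasDerivAt_circleMap 0 ρ θ)
    have h2 := h1.inv hψ
    have h3 := ((hG _ hWθ).hasDerivAt (hWo.mem_nhds hWθ)).comp θ h2
    refine (h3.const_mul Complex.I).congr_deriv ?_
    rw [h.logd_eq hu.2]
    simp only [Function.comp_apply]
    field_simp
    rw [Complex.I_sq]
    ring
  rw [intervalIntegral.integral_eq_sub_of_hasDerivAt (fun θ _ => hder θ)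
    (hc.intervalIntegrable _ _)]
  have := periodic_circleMap 0 ρ 0
  rw [zero_add] at this
  rw [this, sub_self, smul_zero]

variable [FiniteDimensional ℂ H] {A : H →L[ℂ] H} (hA : ∀ x : H, ‖x‖ = 1 → ⟪x, A x⟫_ℂ ∈ K)
include hA

theorem isUnit_res {u : ℂ} (hu : u ∈ ball (0 : ℂ) 1) : IsUnit (1 - ψ u • A) := by
  have : CompleteSpace H := FiniteDimensional.complete ℂ H
  by_cases hu0 : u = 0
  · simp [hu0, h.ψ0]
  have hinj : Function.Injective (1 - ψ u • A : H →L[ℂ] H) := by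
    rw [injective_iff_map_eq_zero]
    intro y hy
    by_contra hy0
    obtain ⟨h1, h2⟩ := inner_normalize A hy0
    have h3 := hA _ h1
    have hψ := h.ψ_ne_zero hu hu0
    have h4 : A y = (ψ u)⁻¹ • y := by
      have : y - ψ u • A y = 0 := hy
      rw [sub_eq_zero] at this
      rw [eq_inv_smul_iff₀ hψ, ← this]
    have h5 : (‖y‖ : ℂ) ^ 2 ≠ 0 := by
      have : ‖y‖ ≠ 0 := norm_ne_zero_iff.2 hy0
      exact_mod_cast pow_ne_zero 2 this
    rw [h4, inner_smul_right, inner_self_eq_norm_sq_to_K, mul_comm] at h2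
    have h6 := mul_left_cancel₀ h5 h2
    rw [← h6] at h3
    exact h.inv_ψ_notMem hu hu0 h3
  rw [ContinuousLinearMap.isUnit_iff_bijective]
  exact ⟨hinj, LinearMap.injective_iff_surjective.1 hinj⟩

theorem diff_opKer : DifferentiableOn ℂ (opKer ψ A) (ball 0 1) := by
  have : CompleteSpace H := FiniteDimensional.complete ℂ H
  refine h.diff_logd.smul (DifferentiableOn.inverse ?_ fun u hu => h.isUnit_res hA hu)
  exact (differentiableOn_const 1).sub (h.dψ.smul_const A)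

omit hA [FiniteDimensional ℂ H] in
theorem opKer_zero : opKer ψ A 0 = 1 := by
  simp [opKer, h.logd_zero, h.ψ0]

theorem opKer_pos {u : ℂ} (hu : u ∈ ball (0 : ℂ) 1 \ {0}) (x : H) :
    0 ≤ (⟪x, opKer ψ A u x⟫_ℂ).re := by
  set y : H := Ring.inverse (1 - ψ u • A) x with hy
  have hx : x = y - ψ u • A y := by
    have := congrArg (fun S : H →L[ℂ] H => S x) (Ring.mul_inverse_cancel _ (h.isUnit_res hA hu.1))
    exact this.symm
  have h0 : opKer ψ A u x = logd ψ u • y := rfl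
  rw [h0]
  by_cases hy0 : y = 0
  · simp [hy0]
  obtain ⟨h1, h2⟩ := inner_normalize A hy0
  have h3 := h.pos_K hu (hA _ h1)
  rw [← h.logd_eq hu.2] at h3
  set z := ⟪(‖y‖ : ℂ)⁻¹ • y, A ((‖y‖ : ℂ)⁻¹ • y)⟫_ℂ
  have h4 : ⟪x, logd ψ u • y⟫_ℂ = ((‖y‖ ^ 2 : ℝ) : ℂ) * conj (conj (logd ψ u) * (1 - ψ u * z)) := by
    rw [hx, inner_smul_right, inner_sub_left, inner_smul_left, ← inner_conj_symm (A y) y, h2,
      inner_self_eq_norm_sq_to_K]
    simp only [map_mul, map_pow, Complex.conj_ofReal, Complex.conj_conj, map_sub, map_one]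
    push_cast
    simp only [Complex.coe_algebraMap]
    ring
  rw [h4, Complex.re_ofReal_mul, Complex.conj_re]
  positivity

theorem hol0_opKer {ρ : ℝ} (hρ1 : ρ < 1) (x y : H) :
    Hol0 ρ fun θ => ⟪x, opKer ψ A (pt ρ θ) y⟫_ℂ - ⟪x, y⟫_ℂ := by
  refine ⟨fun u => ⟪x, opKer ψ A u y⟫_ℂ - ⟪x, y⟫_ℂ, ?_, by simp [h.opKer_zero], fun _ => rfl⟩
  refine DifferentiableOn.sub_const ?_ _
  have h1 : DifferentiableOn ℂ (fun u => opKer ψ A u y) (closedBall 0 ρ) :=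
    ((h.diff_opKer hA).mono (closedBall_subset_ball hρ1)).clm_apply (differentiableOn_const y)
  exact (innerSL ℂ x).differentiable.comp_differentiableOn h1

theorem z_smul_opKer {u : ℂ} (hu : u ∈ ball (0 : ℂ) 1 \ {0}) :
    (ψ u)⁻¹ • opKer ψ A u = (logd ψ u * (ψ u)⁻¹) • (1 : H →L[ℂ] H) + A * opKer ψ A u := by
  have hψ := h.ψ_ne_zero hu.1 hu.2
  have h1 := Ring.mul_inverse_cancel _ (h.isUnit_res hA hu.1)
  rw [sub_mul, one_mul, smul_mul_assoc, sub_eq_iff_eq_add] at h1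
  rw [opKer, mul_smul_comm]
  nth_rewrite 1 [h1]
  rw [smul_add, smul_add, smul_smul, smul_smul, smul_smul, mul_comm (ψ u)⁻¹,
    mul_assoc, inv_mul_cancel₀ hψ, mul_one]

theorem ker_smul_opKer {u v : ℂ} (hu : u ∈ ball (0 : ℂ) 1) (hv : v ∈ ball (0 : ℂ) 1 \ {0})
    (huv : 1 - ψ u * (ψ v)⁻¹ ≠ 0) :
    (logd ψ u / (1 - ψ u * (ψ v)⁻¹)) • opKer ψ A v = opKer ψ A v * opKer ψ A u
      + (ψ u / (1 - ψ u * (ψ v)⁻¹) * (logd ψ v * (ψ v)⁻¹)) • opKer ψ A u := by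
  have hψ := h.ψ_ne_zero hv.1 hv.2
  have h1 := inverse_identity hψ (h.isUnit_res hA hv.1) (h.isUnit_res hA hu)
  simp only [opKer]
  rw [smul_mul_smul_comm]
  nth_rewrite 1 [h1]
  simp only [smul_add, smul_smul]
  generalize 1 - ψ u * (ψ v)⁻¹ = d at huv
  congr 2
  · field_simp
  · field_simp

theorem commute_opKer {u : ℂ} (hu : u ∈ ball (0 : ℂ) 1) {B : H →L[ℂ] H} (hB : Commute A B) :
    Commute (opKer ψ A u) B := by
  refine Commute.smul_left (commute_inverse (h.isUnit_res hA hu) ?_) _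
  exact (Commute.one_left B).sub_left (hB.smul_left _)

end ExtMap

end Crest.Agent.R132
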