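import Mathlib

/-!
The inverted exterior of a compact convex set and basic properties of its Riemann map.
-/

open Set Metric Filter Topology

namespace Crest.Agent.R132

/-- The image of the complement of `K` under inversion, together with `0`. -/
def extD (K : Set ℂ) : Set ℂ := {w | w = 0 ∨ w⁻¹ ∉ K}

theorem zero_mem_extD (K : Set ℂ) : (0 : ℂ) ∈ extD K := Or.inl rfl

theorem inv_mem_extD {K : Set ℂ} {y : ℂ} (hy : y ∉ K) : y⁻¹ ∈ extD K := Or.inr (by simpa using hy)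

theorem isOpen_inv_mem {O : Set ℂ} (hO : IsOpen O) : IsOpen {w : ℂ | w ≠ 0 ∧ w⁻¹ ∈ O} := by
  have : ContinuousOn (fun w : ℂ => w⁻¹) {0}ᶜ := continuousOn_inv₀
  exact this.isOpen_inter_preimage isOpen_compl_singleton hO

theorem isOpen_extD {K : Set ℂ} (hK : IsCompact K) : IsOpen (extD K) := by
  obtain ⟨R, hR0, hR⟩ := hK.isBounded.subset_ball_lt 0 0
  have : extD K = ball 0 R⁻¹ ∪ {w : ℂ | w ≠ 0 ∧ w⁻¹ ∈ Kᶜ} := by
    ext w
    constructor
    · rintro (rfl | hw)
      · left; simpa using hR0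
      · by_cases h0 : w = 0
        · left; simpa [h0] using hR0
        · right; exact ⟨h0, hw⟩
    · rintro (hw | hw)
      · by_cases h0 : w = 0
        · exact Or.inl h0
        · refine Or.inr fun hK' => ?_
          have h1 := hR hK'
          rw [mem_ball_zero_iff] at hw h1
          rw [norm_inv] at h1
          have h2 : 0 < ‖w‖ := norm_pos_iff.2 h0
          have := (lt_inv_comm₀ h2 hR0).1 hw
          linarith
      · exact Or.inr hw.2
  rw [this]
  exact isOpen_ball.union (isOpen_inv_mem hK.isClosed.isOpen_compl)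

theorem extD_subset {K : Set ℂ} {r : ℝ} (hr : 0 < r) (hrK : ball 0 r ⊆ K) :
    extD K ⊆ closedBall 0 r⁻¹ := by
  rintro w (rfl | hw)
  · simpa using hr.le
  · by_cases h0 : w = 0
    · simpa [h0] using hr.le
    · have h1 : r ≤ ‖w⁻¹‖ := by
        by_contra h
        exact hw (hrK (by simpa using not_le.1 h))
      rw [mem_closedBall_zero_iff]
      rw [norm_inv] at h1
      exact (le_inv_comm₀ hr (norm_pos_iff.2 h0)).1 h1

theorem starConvex_extD {K : Set ℂ} (hK : Convex ℝ K) (h0 : (0 : ℂ) ∈ K) :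
    StarConvex ℝ 0 (extD K) := by
  intro w hw a b ha hb hab
  rcases hw with rfl | hw
  · left; simp
  · by_cases hb0 : b = 0
    · left; simp [hb0]
    · refine Or.inr fun h => hw ?_
      have := hK h0 h ha hb hab
      convert this using 1
      have : (b : ℂ) ≠ 0 := by exact_mod_cast hb0
      simp only [smul_zero, zero_add, Complex.real_smul, mul_inv]
      field_simp

theorem isSimplyConnected_extD {K : Set ℂ} (hK : Convex ℝ K) (h0 : (0 : ℂ) ∈ K) :
    IsSimplyConnected (extD K) := by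
  have := (starConvex_extD hK h0).contractibleSpace ⟨0, zero_mem_extD K⟩
  exact SimplyConnectedSpace.ofContractible _

theorem extD_ne_univ {K : Set ℂ} {r : ℝ} (hr : 0 < r) (hrK : ball 0 r ⊆ K) : extD K ≠ univ := by
  intro h
  have := extD_subset hr hrK
  rw [h] at this
  exact NormedSpace.unbounded_univ ℝ ℂ (isBounded_closedBall.subset this)

/-- Riemann map data for the inverted exterior of `K`. -/
structure ExtMap (K : Set ℂ) (r : ℝ) (φ ψ : ℂ → ℂ) : Prop where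
  compact : IsCompact K
  convex : Convex ℝ K
  r_pos : 0 < r
  ball_sub : ball 0 r ⊆ K
  dφ : DifferentiableOn ℂ φ (extD K)
  dψ : DifferentiableOn ℂ ψ (ball 0 1)
  mφ : MapsTo φ (extD K) (ball 0 1)
  mψ : MapsTo ψ (ball 0 1) (extD K)
  left : ∀ w ∈ extD K, ψ (φ w) = w
  right : ∀ u ∈ ball (0 : ℂ) 1, φ (ψ u) = u
  φ0 : φ 0 = 0

namespace ExtMap

variable {K : Set ℂ} {r : ℝ} {φ ψ : ℂ → ℂ} (h : ExtMap K r φ ψ)
include h

theorem zero_mem : (0 : ℂ) ∈ K := h.ball_sub (mem_ball_self h.r_pos)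

theorem ψ0 : ψ 0 = 0 := by simpa [h.φ0] using h.left 0 (zero_mem_extD K)

theorem injOn : InjOn ψ (ball 0 1) := fun u hu v hv huv => by
  rw [← h.right u hu, ← h.right v hv, huv]

theorem ψ_ne_zero {u : ℂ} (hu : u ∈ ball (0 : ℂ) 1) (hu0 : u ≠ 0) : ψ u ≠ 0 := fun h0 =>
  hu0 (h.injOn hu (mem_ball_self one_pos) (h0.trans h.ψ0.symm))

theorem inv_ψ_notMem {u : ℂ} (hu : u ∈ ball (0 : ℂ) 1) (hu0 : u ≠ 0) : (ψ u)⁻¹ ∉ K := by
  rcases h.mψ hu with h0 | h1
  · exact absurd h0 (h.ψ_ne_zero hu hu0)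
  · exact h1

theorem φ_ne_zero {w : ℂ} (hw : w ∈ extD K) (hw0 : w ≠ 0) : φ w ≠ 0 := fun h0 => by
  have := h.left w hw
  rw [h0, h.ψ0] at this
  exact hw0 this.symm

theorem dψAt {u : ℂ} (hu : u ∈ ball (0 : ℂ) 1) : DifferentiableAt ℂ ψ u :=
  h.dψ.differentiableAt (isOpen_ball.mem_nhds hu)

theorem dφAt {w : ℂ} (hw : w ∈ extD K) : DifferentiableAt ℂ φ w :=
  h.dφ.differentiableAt ((isOpen_extD h.compact).mem_nhds hw)

theorem deriv_mul {u : ℂ} (hu : u ∈ ball (0 : ℂ) 1) : deriv φ (ψ u) * deriv ψ u = 1 := by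
  have h1 : HasDerivAt (φ ∘ ψ) (deriv φ (ψ u) * deriv ψ u) u :=
    (h.dφAt (h.mψ hu)).hasDerivAt.comp u (h.dψAt hu).hasDerivAt
  have h2 : HasDerivAt (φ ∘ ψ) 1 u := by
    refine (hasDerivAt_id u).congr_of_eventuallyEq ?_
    filter_upwards [isOpen_ball.mem_nhds hu] with v hv using h.right v hv
  exact h1.unique h2

theorem deriv_ψ_ne_zero {u : ℂ} (hu : u ∈ ball (0 : ℂ) 1) : deriv ψ u ≠ 0 := fun h0 => by
  have := h.deriv_mul hu
  simp [h0] at this

/-- Near the unit circle the exterior map is close to `K`. -/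
theorem near_boundary {δ : ℝ} (hδ : 0 < δ) :
    ∃ s : ℝ, s < 1 ∧ ∀ u : ℂ, s < ‖u‖ → ‖u‖ < 1 → (ψ u)⁻¹ ∈ thickening δ K := by
  have hsub : extD (thickening δ K) ⊆ extD K := by
    rintro w (hw | hw)
    · exact Or.inl hw
    · exact Or.inr fun hK => hw (self_subset_thickening hδ K hK)
  have hclosed : IsClosed (extD (thickening δ K)) := by
    rw [← isOpen_compl_iff]
    convert isOpen_inv_mem (isOpen_thickening (δ := δ) (E := K)) using 1
    ext w
    simp [extD]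
  have hcpt : IsCompact (extD (thickening δ K)) :=
    (isCompact_closedBall 0 r⁻¹).of_isClosed_subset hclosed
      (hsub.trans (extD_subset h.r_pos h.ball_sub))
  obtain ⟨w₀, hw₀, hmax⟩ := hcpt.exists_isMaxOn ⟨0, zero_mem_extD _⟩
    (f := fun w => ‖φ w‖) (h.dφ.continuousOn.mono hsub).norm
  refine ⟨‖φ w₀‖, by simpa using h.mφ (hsub hw₀), fun u hu hu1 => ?_⟩
  by_contra hcon
  have h1 : ψ u ∈ extD (thickening δ K) := Or.inr hcon
  have h2 : ‖φ (ψ u)‖ ≤ ‖φ w₀‖ := hmax h1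
  rw [h.right u (by simpa using hu1)] at h2
  linarith

/-- Close to `K` the inverse exterior map has modulus close to one. -/
theorem near_K {s : ℝ} (hs : s < 1) :
    ∃ δ : ℝ, 0 < δ ∧ ∀ y ∈ thickening δ K, y ∉ K → s < ‖φ y⁻¹‖ := by
  have hsub : closedBall (0 : ℂ) s ⊆ ball 0 1 := closedBall_subset_ball hs
  have hL : IsCompact (ψ '' closedBall 0 s) :=
    (isCompact_closedBall 0 s).image_of_continuousOn (h.dψ.continuousOn.mono hsub)
  have hO : IsOpen (ball (0 : ℂ) r ∪ {y : ℂ | y ≠ 0 ∧ y⁻¹ ∈ (ψ '' closedBall 0 s)ᶜ}) :=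
    isOpen_ball.union (isOpen_inv_mem hL.isClosed.isOpen_compl)
  have hKO : K ⊆ ball (0 : ℂ) r ∪ {y : ℂ | y ≠ 0 ∧ y⁻¹ ∈ (ψ '' closedBall 0 s)ᶜ} := by
    intro y hy
    by_cases h0 : y = 0
    · left; simpa [h0] using h.r_pos
    · refine Or.inr ⟨h0, ?_⟩
      rintro ⟨u, hu, hyu⟩
      rcases h.mψ (hsub hu) with h1 | h1
      · rw [hyu] at h1
        exact h0 (inv_eq_zero.1 h1)
      · rw [hyu, inv_inv] at h1
        exact h1 hy
  obtain ⟨δ, hδ, hδO⟩ := h.compact.exists_thickening_subset_open hO hKO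
  refine ⟨δ, hδ, fun y hy hyK => ?_⟩
  rcases hδO hy with h1 | h1
  · exact absurd (h.ball_sub h1) hyK
  · by_contra hcon
    refine h1.2 ⟨φ y⁻¹, by simpa using not_lt.1 hcon, h.left _ (inv_mem_extD hyK)⟩

end ExtMap

/-- Maximum principle with `limsup` boundary condition. -/
theorem max_principle_limsup {U : Set ℂ} (hUo : IsOpen U) (hUb : Bornology.IsBounded U)
    {R : ℂ → ℂ} (hR : DifferentiableOn ℂ R U) {C : ℝ}
    (hb : ∀ b ∉ U, ∀ ε > 0, ∀ᶠ u in 𝓝[U] b, ‖R u‖ ≤ C + ε) {u : ℂ} (hu : u ∈ U) :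
    ‖R u‖ ≤ C := by
  refine le_of_forall_pos_le_add fun ε hε => ?_
  by_contra hcon
  set U' : Set ℂ := U ∩ (fun u => ‖R u‖) ⁻¹' Ioi (C + ε) with hU'
  have hU'o : IsOpen U' := hR.continuousOn.norm.isOpen_inter_preimage hUo isOpen_Ioi
  have hcl : closure U' ⊆ U := by
    intro b hbcl
    by_contra hbU
    have h1 := hb b hbU ε hε
    rw [mem_closure_iff_nhdsWithin_neBot] at hbcl
    have h2 : ∀ᶠ u in 𝓝[U'] b, ‖R u‖ ≤ C + ε := nhdsWithin_mono b inter_subset_left h1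
    obtain ⟨z, hz1, hz2⟩ := (h2.and self_mem_nhdsWithin).exists
    exact absurd hz2.2 (not_lt.2 hz1)
  have hd : DiffContOnCl ℂ R U' :=
    ⟨hR.mono inter_subset_left, hR.continuousOn.mono hcl⟩
  have := Complex.norm_le_of_forall_mem_frontier_norm_le (hUb.subset inter_subset_left) hd
    (C := C + ε) (fun z hz => ?_) (subset_closure (show u ∈ U' from ⟨hu, not_le.1 hcon⟩))
  · exact hcon this
  · rw [hU'o.frontier_eq] at hz
    by_contra h
    exact hz.2 ⟨hcl hz.1, not_le.1 h⟩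

end Crest.Agent.R132
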