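import Crest.Agent.R132.Exterior1

/-!
Convexity of the level curves of the exterior map, in infinitesimal form.
-/

open Set Metric Filter Topology ComplexConjugate

namespace Crest.Agent.R132

namespace ExtMap

variable {K : Set ℂ} {r : ℝ} {φ ψ : ℂ → ℂ} (h : ExtMap K r φ ψ)
include h

theorem tendsto_mul_inv_ψ :
    Tendsto (fun u => u * (ψ u)⁻¹) (𝓝[≠] 0) (𝓝 (deriv ψ 0)⁻¹) := by
  have h0 : (0 : ℂ) ∈ ball (0 : ℂ) 1 := mem_ball_self one_pos
  have h1 := (h.dψAt h0).hasDerivAt.tendsto_slope_zero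
  have h2 := h1.inv₀ (h.deriv_ψ_ne_zero h0)
  refine h2.congr fun u => ?_
  simp [h.ψ0, mul_comm]

theorem level_le {k : ℂ → ℂ} (hk : DifferentiableOn ℂ k (ball 0 1 \ {0}))
    (hk1 : ∀ δ > 0, ∃ s : ℝ, s < 1 ∧ ∀ u : ℂ, s < ‖u‖ → ‖u‖ < 1 → k u ∈ thickening δ K)
    {l : ℂ} (hl : ‖l‖ ≤ 1)
    (hk0 : Tendsto (fun u => u * k u) (𝓝[≠] 0) (𝓝 (l * (deriv ψ 0)⁻¹)))
    {t : ℝ} (ht : 1 / 2 < t) (ht1 : t ≤ 1) {u : ℂ} (hu : u ∈ ball (0 : ℂ) 1 \ {0})
    (hy : (t : ℂ) * (ψ u)⁻¹ + (1 - t) * k u ∉ K) :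
    ‖u‖ ≤ ‖φ ((t : ℂ) * (ψ u)⁻¹ + (1 - t) * k u)⁻¹‖ := by
  set y : ℂ → ℂ := fun u => (t : ℂ) * (ψ u)⁻¹ + (1 - t) * k u with hy_def
  have hPo : IsOpen (ball (0 : ℂ) 1 \ {0}) := isOpen_ball.sdiff isClosed_singleton
  have hyd : DifferentiableOn ℂ y (ball 0 1 \ {0}) := by
    refine DifferentiableOn.add (DifferentiableOn.const_mul ?_ _) (hk.const_mul _)
    exact (h.dψ.mono sdiff_subset).inv fun u hu => h.ψ_ne_zero hu.1 hu.2
  set U : Set ℂ := (ball (0 : ℂ) 1 \ {0}) ∩ y ⁻¹' Kᶜ with hU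
  have hUo : IsOpen U :=
    hyd.continuousOn.isOpen_inter_preimage hPo h.compact.isClosed.isOpen_compl
  have hy0 : ∀ u ∈ U, y u ≠ 0 := fun u hu h0 => hu.2 (h0 ▸ h.zero_mem)
  have hφ0 : ∀ u ∈ U, φ (y u)⁻¹ ≠ 0 := fun u hu =>
    h.φ_ne_zero (inv_mem_extD hu.2) (inv_ne_zero (hy0 u hu))
  have hRd : DifferentiableOn ℂ (fun u => u / φ (y u)⁻¹) U := by
    refine differentiableOn_id.div ?_ hφ0
    exact h.dφ.comp ((hyd.mono inter_subset_left).inv hy0) fun u hu => inv_mem_extD hu.2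
  have hmain := max_principle_limsup hUo
    (isBounded_ball.subset (inter_subset_left.trans sdiff_subset)) hRd (C := 1) ?_ (u := u) ⟨hu, hy⟩
  · rw [norm_div, div_le_one (norm_pos_iff.2 (hφ0 u ⟨hu, hy⟩))] at hmain
    exact hmain
  intro b hb ε hε
  by_cases hb0 : b = 0
  · -- behaviour at the origin
    subst hb0
    have h0 : (0 : ℂ) ∈ ball (0 : ℂ) 1 := mem_ball_self one_pos
    have hc := h.deriv_ψ_ne_zero h0
    have hl' : (t : ℂ) + (1 - t) * l ≠ 0 := by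
      intro h1
      have h2 : (t : ℂ) = -((1 - t) * l) := by linear_combination h1
      have h3 := congrArg norm h2
      rw [norm_neg, norm_mul, Complex.norm_real, Real.norm_of_nonneg (by linarith)] at h3
      have h4 : ‖(1 - t : ℂ)‖ = 1 - t := by
        rw [← Complex.ofReal_one, ← Complex.ofReal_sub, Complex.norm_real,
          Real.norm_of_nonneg (by linarith)]
      rw [h4] at h3
      nlinarith
    have hl1 : ‖(t : ℂ) + (1 - t) * l‖ ≤ 1 := by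
      refine (norm_add_le _ _).trans ?_
      have h4 : ‖(1 - t : ℂ)‖ = 1 - t := by
        rw [← Complex.ofReal_one, ← Complex.ofReal_sub, Complex.norm_real,
          Real.norm_of_nonneg (by linarith)]
      rw [norm_mul, Complex.norm_real, Real.norm_of_nonneg (by linarith), h4]
      nlinarith
    have h1 : Tendsto (fun u => u * y u) (𝓝[≠] 0)
        (𝓝 (((t : ℂ) + (1 - t) * l) * (deriv ψ 0)⁻¹)) := by
      have := (h.tendsto_mul_inv_ψ.const_mul (t : ℂ)).add (hk0.const_mul (1 - t : ℂ))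
      convert this using 2
      · simp only [hy_def]; ring
      · ring
    have h2 : Tendsto (fun u => (y u)⁻¹) (𝓝[≠] 0) (𝓝 0) := by
      have h3 : Tendsto (fun u : ℂ => u) (𝓝[≠] 0) (𝓝 0) := tendsto_nhdsWithin_of_tendsto_nhds tendsto_id
      have := h3.mul (h1.inv₀ (mul_ne_zero hl' (inv_ne_zero hc)))
      rw [zero_mul] at this
      refine this.congr' ?_
      filter_upwards [self_mem_nhdsWithin] with u hu
      have hu' : u ≠ 0 := hu
      rw [mul_inv, ← mul_assoc, mul_inv_cancel₀ hu', one_mul]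
    have h4 : ContinuousAt (dslope φ 0) 0 :=
      continuousAt_dslope_same.2 (h.dφAt (zero_mem_extD K))
    have h5 : dslope φ 0 0 = (deriv ψ 0)⁻¹ := by
      have := h.deriv_mul h0
      rw [h.ψ0] at this
      rw [dslope_same]
      exact eq_inv_of_mul_eq_one_left this
    have h6 := h1.div (h4.tendsto.comp h2) (by rw [h5]; exact inv_ne_zero hc)
    rw [h5, mul_div_assoc, div_self (inv_ne_zero hc), mul_one] at h6
    have h7 : ∀ u, ((fun u => u * y u) / (dslope φ 0 ∘ fun u => (y u)⁻¹)) u = u / φ (y u)⁻¹ := by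
      intro u
      have := sub_smul_dslope φ 0 (y u)⁻¹
      rw [h.φ0, sub_zero, sub_zero, smul_eq_mul] at this
      simp only [Pi.div_apply, Function.comp_apply]
      rw [← this, div_mul_eq_div_div, div_inv_eq_mul]
    have h8 := (h6.congr h7).norm
    have h9 : ∀ᶠ u in 𝓝[≠] (0 : ℂ), ‖u / φ (y u)⁻¹‖ ≤ 1 + ε :=
      (h8.eventually (ge_mem_nhds (by linarith)))
    exact nhdsWithin_mono 0 (fun u hu => hu.1.2) h9
  · -- behaviour near `K`
    have hs : (1 + ε)⁻¹ < 1 := inv_lt_one_of_one_lt₀ (by linarith)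
    obtain ⟨δ, hδ, hδK⟩ := h.near_K hs
    have hev : ∀ᶠ u in 𝓝[U] b, y u ∈ thickening δ K := by
      by_cases hb1 : ‖b‖ < 1
      · have hbP : b ∈ ball (0 : ℂ) 1 \ {0} := ⟨by simpa using hb1, hb0⟩
        have hyb : y b ∈ K := by
          by_contra hcon
          exact hb ⟨hbP, hcon⟩
        have hcont : ContinuousAt y b := hyd.continuousOn.continuousAt (hPo.mem_nhds hbP)
        exact nhdsWithin_le_nhds (hcont.eventually
          (isOpen_thickening.mem_nhds (self_subset_thickening hδ K hyb)))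
      · obtain ⟨s₁, hs₁, H₁⟩ := h.near_boundary hδ
        obtain ⟨s₂, hs₂, H₂⟩ := hk1 δ hδ
        have hnb : ∀ᶠ u in 𝓝 b, max s₁ s₂ < ‖u‖ :=
          continuous_norm.continuousAt.eventually
            (lt_mem_nhds ((max_lt hs₁ hs₂).trans_le (not_lt.1 hb1)))
        filter_upwards [nhdsWithin_le_nhds hnb, self_mem_nhdsWithin] with u hu huU
        have hu1 : ‖u‖ < 1 := by simpa using huU.1.1
        have := (h.convex.thickening δ) (H₁ u ((le_max_left _ _).trans_lt hu) hu1)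
          (H₂ u ((le_max_right _ _).trans_lt hu) hu1) (a := t) (b := 1 - t) (by linarith)
          (by linarith) (by ring)
        simpa [hy_def] using this
    filter_upwards [hev, self_mem_nhdsWithin] with u hu huU
    have h1 := hδK _ hu huU.2
    have hu1 : ‖u‖ < 1 := by simpa using huU.1.1
    have h2 : 0 < (1 + ε)⁻¹ := by positivity
    rw [norm_div, div_le_iff₀ (h2.trans h1)]
    have h3 : (1 + ε) * (1 + ε)⁻¹ = 1 := mul_inv_cancel₀ (by linarith)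
    nlinarith

theorem pos_of_level {u z : ℂ} (hu : u ∈ ball (0 : ℂ) 1 \ {0})
    (hz : ∀ t : ℝ, 1 / 2 < t → t ≤ 1 → (t : ℂ) * (ψ u)⁻¹ + (1 - t) * z ∉ K →
      ‖u‖ ≤ ‖φ ((t : ℂ) * (ψ u)⁻¹ + (1 - t) * z)⁻¹‖) :
    0 ≤ (conj (u * deriv ψ u / ψ u) * (1 - ψ u * z)).re := by
  have hψ := h.ψ_ne_zero hu.1 hu.2
  have hψ' := h.deriv_ψ_ne_zero hu.1
  set y : ℝ → ℂ := fun t => (t : ℂ) * (ψ u)⁻¹ + (1 - t) * z with hy_def
  have hy1 : y 1 = (ψ u)⁻¹ := by simp [hy_def]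
  have hyd : HasDerivAt y ((ψ u)⁻¹ - z) 1 := by
    have h1 : HasDerivAt (fun t : ℝ => (t : ℂ)) 1 1 := Complex.ofRealCLM.hasDerivAt
    have := (h1.mul_const (ψ u)⁻¹).add ((h1.const_sub 1).mul_const z)
    refine HasDerivAt.congr_deriv this ?_
    ring
  have h1 : HasDerivAt (fun t => (y t)⁻¹) (-((ψ u)⁻¹ - z) / (y 1) ^ 2) 1 :=
    hyd.inv (by rw [hy1]; exact inv_ne_zero hψ)
  have h2 : HasDerivAt φ (deriv φ (ψ u)) ((fun t => (y t)⁻¹) 1) := by
    simp only [hy1, inv_inv]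
    exact (h.dφAt (h.mψ hu.1)).hasDerivAt
  have h3 := (h2.comp_of_eq (1 : ℝ) h1 rfl).norm_sq
  have hφ' : deriv φ (ψ u) = (deriv ψ u)⁻¹ := eq_inv_of_mul_eq_one_left (h.deriv_mul hu.1)
  have hval : φ (y 1)⁻¹ = u := by rw [hy1, inv_inv, h.right u hu.1]
  have h4 := h3.tendsto_slope.mono_left (nhdsLT_le_nhdsNE (1 : ℝ))
  have h5 : ∀ᶠ t in 𝓝[<] (1 : ℝ), slope (fun t => ‖(φ ∘ fun t => (y t)⁻¹) t‖ ^ 2) 1 t ≤ 0 := by
    have hK : ∀ᶠ t in 𝓝 (1 : ℝ), y t ∈ Kᶜ := hyd.continuousAt.eventually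
      (h.compact.isClosed.isOpen_compl.mem_nhds (by rw [hy1]; exact h.inv_ψ_notMem hu.1 hu.2))
    have hhalf : ∀ᶠ t in 𝓝 (1 : ℝ), 1 / 2 < t := lt_mem_nhds (by norm_num)
    filter_upwards [nhdsWithin_le_nhds hK, nhdsWithin_le_nhds hhalf, self_mem_nhdsWithin]
      with t ht1 ht2 ht3
    have ht3' : t < 1 := ht3
    rw [slope_def_field]
    refine div_nonpos_of_nonneg_of_nonpos ?_ (by linarith)
    simp only [Function.comp_apply, hval]
    exact sub_nonneg.2 (pow_le_pow_left₀ (norm_nonneg _) (hz t ht2 ht3'.le ht1) 2)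
  have h6 := le_of_tendsto h4 h5
  rw [Function.comp_apply, hval] at h6
  simp only [hφ', hy1, Complex.inner] at h6
  have h7 : (deriv ψ u)⁻¹ * (-((ψ u)⁻¹ - z) / (ψ u)⁻¹ ^ 2) * conj u
      = -(conj (u * deriv ψ u / ψ u) * (1 - ψ u * z)) *
        ((‖ψ u‖ ^ 2 / ‖deriv ψ u‖ ^ 2 : ℝ) : ℂ) := by
    push_cast
    rw [← Complex.mul_conj', ← Complex.mul_conj']
    have h8 : conj (ψ u) ≠ 0 := by simpa using hψ
    have h9 : conj (deriv ψ u) ≠ 0 := by simpa using hψ'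
    simp only [map_div₀, map_mul]
    field_simp
  rw [h7, Complex.re_mul_ofReal, Complex.neg_re] at h6
  have h10 : 0 < ‖ψ u‖ ^ 2 / ‖deriv ψ u‖ ^ 2 := by positivity
  nlinarith

theorem pos_K {u z : ℂ} (hu : u ∈ ball (0 : ℂ) 1 \ {0}) (hz : z ∈ K) :
    0 ≤ (conj (u * deriv ψ u / ψ u) * (1 - ψ u * z)).re := by
  refine h.pos_of_level hu fun t ht ht1 hy => ?_
  refine h.level_le (k := fun _ => z) (differentiableOn_const z)
    (fun δ hδ => ⟨0, one_pos, fun _ _ _ => self_subset_thickening hδ K hz⟩) (l := 0) (by simp)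
    ?_ ht ht1 hu hy
  have h3 : Tendsto (fun u : ℂ => u) (𝓝[≠] 0) (𝓝 0) := tendsto_nhdsWithin_of_tendsto_nhds tendsto_id
  simpa using h3.mul_const z

theorem pos_level {u v : ℂ} (hu : u ∈ ball (0 : ℂ) 1 \ {0}) (hv : ‖v‖ = ‖u‖) :
    0 ≤ (conj (u * deriv ψ u / ψ u) * (1 - ψ u * (ψ v)⁻¹)).re := by
  have hu0 : u ≠ 0 := hu.2
  have hun : ‖u‖ ≠ 0 := norm_ne_zero_iff.2 hu0
  set ω : ℂ := v / u with hω
  have hω1 : ‖ω‖ = 1 := by rw [hω, norm_div, hv, div_self hun]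
  have hω0 : ω ≠ 0 := fun h0 => by simp [h0] at hω1
  have hvu : v = ω * u := by rw [hω]; field_simp
  have hmaps : ∀ w ∈ ball (0 : ℂ) 1 \ {0}, ω * w ∈ ball (0 : ℂ) 1 \ {0} := by
    intro w hw
    refine ⟨?_, mul_ne_zero hω0 hw.2⟩
    have := hw.1
    rw [mem_ball_zero_iff] at this ⊢
    rwa [norm_mul, hω1, one_mul]
  rw [hvu]
  refine h.pos_of_level hu fun t ht ht1 hy => ?_
  refine h.level_le (k := fun w => (ψ (ω * w))⁻¹) ?_ ?_ (l := ω⁻¹) (by simp [hω1]) ?_ ht ht1 hu hy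
  · refine DifferentiableOn.inv ?_ fun w hw => h.ψ_ne_zero (hmaps w hw).1 (hmaps w hw).2
    exact h.dψ.comp (differentiableOn_id.const_mul ω) fun w hw => (hmaps w hw).1
  · intro δ hδ
    obtain ⟨s, hs, H⟩ := h.near_boundary hδ
    exact ⟨s, hs, fun w hw hw1 => H _ (by rwa [norm_mul, hω1, one_mul])
      (by rwa [norm_mul, hω1, one_mul])⟩
  · have h1 : Tendsto (fun w : ℂ => ω * w) (𝓝[≠] 0) (𝓝[≠] 0) := by
      refine tendsto_nhdsWithin_of_tendsto_nhds_of_eventually_within _ ?_ ?_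
      · have h3 : Tendsto (fun u : ℂ => u) (𝓝[≠] 0) (𝓝 0) :=
          tendsto_nhdsWithin_of_tendsto_nhds tendsto_id
        simpa using h3.const_mul ω
      · filter_upwards [self_mem_nhdsWithin] with w hw using mul_ne_zero hω0 hw
    have h2 := (h.tendsto_mul_inv_ψ.comp h1).const_mul ω⁻¹
    refine h2.congr fun w => ?_
    simp only [Function.comp_apply]
    field_simp

end ExtMap

end Crest.Agent.R132
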