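import Crest.Agent.R132.Exterior2
import Crest.Agent.R132.Abstract1

/-!
Circle averages and the kernels attached to the exterior map.
-/

open Set Metric Filter Topology ComplexConjugate MeasureTheory

namespace Crest.Agent.R132

instance factTwoPi : Fact (0 < 2 * Real.pi) := ⟨Real.two_pi_pos⟩

/-- The circle. -/
abbrev Circ : Type := AddCircle (2 * Real.pi)

/-- Normalised arc length. -/
noncomputable abbrev mu : Measure Circ := AddCircle.haarAddCircle

/-- The point of modulus `ρ` and argument `θ`. -/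
noncomputable def pt (ρ : ℝ) (θ : Circ) : ℂ := ρ * fourier 1 θ

@[fun_prop] theorem continuous_pt (ρ : ℝ) : Continuous (pt ρ) := by
  unfold pt; fun_prop

theorem norm_pt {ρ : ℝ} (hρ : 0 ≤ ρ) (θ : Circ) : ‖pt ρ θ‖ = ρ := by
  have : ‖fourier 1 θ‖ = 1 := Circle.norm_coe _
  rw [pt, norm_mul, this, Complex.norm_real, Real.norm_of_nonneg hρ, mul_one]

theorem pt_coe (ρ θ : ℝ) : pt ρ (θ : Circ) = circleMap 0 ρ θ := by
  rw [pt, fourier_coe_apply, circleMap, zero_add]
  congr 2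
  have : (Real.pi : ℂ) ≠ 0 := by exact_mod_cast Real.pi_ne_zero
  push_cast
  field_simp

theorem integral_pt {E : Type*} [NormedAddCommGroup E] [NormedSpace ℝ E] (g : ℂ → E) (ρ : ℝ) :
    ∫ θ, g (pt ρ θ) ∂mu = Real.circleAverage g 0 ρ := by
  rw [AddCircle.integral_haarAddCircle, ← AddCircle.intervalIntegral_preimage _ 0, zero_add,
    Real.circleAverage_def]
  simp_rw [pt_coe]

theorem mean_value {E : Type*} [NormedAddCommGroup E] [NormedSpace ℂ E] [CompleteSpace E]
    {g : ℂ → E} {ρ : ℝ} (hρ : 0 < ρ) (hg : DifferentiableOn ℂ g (closedBall 0 ρ)) :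
    ∫ θ, g (pt ρ θ) ∂mu = g 0 := by
  rw [integral_pt]
  refine DiffContOnCl.circleAverage ?_
  rw [abs_of_pos hρ]
  refine DifferentiableOn.diffContOnCl ?_
  rwa [closure_ball _ hρ.ne']

/-- Boundary values of a holomorphic function vanishing at the origin. -/
def Hol0 (ρ : ℝ) (a : Circ → ℂ) : Prop :=
  ∃ g : ℂ → ℂ, DifferentiableOn ℂ g (closedBall 0 ρ) ∧ g 0 = 0 ∧ ∀ θ, a θ = g (pt ρ θ)

theorem Hol0.integral {ρ : ℝ} (hρ : 0 < ρ) {a : Circ → ℂ} (ha : Hol0 ρ a) :
    ∫ θ, a θ ∂mu = 0 := by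
  obtain ⟨g, hg, hg0, hga⟩ := ha
  simp_rw [hga]
  rw [mean_value hρ hg, hg0]

theorem Hol0.mul {ρ : ℝ} {a b : Circ → ℂ} (ha : Hol0 ρ a) (hb : Hol0 ρ b) :
    Hol0 ρ fun θ => a θ * b θ := by
  obtain ⟨g, hg, hg0, hga⟩ := ha
  obtain ⟨g', hg', -, hgb⟩ := hb
  exact ⟨fun z => g z * g' z, hg.mul hg', by simp [hg0], fun θ => by simp only [hga, hgb]⟩

/-- The logarithmic derivative `u ψ'(u) / ψ(u)`, extended to the origin. -/
noncomputable def logd (ψ : ℂ → ℂ) (u : ℂ) : ℂ := deriv ψ u / dslope ψ 0 u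

/-- The Cauchy kernel of the disc, conjugated and without its constant term. -/
noncomputable def kerC (v u : ℂ) : ℂ := conj (u / (v - u))

/-- The difference of the two Cauchy kernels. -/
noncomputable def kerQ (ψ : ℂ → ℂ) (v u : ℂ) : ℂ :=
  logd ψ u / (1 - ψ u * (ψ v)⁻¹) - v / (v - u)

theorem one_add_kerC {v u : ℂ} (h : v ≠ u) : 1 + conj (kerC v u) = v / (v - u) := by
  have : v - u ≠ 0 := sub_ne_zero.2 h
  rw [kerC, Complex.conj_conj]
  field_simp
  ring

theorem kerC_pos {v u : ℂ} (h : ‖u‖ < ‖v‖) : 0 ≤ 1 + 2 * (kerC v u).re := by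
  have hne : v - u ≠ 0 := sub_ne_zero.2 fun h' => by simp [h'] at h
  have hpos : 0 < Complex.normSq (v - u) := Complex.normSq_pos.2 hne
  have h2 : Complex.normSq u ≤ Complex.normSq v := by
    rw [← Complex.sq_norm, ← Complex.sq_norm]
    exact pow_le_pow_left₀ (norm_nonneg _) h.le 2
  rw [kerC, Complex.conj_re, Complex.div_re]
  have : 1 + 2 * (u.re * (v - u).re / Complex.normSq (v - u)
      + u.im * (v - u).im / Complex.normSq (v - u))
      = (Complex.normSq v - Complex.normSq u) / Complex.normSq (v - u) := by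
    field_simp
    simp only [Complex.normSq_apply, Complex.sub_re, Complex.sub_im]
    ring
  rw [this]
  exact div_nonneg (by linarith) hpos.le

theorem re_div_sub {v u : ℂ} (h : ‖u‖ = ‖v‖) (hne : v ≠ u) : (v / (v - u)).re = 1 / 2 := by
  have hne' : v - u ≠ 0 := sub_ne_zero.2 hne
  have hpos : 0 < Complex.normSq (v - u) := Complex.normSq_pos.2 hne'
  have h2 : Complex.normSq u = Complex.normSq v := by
    rw [← Complex.sq_norm, ← Complex.sq_norm, h]
  rw [Complex.div_re]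
  field_simp
  simp only [Complex.normSq_apply, Complex.sub_re, Complex.sub_im] at h2 ⊢
  linarith

theorem hol0_kerC {ρ : ℝ} (hρ : 0 < ρ) {u : ℂ} (hu : ‖u‖ < ρ) :
    Hol0 ρ fun θ => kerC (pt ρ θ) u := by
  refine ⟨fun v => conj u * v / (ρ ^ 2 - conj u * v), ?_, by simp, fun θ => ?_⟩
  · refine DifferentiableOn.div (by fun_prop) (by fun_prop) fun v hv h0 => ?_
    have h1 : ‖conj u * v‖ = ρ ^ 2 := by
      rw [← sub_eq_zero.1 h0, norm_pow, Complex.norm_real, Real.norm_of_nonneg hρ.le]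
    rw [mem_closedBall_zero_iff] at hv
    rw [norm_mul, Complex.norm_conj] at h1
    nlinarith [norm_nonneg u, norm_nonneg v]
  · have h1 : (ρ : ℂ) ^ 2 = conj (pt ρ θ) * pt ρ θ := by
      rw [Complex.conj_mul', norm_pt hρ.le]
    have h2 : pt ρ θ ≠ 0 := by
      rw [← norm_ne_zero_iff, norm_pt hρ.le]; exact hρ.ne'
    simp only
    rw [h1, ← sub_mul, mul_div_mul_right _ _ h2, kerC, map_div₀, map_sub]

theorem re_integral_kerC {ρ : ℝ} (hρ : 0 < ρ) {v : ℂ} (hv : ρ < ‖v‖) :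
    (∫ θ, kerC v (pt ρ θ) ∂mu).re = 0 := by
  have : Hol0 ρ fun θ => pt ρ θ / (v - pt ρ θ) := by
    refine ⟨fun u => u / (v - u), ?_, by simp, fun θ => rfl⟩
    refine DifferentiableOn.div (by fun_prop) (by fun_prop) fun u hu h0 => ?_
    rw [mem_closedBall_zero_iff, ← sub_eq_zero.1 h0] at hu
    linarith
  simp only [kerC]
  rw [integral_conj, this.integral hρ]
  simp

namespace ExtMap

variable {K : Set ℂ} {r : ℝ} {φ ψ : ℂ → ℂ} (h : ExtMap K r φ ψ)
include h

theorem dslope_ne_zero {u v : ℂ} (hu : u ∈ ball (0 : ℂ) 1) (hv : v ∈ ball (0 : ℂ) 1) :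
    dslope ψ u v ≠ 0 := by
  by_cases huv : v = u
  · subst huv
    rw [dslope_same]
    exact h.deriv_ψ_ne_zero hu
  · intro h0
    have := sub_smul_dslope ψ u v
    rw [h0, smul_zero] at this
    exact huv (h.injOn hv hu (sub_eq_zero.1 this.symm))

theorem diff_dslope {u : ℂ} (hu : u ∈ ball (0 : ℂ) 1) :
    DifferentiableOn ℂ (dslope ψ u) (ball 0 1) :=
  (Complex.differentiableOn_dslope (isOpen_ball.mem_nhds hu)).2 h.dψ

theorem diff_logd : DifferentiableOn ℂ (logd ψ) (ball 0 1) :=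
  (h.dψ.deriv isOpen_ball).div (h.diff_dslope (mem_ball_self one_pos))
    fun _ hv => h.dslope_ne_zero (mem_ball_self one_pos) hv

theorem logd_zero : logd ψ 0 = 1 := by
  rw [logd, dslope_same, div_self (h.deriv_ψ_ne_zero (mem_ball_self one_pos))]

theorem logd_eq {u : ℂ} (hu0 : u ≠ 0) : logd ψ u = u * deriv ψ u / ψ u := by
  have := sub_smul_dslope ψ 0 u
  rw [h.ψ0, sub_zero, sub_zero, smul_eq_mul] at this
  rw [logd, ← this, mul_div_mul_left _ _ hu0]

theorem kerQ_left {u : ℂ} (hu : u ∈ ball (0 : ℂ) 1 \ {0}) :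
    ∃ g : ℂ → ℂ, DifferentiableOn ℂ g (ball 0 1) ∧ g 0 = 0 ∧
      ∀ v ∈ ball (0 : ℂ) 1 \ {0}, v ≠ u → kerQ ψ v u = g v := by
  have hu0 : u ≠ 0 := hu.2
  have hψu := h.ψ_ne_zero hu.1 hu.2
  have hψ' := h.deriv_ψ_ne_zero hu.1
  set N : ℂ → ℂ := fun v => logd ψ u * ψ v / dslope ψ u v - v with hN
  have hNd : DifferentiableOn ℂ N (ball 0 1) :=
    ((h.dψ.const_mul _).div (h.diff_dslope hu.1) fun v hv => h.dslope_ne_zero hu.1 hv).sub
      differentiableOn_id
  have hNu : N u = 0 := by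
    simp only [hN, dslope_same, h.logd_eq hu0]
    field_simp
    ring
  refine ⟨dslope N u, (Complex.differentiableOn_dslope (isOpen_ball.mem_nhds hu.1)).2 hNd, ?_,
    fun v hv hvu => ?_⟩
  · rw [dslope_of_ne _ hu0.symm, slope_def_field, hNu]
    simp [hN, h.ψ0]
  · have hψv := h.ψ_ne_zero hv.1 hv.2
    have h1 : ψ v - ψ u ≠ 0 := sub_ne_zero.2 fun h' => hvu (h.injOn hv.1 hu.1 h')
    have h2 : v - u ≠ 0 := sub_ne_zero.2 hvu
    rw [dslope_of_ne _ hvu, slope_def_field, hNu, kerQ]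
    simp only [hN, dslope_of_ne _ hvu, slope_def_field]
    field_simp
    ring

theorem kerQ_right {v : ℂ} (hv : v ∈ ball (0 : ℂ) 1 \ {0}) :
    ∃ g : ℂ → ℂ, DifferentiableOn ℂ g (ball 0 1) ∧ g 0 = 0 ∧
      ∀ u ∈ ball (0 : ℂ) 1, u ≠ v → kerQ ψ v u = g u := by
  have hv0 : v ≠ 0 := hv.2
  have hψv := h.ψ_ne_zero hv.1 hv.2
  have hψ' := h.deriv_ψ_ne_zero hv.1
  set N : ℂ → ℂ := fun u => v - logd ψ u * ψ v / dslope ψ v u with hN
  have hNd : DifferentiableOn ℂ N (ball 0 1) :=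
    (differentiableOn_const v).sub ((h.diff_logd.mul_const _).div (h.diff_dslope hv.1)
      fun u hu => h.dslope_ne_zero hv.1 hu)
  have hNv : N v = 0 := by
    simp only [hN, dslope_same, h.logd_eq hv0]
    field_simp
    ring
  have key : ∀ u ∈ ball (0 : ℂ) 1, u ≠ v → kerQ ψ v u = dslope N v u := by
    intro u hu huv
    have h1 : ψ u - ψ v ≠ 0 := sub_ne_zero.2 fun h' => huv (h.injOn hu hv.1 h')
    have h1' : ψ v - ψ u ≠ 0 := sub_ne_zero.2 fun h' => huv (h.injOn hu hv.1 h'.symm)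
    have h2 : u - v ≠ 0 := sub_ne_zero.2 huv
    have h2' : v - u ≠ 0 := sub_ne_zero.2 huv.symm
    rw [dslope_of_ne _ huv, slope_def_field, hNv, kerQ]
    simp only [hN, dslope_of_ne _ huv, slope_def_field]
    field_simp
    ring
  refine ⟨dslope N v, (Complex.differentiableOn_dslope (isOpen_ball.mem_nhds hv.1)).2 hNd, ?_,
    key⟩
  rw [← key 0 (mem_ball_self one_pos) hv0.symm, kerQ, h.logd_zero, h.ψ0]
  simp [hv0]

theorem kerQ_pos {v u : ℂ} (hv : ‖v‖ < 1) (huv : ‖u‖ < ‖v‖) : 0 ≤ 1 + 2 * (kerQ ψ v u).re := by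
  have hvpos : 0 < ‖v‖ := (norm_nonneg _).trans_lt huv
  have hv' : v ∈ ball (0 : ℂ) 1 \ {0} := ⟨by simpa using hv, norm_pos_iff.1 hvpos⟩
  obtain ⟨g, hg, -, hgQ⟩ := h.kerQ_right hv'
  have hsub : closedBall (0 : ℂ) ‖v‖ ⊆ ball 0 1 := closedBall_subset_ball hv
  have hb1 : ∀ w : ℂ, ‖w‖ = ‖v‖ → w ≠ v → -(1 / 2) ≤ (g w).re := by
    intro w hw hwv
    have hw' : w ∈ ball (0 : ℂ) 1 \ {0} :=
      ⟨by simpa [hw] using hv, norm_pos_iff.1 (hw ▸ hvpos)⟩
    rw [← hgQ w hw'.1 hwv, kerQ, Complex.sub_re, re_div_sub hw hwv.symm]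
    have h1 := h.pos_level hw' hw.symm
    rw [← h.logd_eq hw'.2] at h1
    have h2 : 0 ≤ (logd ψ w / (1 - ψ w * (ψ v)⁻¹)).re := by
      rw [Complex.div_re, ← add_div]
      refine div_nonneg ?_ (Complex.normSq_nonneg _)
      simpa [Complex.mul_re] using h1
    linarith
  have hb2 : ∀ w : ℂ, ‖w‖ = ‖v‖ → -(1 / 2) ≤ (g w).re := by
    intro w hw
    by_cases hwv : w = v
    · subst hwv
      set c : ℝ → ℂ := fun t => w * ((1 + t * Complex.I) / (1 - t * Complex.I)) with hc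
      have hden : ∀ t : ℝ, (1 - t * Complex.I : ℂ) ≠ 0 := fun t h0 => by
        simpa using congrArg Complex.re h0
      have hcc : Continuous c := by
        refine continuous_const.mul (Continuous.div (by fun_prop) (by fun_prop) hden)
      have hc0 : c 0 = w := by simp [hc]
      have hgc : ContinuousAt (fun t => (g (c t)).re) 0 := by
        refine Complex.continuous_re.continuousAt.comp (ContinuousAt.comp ?_ hcc.continuousAt)
        rw [hc0]
        exact hg.continuousOn.continuousAt (isOpen_ball.mem_nhds hv'.1)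
      have h1 := hgc.tendsto.mono_left (nhdsWithin_le_nhds (s := {0}ᶜ))
      simp only [hc0] at h1
      refine ge_of_tendsto h1 ?_
      filter_upwards [self_mem_nhdsWithin] with t ht
      refine hb1 _ ?_ fun h0 => ht ?_
      · have : ‖(1 + t * Complex.I : ℂ)‖ = ‖(1 - t * Complex.I : ℂ)‖ := by
          rw [← Complex.norm_conj]; simp [sub_eq_add_neg]
        simp only [hc, norm_mul, norm_div, this, div_self (norm_ne_zero_iff.2 (hden t)), mul_one]
      · have h2 : (1 + t * Complex.I) / (1 - t * Complex.I) = (1 : ℂ) :=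
          mul_left_cancel₀ hv'.2 (h0.trans (mul_one w).symm)
        rw [div_eq_one_iff_eq (hden t)] at h2
        have h3 := congrArg Complex.im h2
        simp at h3
        show t = 0
        linarith
    · exact hb1 w hw hwv
  have hd : DiffContOnCl ℂ (fun w => Complex.exp (-g w)) (ball 0 ‖v‖) := by
    refine DifferentiableOn.diffContOnCl ?_
    rw [closure_ball _ hvpos.ne']
    exact (hg.mono hsub).neg.cexp
  have hmax := Complex.norm_le_of_forall_mem_frontier_norm_le isBounded_ball hd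
    (C := Real.exp (1 / 2)) (fun w hw => ?_) (z := u) (subset_closure (by simpa using huv))
  · rw [Complex.norm_exp, Real.exp_le_exp, Complex.neg_re] at hmax
    rw [hgQ u (by simpa using huv.trans hv) (fun h0 => by simp [h0] at huv)]
    linarith
  · rw [frontier_ball _ hvpos.ne', mem_sphere_zero_iff_norm] at hw
    rw [Complex.norm_exp, Real.exp_le_exp, Complex.neg_re]
    linarith [hb2 w hw]

theorem kernelPair {ρ ρ' : ℝ} (h0 : 0 < ρ') (h1 : ρ' < ρ) (h2 : ρ < 1) :
    KernelPair mu (fun v u => kerC (pt ρ v) (pt ρ' u)) (fun v u => kerQ ψ (pt ρ v) (pt ρ' u)) := by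
  have hρ : 0 < ρ := h0.trans h1
  have nv : ∀ v, ‖pt ρ v‖ = ρ := norm_pt hρ.le
  have nu : ∀ u, ‖pt ρ' u‖ = ρ' := norm_pt h0.le
  have mv : ∀ v, pt ρ v ∈ ball (0 : ℂ) 1 \ {0} := fun v =>
    ⟨by simpa [nv] using h2, norm_pos_iff.1 (by rw [nv]; exact hρ)⟩
  have mu' : ∀ u, pt ρ' u ∈ ball (0 : ℂ) 1 \ {0} := fun u =>
    ⟨by simpa [nu] using h1.trans h2, norm_pos_iff.1 (by rw [nu]; exact h0)⟩
  have hne : ∀ v u, pt ρ v ≠ pt ρ' u := fun v u h' => by
    have := nv v
    rw [h', nu] at this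
    linarith
  have hC : ∀ u, Hol0 ρ fun v => kerC (pt ρ v) (pt ρ' u) := fun u =>
    hol0_kerC hρ (by rw [nu]; exact h1)
  have hQ : ∀ u, Hol0 ρ fun v => kerQ ψ (pt ρ v) (pt ρ' u) := fun u => by
    obtain ⟨g, hg, hg0, hgQ⟩ := h.kerQ_left (mu' u)
    exact ⟨g, hg.mono (closedBall_subset_ball h2), hg0, fun v => hgQ _ (mv v) (hne v u)⟩
  have hQ' : ∀ v, Hol0 ρ' fun u => kerQ ψ (pt ρ v) (pt ρ' u) := fun v => by
    obtain ⟨g, hg, hg0, hgQ⟩ := h.kerQ_right (mv v)
    exact ⟨g, hg.mono (closedBall_subset_ball (h1.trans h2)), hg0,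
      fun u => hgQ _ (mu' u).1 (hne v u).symm⟩
  have cψv : Continuous fun v => ψ (pt ρ v) :=
    h.dψ.continuousOn.comp_continuous (continuous_pt ρ) fun v => (mv v).1
  have cψu : Continuous fun u => ψ (pt ρ' u) :=
    h.dψ.continuousOn.comp_continuous (continuous_pt ρ') fun u => (mu' u).1
  have clu : Continuous fun u => logd ψ (pt ρ' u) :=
    h.diff_logd.continuousOn.comp_continuous (continuous_pt ρ') fun u => (mu' u).1
  have cψv' : Continuous fun v => (ψ (pt ρ v))⁻¹ :=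
    cψv.inv₀ fun v => h.ψ_ne_zero (mv v).1 (mv v).2
  refine ⟨?_, ?_, fun u => (hC u).integral hρ, fun u => (hQ u).integral hρ,
    fun u u' => ((hC u).mul (hC u')).integral hρ, fun u u' => ((hC u).mul (hQ u')).integral hρ,
    fun u u' => ((hQ u).mul (hQ u')).integral hρ,
    fun v => re_integral_kerC h0 (by rw [nv]; exact h1), fun v => ?_,
    fun v u => kerC_pos (by rw [nu, nv]; exact h1),
    fun v u => h.kerQ_pos (by rw [nv]; exact h2) (by rw [nu, nv]; exact h1)⟩
  · change Continuous fun p : Circ × Circ => conj (pt ρ' p.2 / (pt ρ p.1 - pt ρ' p.2))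
    refine Complex.continuous_conj.comp (Continuous.div (by fun_prop) (by fun_prop) fun p => ?_)
    exact sub_ne_zero.2 (hne _ _)
  · change Continuous fun p : Circ × Circ => logd ψ (pt ρ' p.2) /
      (1 - ψ (pt ρ' p.2) * (ψ (pt ρ p.1))⁻¹) - pt ρ p.1 / (pt ρ p.1 - pt ρ' p.2)
    refine Continuous.sub (Continuous.div (clu.comp continuous_snd)
      (continuous_const.sub ((cψu.comp continuous_snd).mul (cψv'.comp continuous_fst))) fun p => ?_)
      (Continuous.div (by fun_prop) (by fun_prop) fun p => sub_ne_zero.2 (hne _ _))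
    intro h3
    have h4 := h.ψ_ne_zero (mv p.1).1 (mv p.1).2
    have h5 : ψ (pt ρ p.1) = ψ (pt ρ' p.2) := by
      field_simp at h3
      linear_combination h3
    exact hne _ _ (h.injOn (mv p.1).1 (mu' p.2).1 h5)
  · rw [(hQ' v).integral h0]; simp

end ExtMap

end Crest.Agent.R132
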