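import Mathlib

/-!
The Toeplitz–Hausdorff theorem: the numerical range of a bounded operator is convex; it is compact
in finite dimension.
-/

namespace Crest.Agent.R132

namespace TH

variable {H : Type*} [NormedAddCommGroup H] [InnerProductSpace ℂ H]

/-- Normalised form: values `1` and `0` are attained, then every `s ∈ [0,1]` is attained. -/
theorem key (B : H →L[ℂ] H) {x y : H} (hx : ‖x‖ = 1) (hy : ‖y‖ = 1)
    (hBx : inner ℂ x (B x) = 1) (hBy : inner ℂ y (B y) = 0) {s : ℝ} (hs0 : 0 ≤ s) (hs1 : s ≤ 1) :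
    ∃ z : H, ‖z‖ = 1 ∧ inner ℂ z (B z) = (s : ℂ) := by
  set c : ℂ := inner ℂ x (B y) - (starRingEnd ℂ) (inner ℂ y (B x)) with hc
  obtain ⟨l, hl1, hlc⟩ : ∃ l : ℂ, ‖l‖ = 1 ∧ (l * c).im = 0 := by
    by_cases h0 : c = 0
    · exact ⟨1, by simp, by simp [h0]⟩
    · refine ⟨(starRingEnd ℂ) c / (‖c‖ : ℂ), ?_, ?_⟩
      · rw [norm_div, Complex.norm_conj, Complex.norm_real, norm_norm,
          div_self (norm_ne_zero_iff.2 h0)]
      · rw [div_mul_eq_mul_div, Complex.conj_mul', ← Complex.ofReal_pow, ← Complex.ofReal_div,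
          Complex.ofReal_im]
  set w : H := l • y with hw
  have hll : (starRingEnd ℂ) l * l = 1 := by
    rw [Complex.conj_mul', hl1]; simp
  have hwn : ‖w‖ = 1 := by rw [hw, norm_smul, hl1, hy, one_mul]
  have hBw : inner ℂ w (B w) = 0 := by
    rw [hw, map_smul, inner_smul_left, inner_smul_right, hBy]; simp
  have hcross : (inner ℂ x (B w) + inner ℂ w (B x)).im = 0 := by
    rw [hw, map_smul, inner_smul_left, inner_smul_right]
    have : (l * c).im = (l * inner ℂ x (B y) + (starRingEnd ℂ) l * inner ℂ y (B x)).im := by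
      simp only [hc, Complex.mul_im, Complex.sub_re, Complex.sub_im, Complex.conj_re,
        Complex.conj_im, Complex.add_im]
      ring
    rw [← this, hlc]
  let z : ℝ → H := fun t => (t : ℂ) • x + ((1 - t : ℝ) : ℂ) • w
  have hzB : ∀ t : ℝ, inner ℂ (z t) (B (z t))
      = ((t ^ 2 : ℝ) : ℂ) + ((t * (1 - t) : ℝ) : ℂ) * (inner ℂ x (B w) + inner ℂ w (B x)) := by
    intro t
    simp only [z, map_add, map_smul, inner_add_left, inner_add_right, inner_smul_left,
      inner_smul_right, hBx, hBw, Complex.conj_ofReal]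
    push_cast; ring
  have hzim : ∀ t : ℝ, (inner ℂ (z t) (B (z t))).im = 0 := by
    intro t
    rw [hzB, Complex.add_im, Complex.ofReal_im, Complex.im_ofReal_mul, hcross]; simp
  have hzc : Continuous z := by
    simp only [z]; fun_prop
  let φ : ℝ → ℝ := fun t => (inner ℂ (z t) (B (z t))).re - s * ‖z t‖ ^ 2
  have hφc : Continuous φ := by
    simp only [φ]
    have : Continuous fun t => inner ℂ (z t) (B (z t)) := hzc.inner (B.continuous.comp hzc)
    fun_prop
  have hz0 : z 0 = w := by simp [z]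
  have hz1 : z 1 = x := by simp [z]
  have hφ0 : φ 0 ≤ 0 := by
    simp only [φ, hz0, hBw, hwn]; simpa using hs0
  have hφ1 : 0 ≤ φ 1 := by
    simp only [φ, hz1, hBx, hx]; simpa using hs1
  obtain ⟨t, -, ht⟩ := intermediate_value_Icc (zero_le_one' ℝ) hφc.continuousOn ⟨hφ0, hφ1⟩
  have hzt : z t ≠ 0 := by
    intro h0
    have h1 : (t : ℂ) • x = -(((1 - t : ℝ) : ℂ) • w) := eq_neg_of_add_eq_zero_left h0
    have h2 : inner ℂ ((t : ℂ) • x) (B ((t : ℂ) • x)) = 0 := by
      rw [h1, map_neg, inner_neg_left, inner_neg_right, map_smul, inner_smul_left,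
        inner_smul_right, hBw]; simp
    rw [map_smul, inner_smul_left, inner_smul_right, hBx, Complex.conj_ofReal] at h2
    have ht0 : t = 0 := by simpa using h2
    rw [ht0, hz0] at h0
    rw [h0, norm_zero] at hwn
    exact zero_ne_one hwn
  have hn : ‖z t‖ ≠ 0 := norm_ne_zero_iff.2 hzt
  refine ⟨((‖z t‖⁻¹ : ℝ) : ℂ) • z t, ?_, ?_⟩
  · rw [norm_smul, Complex.norm_real, norm_inv, norm_norm, inv_mul_cancel₀ hn]
  · have hval : inner ℂ (z t) (B (z t)) = ((s * ‖z t‖ ^ 2 : ℝ) : ℂ) := by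
      apply Complex.ext
      · rw [Complex.ofReal_re]; simp only [φ] at ht; linarith
      · rw [hzim, Complex.ofReal_im]
    rw [map_smul, inner_smul_left, inner_smul_right, hval, Complex.conj_ofReal]
    have : ((‖z t‖ : ℝ) : ℂ) ≠ 0 := by exact_mod_cast hn
    push_cast
    field_simp

end TH

theorem convex_numericalRange {H : Type*} [NormedAddCommGroup H] [InnerProductSpace ℂ H]
    (A : H →L[ℂ] H) : Convex ℝ {z : ℂ | ∃ x : H, ‖x‖ = 1 ∧ z = inner ℂ x (A x)} := by
  rintro _ ⟨x, hx, rfl⟩ _ ⟨y, hy, rfl⟩ a b ha hb hab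
  set al : ℂ := inner ℂ x (A x) with hal
  set be : ℂ := inner ℂ y (A y) with hbe
  by_cases h : al = be
  · refine ⟨x, hx, ?_⟩
    rw [← h, ← add_smul, hab, one_smul]
  have hd : al - be ≠ 0 := sub_ne_zero.2 h
  let B : H →L[ℂ] H := (al - be)⁻¹ • (A - be • ContinuousLinearMap.id ℂ H)
  have hB : ∀ z : H, ‖z‖ = 1 → inner ℂ z (B z) = (al - be)⁻¹ * (inner ℂ z (A z) - be) := by
    intro z hz
    simp only [B, smul_apply, sub_apply,
      ContinuousLinearMap.id_apply, inner_smul_right, inner_sub_right,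
      inner_self_eq_norm_sq_to_K, hz]
    simp
  obtain ⟨z, hz, hzB⟩ := TH.key B hx hy (by rw [hB x hx, inv_mul_cancel₀ hd])
    (by rw [hB y hy, sub_self, mul_zero]) ha (by linarith)
  refine ⟨z, hz, ?_⟩
  rw [hB z hz, inv_mul_eq_iff_eq_mul₀ hd] at hzB
  have hb' : b = 1 - a := by linarith
  rw [hb', Complex.real_smul, Complex.real_smul]
  push_cast
  linear_combination -hzB

theorem isCompact_numericalRange {H : Type*} [NormedAddCommGroup H] [InnerProductSpace ℂ H]
    [FiniteDimensional ℂ H] (A : H →L[ℂ] H) :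
    IsCompact {z : ℂ | ∃ x : H, ‖x‖ = 1 ∧ z = inner ℂ x (A x)} := by
  have : ProperSpace H := FiniteDimensional.proper_rclike ℂ H
  have hc : Continuous fun x : H => inner ℂ x (A x) := continuous_id.inner A.continuous
  have := (isCompact_sphere (0 : H) 1).image hc
  convert this using 1
  ext z
  simp only [Set.mem_ofPred_eq, Set.mem_image, mem_sphere_zero_iff_norm]
  constructor
  · rintro ⟨x, hx, rfl⟩; exact ⟨x, hx, rfl⟩
  · rintro ⟨x, hx, rfl⟩; exact ⟨x, hx, rfl⟩

end Crest.Agent.R132
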