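import Crest.Agent.R132.Core
import Crest.Agent.R132.TH

/-! S0179 (complete Crouzeix bound for matrix polynomials) from the core calculus theorem. -/

set_option autoImplicit false

namespace Crest.Agent.R132

namespace S179

/-- The finite-dimensional case. -/
theorem finDim {H : Type*} [NormedAddCommGroup H] [InnerProductSpace ℂ H] [FiniteDimensional ℂ H]
    (A : H →L[ℂ] H) (m d : ℕ) (B : Fin (d + 1) → Matrix (Fin m) (Fin m) ℂ) (M : ℝ)
    (hM : ∀ x : H, ‖x‖ = 1 →
      ‖Matrix.toEuclideanCLM (n := Fin m) (𝕜 := ℂ)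
          (∑ k : Fin (d + 1), (inner ℂ x (A x)) ^ (k : ℕ) • B k)‖ ≤ M)
    (v : Fin m → H) (ε : ℝ) (hε : 0 < ε) :
    ∑ i, ‖∑ j : Fin m, ∑ k : Fin (d + 1), B k i j • (A ^ (k : ℕ)) (v j)‖ ^ 2 ≤
      (2 * (M + ε)) ^ 2 * ∑ j, ‖v j‖ ^ 2 := by
  set K : Set ℂ := {z : ℂ | ∃ x : H, ‖x‖ = 1 ∧ z = inner ℂ x (A x)} with hK
  set P : ℂ → (EuclideanSpace ℂ (Fin m) →L[ℂ] EuclideanSpace ℂ (Fin m)) := fun z =>
    Matrix.toEuclideanCLM (n := Fin m) (𝕜 := ℂ) (∑ k : Fin (d + 1), z ^ (k : ℕ) • B k) with hP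
  have hPc : Continuous P := by
    simp only [hP, map_sum, map_smul]
    fun_prop
  have hO : IsOpen {z : ℂ | ‖P z‖ < M + ε} := isOpen_lt hPc.norm continuous_const
  have hKO : K ⊆ {z : ℂ | ‖P z‖ < M + ε} := by
    rintro z ⟨x, hx, rfl⟩
    exact lt_of_le_of_lt (hM x hx) (by linarith)
  obtain ⟨δ, hδ, hδO⟩ := (isCompact_numericalRange A).exists_thickening_subset_open hO hKO
  obtain ⟨I, hI⟩ := exists_calculus A (Metric.thickening δ K) K Metric.isOpen_thickening
    ((convex_numericalRange A).thickening δ) (isCompact_numericalRange A)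
    (convex_numericalRange A) (Metric.self_subset_thickening hδ K) (fun x hx => ⟨x, hx, rfl⟩)
  have hb := hI.bound (Fin m) (fun i j => polyHol _
    (∑ k : Fin (d + 1), Polynomial.C (B k i j) * Polynomial.X ^ (k : ℕ))) (M + ε) ?_ v
  · refine le_trans (le_of_eq ?_) hb
    refine Finset.sum_congr rfl fun i _ => ?_
    congr 2
    refine Finset.sum_congr rfl fun j _ => ?_
    rw [hI.map_poly]
    simp [← Algebra.smul_def]
  · intro z hz a
    have h1 : ‖P z‖ ≤ M + ε := le_of_lt (hδO hz)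
    have h2 := (P z).le_opNorm (WithLp.toLp 2 a)
    have h3 : ‖P z (WithLp.toLp 2 a)‖ ^ 2 ≤ ((M + ε) * ‖(WithLp.toLp 2 a : EuclideanSpace ℂ (Fin m))‖) ^ 2 :=
      pow_le_pow_left₀ (norm_nonneg _)
        (h2.trans (mul_le_mul_of_nonneg_right h1 (norm_nonneg _))) 2
    rw [mul_pow, EuclideanSpace.norm_sq_eq, EuclideanSpace.norm_sq_eq] at h3
    refine le_trans (le_of_eq ?_) h3
    refine Finset.sum_congr rfl fun i _ => ?_
    congr 2
    have e : (P z (WithLp.toLp 2 a)) i =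
        ∑ j, (∑ k : Fin (d + 1), z ^ (k : ℕ) • B k) i j * a j := rfl
    rw [e]
    refine Finset.sum_congr rfl fun j _ => ?_
    congr 1
    rw [polyHol_apply, Polynomial.eval_finsetSum, Matrix.sum_apply]
    refine Finset.sum_congr rfl fun k _ => ?_
    rw [Polynomial.eval_mul, Polynomial.eval_C, Polynomial.eval_pow, Polynomial.eval_X,
      Matrix.smul_apply, smul_eq_mul, mul_comm]

end S179

theorem s0179
    {H : Type*} [NormedAddCommGroup H] [InnerProductSpace ℂ H] [CompleteSpace H]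
    (A : H →L[ℂ] H) (m d : ℕ) (B : Fin (d + 1) → Matrix (Fin m) (Fin m) ℂ) (M : ℝ)
    (hM : ∀ x : H, ‖x‖ = 1 →
      ‖Matrix.toEuclideanCLM (n := Fin m) (𝕜 := ℂ)
          (∑ k : Fin (d + 1), (inner ℂ x (A x)) ^ (k : ℕ) • B k)‖ ≤ M)
    (v : PiLp 2 (fun _ : Fin m => H)) :
    ‖(WithLp.toLp 2 (fun i : Fin m => ∑ j : Fin m, ∑ k : Fin (d + 1), B k i j • (A ^ (k : ℕ)) (v j))
        : PiLp 2 (fun _ : Fin m => H))‖ ≤ 2 * M * ‖v‖ := by
  classical
  by_cases hv : v = 0
  · subst hv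
    have : (WithLp.toLp 2 (fun i : Fin m => ∑ j : Fin m, ∑ k : Fin (d + 1),
        B k i j • (A ^ (k : ℕ)) ((0 : PiLp 2 (fun _ : Fin m => H)) j))
        : PiLp 2 (fun _ : Fin m => H)) = 0 := by
      ext i; simp
    rw [this]; simp
  have hM0 : 0 ≤ M := by
    obtain ⟨j, hj⟩ : ∃ j, v j ≠ 0 := by
      by_contra h
      push Not at h
      exact hv (by ext j; simp [h j])
    exact (norm_nonneg _).trans (hM ((‖v j‖⁻¹ : ℂ) • v j) (by
      rw [norm_smul, norm_inv, Complex.norm_real, norm_norm, inv_mul_cancel₀ (norm_ne_zero_iff.2 hj)]))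
  set H0 : Submodule ℂ H := Submodule.span ℂ
    (Set.range fun p : Fin m × Fin (d + 1) => (A ^ (p.2 : ℕ)) (v p.1)) with hH0
  have : FiniteDimensional ℂ H0 := FiniteDimensional.span_of_finite ℂ (Set.finite_range _)
  have hmem : ∀ (j : Fin m) (k : ℕ), k ≤ d → (A ^ k) (v j) ∈ H0 := fun j k hk =>
    Submodule.subset_span ⟨(j, ⟨k, Nat.lt_succ_of_le hk⟩), rfl⟩
  set A0 : H0 →L[ℂ] H0 := (H0.orthogonalProjectionOnto.comp A).comp H0.subtypeL with hA0
  set w : Fin m → H0 := fun j => ⟨v j, by simpa using hmem j 0 (Nat.zero_le _)⟩ with hw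
  have hpow : ∀ (j : Fin m) (k : ℕ), k ≤ d → (((A0 ^ k) (w j) : H0) : H) = (A ^ k) (v j) := by
    intro j k
    induction k with
    | zero => intro _; simp [hw]
    | succ k ih =>
      intro hk
      have h1 := ih (Nat.le_of_succ_le hk)
      have h2 : A ((A ^ k) (v j)) = (A ^ (k + 1)) (v j) := by rw [pow_succ']; rfl
      rw [pow_succ', mul_apply_eq_comp]
      simp only [hA0, ContinuousLinearMap.comp_apply, Submodule.subtypeL_apply] at h1 ⊢
      rw [h1, h2]
      exact congrArg Subtype.val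
        (Submodule.orthogonalProjectionOnto_mem_subspace_eq_self (K := H0) ⟨_, hmem j _ hk⟩)
  have hinner : ∀ x : H0, inner ℂ x (A0 x) = inner ℂ (x : H) (A x) := by
    intro x
    simp only [hA0, ContinuousLinearMap.comp_apply, Submodule.subtypeL_apply]
    exact Submodule.inner_orthogonalProjectionOnto_eq_of_mem_left x _
  refine le_of_forall_pos_le_add fun ε hε => ?_
  have hv0 : 0 < ‖v‖ := norm_pos_iff.2 hv
  have h := S179.finDim A0 m d B M (fun x hx => by rw [hinner]; exact hM x hx) w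
    (ε / (2 * ‖v‖)) (by positivity)
  have e1 : 2 * M * ‖v‖ + ε = 2 * (M + ε / (2 * ‖v‖)) * ‖v‖ := by field_simp
  rw [e1]
  refine (pow_le_pow_iff_left₀ (norm_nonneg _) (by positivity) two_ne_zero).1 ?_
  rw [mul_pow, PiLp.norm_sq_eq_of_L2, PiLp.norm_sq_eq_of_L2]
  refine le_trans (le_of_eq ?_) h
  refine Finset.sum_congr rfl fun i _ => ?_
  congr 1
  rw [← Submodule.norm_coe]
  congr 1
  simp only [Submodule.coe_sum, Submodule.coe_smul]
  refine Finset.sum_congr rfl fun j _ => Finset.sum_congr rfl fun k _ => ?_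
  rw [hpow j k (Nat.le_of_lt_succ k.2)]

end Crest.Agent.R132
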