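import Mathlib
import Crest.Prelude.Def_NumRangeMetric

/-!
Matrix convexity lemmas for S0180: closedness / compactness, duality, spectral splitting.
-/

open scoped ComplexOrder
open Matrix

namespace Crest.Agent.R132.S180

variable {n : ℕ}

theorem isClosed_psd : IsClosed {M : Matrix (Fin n) (Fin n) ℂ | M.PosSemidef} := by
  have : {M : Matrix (Fin n) (Fin n) ℂ | M.PosSemidef} =
      {M | Mᴴ = M} ∩ ⋂ x : Fin n → ℂ, {M | 0 ≤ star x ⬝ᵥ (M *ᵥ x)} := by
    ext M
    simp only [Set.mem_ofPred_eq, Set.mem_inter_iff, Set.mem_iInter]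
    exact posSemidef_iff_dotProduct_mulVec
  rw [this]
  refine IsClosed.inter (isClosed_eq (by fun_prop) continuous_id) (isClosed_iInter fun x => ?_)
  exact isClosed_le continuous_const (by fun_prop)

theorem psd_two_point {M : Matrix (Fin n) (Fin n) ℂ} (hM : M.PosSemidef) (i j : Fin n) (c : ℂ) :
    0 ≤ (M i i + c * M i j + star c * M j i + star c * c * M j j).re := by
  have h := hM.dotProduct_mulVec_nonneg (Pi.single i 1 + Pi.single j c)
  have e : star (Pi.single i 1 + Pi.single j c : Fin n → ℂ) ⬝ᵥ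
      (M *ᵥ (Pi.single i 1 + Pi.single j c)) =
      M i i + c * M i j + star c * M j i + star c * c * M j j := by
    simp only [star_add, mulVec_add, add_dotProduct, dotProduct_add, ← Pi.single_star,
      single_dotProduct, mulVec_single, star_one, Pi.smul_apply, col_apply,
      MulOpposite.smul_eq_mul_unop, MulOpposite.unop_op]
    ring
  rw [e] at h
  exact (Complex.nonneg_iff.mp h).1

theorem psd_entry_bound {M : Matrix (Fin n) (Fin n) ℂ} (hM : M.PosSemidef) (i j : Fin n) :
    ‖M i j‖ ≤ (M i i).re + (M j j).re := by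
  have hji : M j i = star (M i j) := (hM.1.apply j i).symm
  have h1 := psd_two_point hM i j 1
  have h2 := psd_two_point hM i j (-1)
  have h3 := psd_two_point hM i j Complex.I
  have h4 := psd_two_point hM i j (-Complex.I)
  rw [hji] at h1 h2 h3 h4
  simp at h1 h2 h3 h4
  have := Complex.norm_le_abs_re_add_abs_im (M i j)
  have a1 : |(M i j).re| ≤ ((M i i).re + (M j j).re) / 2 := by
    rw [abs_le]; constructor <;> linarith
  have a2 : |(M i j).im| ≤ ((M i i).re + (M j j).re) / 2 := by
    rw [abs_le]; constructor <;> linarith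
  linarith

/-- The order interval `[1, 4]`. -/
def box (n : ℕ) : Set (Matrix (Fin n) (Fin n) ℂ) :=
  {H | (H - 1).PosSemidef ∧ (((4 : ℝ) : ℂ) • (1 : Matrix (Fin n) (Fin n) ℂ) - H).PosSemidef}

theorem isClosed_box : IsClosed (box n) := by
  refine IsClosed.inter ?_ ?_
  · exact isClosed_psd.preimage (f := fun H : Matrix (Fin n) (Fin n) ℂ => H - 1) (by fun_prop)
  · exact isClosed_psd.preimage
      (f := fun H : Matrix (Fin n) (Fin n) ℂ =>
        ((4 : ℝ) : ℂ) • (1 : Matrix (Fin n) (Fin n) ℂ) - H) (by fun_prop)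

theorem psd_of_mem_box {H : Matrix (Fin n) (Fin n) ℂ} (h : H ∈ box n) : H.PosSemidef := by
  have := h.1.add PosSemidef.one
  simpa using this

theorem isCompact_box : IsCompact (box n) := by
  have hc : IsCompact (Set.pi Set.univ (fun _ : Fin n => Set.pi Set.univ
      (fun _ : Fin n => Metric.closedBall (0 : ℂ) 8))) :=
    isCompact_univ_pi fun _ => isCompact_univ_pi fun _ => isCompact_closedBall _ _
  refine IsCompact.of_isClosed_subset (s := (Set.pi Set.univ (fun _ : Fin n => Set.pi Set.univ
      (fun _ : Fin n => Metric.closedBall (0 : ℂ) 8)) : Set (Matrix (Fin n) (Fin n) ℂ))) hc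
      isClosed_box ?_
  intro (H : Matrix (Fin n) (Fin n) ℂ) hH i _ j _
  have hd : ∀ k, (H k k).re ≤ 4 := by
    intro k
    have := (Complex.nonneg_iff.mp (hH.2.diag_nonneg (i := k))).1
    rw [Matrix.sub_apply, Matrix.smul_apply, Matrix.one_apply_eq] at this
    simp at this
    linarith
  have := psd_entry_bound (psd_of_mem_box hH) i j
  simp only [Metric.mem_closedBall, dist_zero_right]
  linarith [hd i, hd j]

theorem psd_real_smul {M : Matrix (Fin n) (Fin n) ℂ} (hM : M.PosSemidef) {a : ℝ} (ha : 0 ≤ a) :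
    (a • M).PosSemidef := hM.smul ha

theorem convex_psd : Convex ℝ {M : Matrix (Fin n) (Fin n) ℂ | M.PosSemidef} := by
  intro x hx y hy a b ha hb _
  exact (psd_real_smul hx ha).add (psd_real_smul hy hb)

theorem convex_box : Convex ℝ (box n) := by
  intro x hx y hy a b ha hb hab
  constructor
  · have := (psd_real_smul hx.1 ha).add (psd_real_smul hy.1 hb)
    convert this using 1
    have hb' : b = 1 - a := by linarith
    subst hb'
    module
  · have := (psd_real_smul hx.2 ha).add (psd_real_smul hy.2 hb)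
    convert this using 1
    have hb' : b = 1 - a := by linarith
    subst hb'
    module

theorem trace_repr (φ : Matrix (Fin n) (Fin n) ℂ →ₗ[ℂ] ℂ) :
    ∃ Z0 : Matrix (Fin n) (Fin n) ℂ, ∀ M, φ M = (Z0 * M).trace := by
  refine ⟨Matrix.of fun j i => φ (Matrix.single i j 1), fun M => ?_⟩
  conv_lhs => rw [Matrix.matrix_eq_sum_single M]
  simp only [map_sum, Matrix.trace, Matrix.diag, Matrix.mul_apply, Matrix.of_apply]
  rw [Finset.sum_comm]
  refine Finset.sum_congr rfl fun j _ => Finset.sum_congr rfl fun i _ => ?_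
  have : Matrix.single i j (M i j) = M i j • Matrix.single i j (1 : ℂ) := by
    rw [Matrix.smul_single, smul_eq_mul, mul_one]
  rw [this, map_smul, smul_eq_mul, mul_comm]

theorem re_trace_herm (Z0 M : Matrix (Fin n) (Fin n) ℂ) (hM : M.IsHermitian) :
    ((((1 / 2 : ℝ) : ℂ) • (Z0 + Z0ᴴ)) * M).trace.re = (Z0 * M).trace.re := by
  have h1 : (Z0ᴴ * M).trace = star (Z0 * M).trace := by
    rw [← Matrix.trace_conjTranspose, conjTranspose_mul, hM.eq, Matrix.trace_mul_comm]
  rw [Matrix.smul_mul, Matrix.add_mul, Matrix.trace_smul, Matrix.trace_add, h1]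
  simp
  ring

theorem exists_dual (T : Matrix (Fin n) (Fin n) ℂ)
    (h : ∀ H ∈ box n, ¬ (H - Tᴴ * H * T).PosSemidef) :
    ∃ Z : Matrix (Fin n) (Fin n) ℂ, Z.PosSemidef ∧
      ∀ H ∈ box n, ((Z - T * Z * Tᴴ) * H).trace.re < 0 := by
  let _ : LocallyConvexSpace ℝ (Matrix (Fin n) (Fin n) ℂ) :=
    inferInstanceAs (LocallyConvexSpace ℝ (Fin n → Fin n → ℂ))
  let L : Matrix (Fin n) (Fin n) ℂ →ₗ[ℝ] Matrix (Fin n) (Fin n) ℂ :=
    { toFun := fun H => H - Tᴴ * H * T
      map_add' := fun x y => by simp only [Matrix.mul_add, Matrix.add_mul]; abel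
      map_smul' := fun a x => by
        simp only [Matrix.mul_smul, Matrix.smul_mul, RingHom.id_apply, smul_sub] }
  have hLc : Continuous L := by
    change Continuous fun H : Matrix (Fin n) (Fin n) ℂ => H - Tᴴ * H * T
    fun_prop
  have hdisj : Disjoint (L '' box n) {M : Matrix (Fin n) (Fin n) ℂ | M.PosSemidef} := by
    rw [Set.disjoint_left]
    rintro _ ⟨H, hH, rfl⟩ hP
    exact h H hH hP
  obtain ⟨f, u, v, hu, huv, hv⟩ := RCLike.geometric_hahn_banach_compact_closed (𝕜 := ℂ)
    (convex_box.linear_image L) (isCompact_box.image hLc) convex_psd isClosed_psd hdisj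
  obtain ⟨Z0, hZ0⟩ := trace_repr (f : Matrix (Fin n) (Fin n) ℂ →ₗ[ℂ] ℂ)
  have hf : ∀ M, f M = (Z0 * M).trace := hZ0
  have hv0 : v < 0 := by
    have := hv 0 PosSemidef.zero
    simpa using this
  have hpos : ∀ M : Matrix (Fin n) (Fin n) ℂ, M.PosSemidef → 0 ≤ (f M).re := by
    intro M hM
    by_contra hneg
    push Not at hneg
    have ht : 0 ≤ v / (f M).re := div_nonneg_of_nonpos hv0.le hneg.le
    have := hv ((v / (f M).re) • M) (psd_real_smul hM ht)
    have e : f ((v / (f M).re) • M) = ((v / (f M).re : ℝ) : ℂ) * f M := by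
      rw [← Complex.coe_smul, map_smul, smul_eq_mul]
    rw [e] at this
    simp only [RCLike.re_to_complex, Complex.re_ofReal_mul] at this
    rw [div_mul_cancel₀ _ hneg.ne] at this
    exact lt_irrefl _ this
  set Z : Matrix (Fin n) (Fin n) ℂ := ((1 / 2 : ℝ) : ℂ) • (Z0 + Z0ᴴ) with hZ
  have hZh : Z.IsHermitian := by
    rw [hZ, IsHermitian, conjTranspose_smul, conjTranspose_add, conjTranspose_conjTranspose,
      add_comm]
    simp
  have hZre : ∀ M : Matrix (Fin n) (Fin n) ℂ, M.IsHermitian →
      (Z * M).trace.re = (f M).re := by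
    intro M hM
    rw [hf, hZ, re_trace_herm Z0 M hM]
  refine ⟨Z, ?_, ?_⟩
  · refine PosSemidef.of_dotProduct_mulVec_nonneg hZh fun x => ?_
    have hx := posSemidef_vecMulVec_self_star x
    have e : star x ⬝ᵥ (Z *ᵥ x) = (Z * vecMulVec x (star x)).trace := by
      rw [Matrix.mul_vecMulVec, Matrix.trace_vecMulVec, dotProduct_comm]
    rw [Complex.nonneg_iff]
    refine ⟨?_, ?_⟩
    · rw [e, hZre _ hx.1]
      exact hpos _ hx
    · have := hZh.im_star_dotProduct_mulVec_self x
      simpa using this.symm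
  · intro H hH
    have hHh : H.IsHermitian := (psd_of_mem_box hH).1
    have hLh : (H - Tᴴ * H * T).IsHermitian :=
      hHh.sub (isHermitian_conjTranspose_mul_mul T hHh)
    have h1 := hu (L H) ⟨H, hH, rfl⟩
    have h2 : (L H) = H - Tᴴ * H * T := rfl
    rw [h2] at h1
    have h3 := hZre _ hLh
    have h4 : ((Z - T * Z * Tᴴ) * H).trace = (Z * (H - Tᴴ * H * T)).trace := by
      rw [Matrix.sub_mul, Matrix.mul_sub, Matrix.trace_sub, Matrix.trace_sub]
      congr 1
      rw [Matrix.mul_assoc, Matrix.mul_assoc, Matrix.trace_mul_comm T]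
      simp only [Matrix.mul_assoc]
    rw [h4, h3]
    simp only [RCLike.re_to_complex] at h1
    linarith

theorem sum_normSq_eq_trace (ξ : Matrix (Fin n) (Fin n) ℂ) :
    ∑ j, ∑ a, ‖ξ a j‖ ^ 2 = (ξ * ξᴴ).trace.re := by
  rw [Finset.sum_comm]
  simp only [Matrix.trace, Matrix.diag, Matrix.mul_apply, conjTranspose_apply, Complex.re_sum]
  refine Finset.sum_congr rfl fun a _ => Finset.sum_congr rfl fun j _ => ?_
  rw [Complex.star_def, Complex.mul_conj, Complex.normSq_eq_norm_sq]
  norm_cast

theorem exists_split (D : Matrix (Fin n) (Fin n) ℂ) (hD : D.IsHermitian)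
    (h : ∀ H ∈ box n, (D * H).trace.re < 0) :
    ∃ ξ η : Matrix (Fin n) (Fin n) ℂ, ξ * ξᴴ - η * ηᴴ = D ∧ (ξ * ξᴴ).PosDef ∧
      4 * (ξ * ξᴴ).trace.re < (η * ηᴴ).trace.re := by
  set U : Matrix (Fin n) (Fin n) ℂ := (hD.eigenvectorUnitary : Matrix (Fin n) (Fin n) ℂ) with hU
  have hU1 : Uᴴ * U = 1 := by
    have := hD.eigenvectorUnitary.2.1
    simpa [hU, star_eq_conjTranspose] using this
  have hU2 : U * Uᴴ = 1 := by
    have := hD.eigenvectorUnitary.2.2
    simpa [hU, star_eq_conjTranspose] using this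
  set lam := hD.eigenvalues with hlam
  -- conjugation of a real diagonal
  let c : (Fin n → ℝ) → Matrix (Fin n) (Fin n) ℂ :=
    fun d => U * diagonal (fun i => (d i : ℂ)) * Uᴴ
  have hDc : D = c lam := by
    have := hD.spectral_theorem
    rw [Unitary.conjStarAlgAut_apply] at this
    exact this
  have c_sub : ∀ d e, c d - c e = c (fun i => d i - e i) := by
    intro d e
    simp only [c]
    rw [← Matrix.sub_mul, ← Matrix.mul_sub, diagonal_sub]
    simp
  have c_const : ∀ t : ℝ, c (fun _ => t) = (t : ℂ) • 1 := by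
    intro t
    simp only [c]
    rw [← smul_one_eq_diagonal, Matrix.mul_smul, Matrix.smul_mul, Matrix.mul_one, hU2]
  have c_psd : ∀ d, (∀ i, 0 ≤ d i) → (c d).PosSemidef := by
    intro d hd
    refine PosSemidef.mul_mul_conjTranspose_same (PosSemidef.diagonal ?_) U
    intro i
    simpa using hd i
  have c_mul : ∀ d e, c d * c e = c (fun i => d i * e i) := by
    intro d e
    simp only [c]
    calc U * diagonal (fun i => (d i : ℂ)) * Uᴴ * (U * diagonal (fun i => (e i : ℂ)) * Uᴴ)
        = U * (diagonal (fun i => (d i : ℂ)) * (Uᴴ * U) * diagonal (fun i => (e i : ℂ))) * Uᴴ := by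
          simp only [Matrix.mul_assoc]
      _ = _ := by
          rw [hU1, Matrix.mul_one, diagonal_mul_diagonal]
          simp
  have c_trace : ∀ d, (c d).trace.re = ∑ i, d i := by
    intro d
    simp only [c]
    rw [Matrix.trace_mul_cycle, hU1, Matrix.one_mul, trace_diagonal]
    simp
  have c_sq : ∀ d : Fin n → ℝ, (∀ i, 0 ≤ d i) →
      (U * diagonal (fun i => ((√(d i) : ℝ) : ℂ))) *
        (U * diagonal (fun i => ((√(d i) : ℝ) : ℂ)))ᴴ = c d := by
    intro d hd
    simp only [c]
    rw [conjTranspose_mul, diagonal_conjTranspose, Matrix.mul_assoc, Matrix.mul_assoc,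
      ← Matrix.mul_assoc (diagonal _), diagonal_mul_diagonal]
    congr 3
    ext i
    simp only [Pi.star_apply, Complex.star_def, Complex.conj_ofReal]
    rw [← Complex.ofReal_mul, Real.mul_self_sqrt (hd i)]
  -- the test point of the box
  let hv : Fin n → ℝ := fun i => if 0 < lam i then 4 else 1
  have hbox : c hv ∈ box n := by
    constructor
    · have e : (1 : Matrix (Fin n) (Fin n) ℂ) = c (fun _ => 1) := by rw [c_const]; simp
      rw [e, c_sub]
      refine c_psd _ fun i => ?_
      simp only [hv]; split_ifs <;> norm_num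
    · rw [← c_const, c_sub]
      refine c_psd _ fun i => ?_
      simp only [hv]; split_ifs <;> norm_num
  have hneg := h _ hbox
  rw [hDc, c_mul, c_trace] at hneg
  set s := ∑ i, lam i * hv i with hs
  set ε : ℝ := -s / (3 * n + 1) with hε
  have hn : (0 : ℝ) < 3 * n + 1 := by positivity
  have hε0 : 0 < ε := div_pos (by linarith) hn
  let dp : Fin n → ℝ := fun i => max (lam i) 0 + ε
  let dm : Fin n → ℝ := fun i => max (-lam i) 0 + ε
  have hdp : ∀ i, 0 < dp i := fun i => by simp only [dp]; positivity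
  have hdm : ∀ i, 0 < dm i := fun i => by simp only [dm]; positivity
  refine ⟨U * diagonal (fun i => ((√(dp i) : ℝ) : ℂ)), U * diagonal (fun i => ((√(dm i) : ℝ) : ℂ)),
    ?_, ?_, ?_⟩
  · rw [c_sq _ (fun i => (hdp i).le), c_sq _ (fun i => (hdm i).le), c_sub, hDc]
    congr 1
    ext i
    simp only [dp, dm]
    rcases le_total 0 (lam i) with h0 | h0
    · rw [max_eq_left h0, max_eq_right (by linarith)]; ring
    · rw [max_eq_right h0, max_eq_left (by linarith)]; ring
  · rw [c_sq _ (fun i => (hdp i).le)]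
    have e : c dp = c (fun i => max (lam i) 0) + (ε : ℂ) • 1 := by
      rw [← c_const, ← sub_eq_iff_eq_add, c_sub]
      congr 1
      ext i
      simp [dp]
    rw [e]
    refine PosDef.posSemidef_add (c_psd _ fun i => le_max_right _ _) ?_
    exact PosDef.one.smul (by exact_mod_cast hε0)
  · rw [c_sq _ (fun i => (hdp i).le), c_sq _ (fun i => (hdm i).le), c_trace, c_trace]
    have e1 : 4 * ∑ i, dp i - ∑ i, dm i = s + 3 * n * ε := by
      rw [Finset.mul_sum, ← Finset.sum_sub_distrib, hs]
      have : (3 * n * ε : ℝ) = ∑ _i : Fin n, 3 * ε := by simp; ring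
      rw [this, ← Finset.sum_add_distrib]
      refine Finset.sum_congr rfl fun i _ => ?_
      simp only [dp, dm, hv]
      split_ifs with h0
      · rw [max_eq_left h0.le, max_eq_right (by linarith)]; ring
      · push Not at h0
        rw [max_eq_right h0, max_eq_left (by linarith)]; ring
    have e2 : (3 * n + 1) * ε = -s := by rw [hε]; field_simp
    nlinarith

end Crest.Agent.R132.S180
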