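import Crest.Agent.R132.Defs
import Crest.Agent.R132.S180Psd

/-!
The duality argument for S0180: a completely `2`-bounded calculus gives a feasible metric.
-/

open scoped ComplexOrder
open Matrix

namespace Crest.Agent.R132.S180

variable {n : ℕ}

/-- The pencil `N(w) = Y + (T - w) Z Tᴴ`. -/
def pencil (Y T Z : Matrix (Fin n) (Fin n) ℂ) (w : ℂ) : Matrix (Fin n) (Fin n) ℂ :=
  Y + T * Z * Tᴴ - w • (Z * Tᴴ)

theorem pencil_psd {X Y T Z : Matrix (Fin n) (Fin n) ℂ} (hZ : Z.PosSemidef) (hY : Y.IsHermitian)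
    (hXY : Y - X = Z - T * Z * Tᴴ) {w : ℂ} (hw : ‖w‖ ≤ 1) :
    (pencil Y T Z w + (pencil Y T Z w)ᴴ - X - Y).PosSemidef := by
  have h1 := hZ.mul_mul_conjTranspose_same (T - w • 1)
  have hw2 : (0 : ℝ) ≤ 1 - ‖w‖ ^ 2 := by nlinarith [norm_nonneg w]
  have h2 := psd_real_smul hZ hw2
  have hX : X = Y - Z + T * Z * Tᴴ := by
    have : X = Y - (Y - X) := by abel
    rw [this, hXY]; abel
  convert h1.add h2 using 1
  have hww : (((1 - ‖w‖ ^ 2 : ℝ)) : ℂ) = 1 - star w * w := by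
    rw [Complex.star_def, mul_comm, Complex.mul_conj, Complex.normSq_eq_norm_sq]
    push_cast; ring
  rw [← Complex.coe_smul, hww, hX]
  simp only [pencil, conjTranspose_sub, conjTranspose_add, conjTranspose_mul, conjTranspose_smul,
    conjTranspose_conjTranspose, hZ.1.eq, hY.eq, conjTranspose_one, Matrix.sub_mul, Matrix.mul_sub,
    Matrix.smul_mul, Matrix.mul_smul, Matrix.one_mul, Matrix.mul_one, Matrix.mul_assoc]
  module

theorem star_dot_self_re (b : Fin n → ℂ) : (star b ⬝ᵥ b).re = ∑ j, ‖b j‖ ^ 2 := by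
  simp only [dotProduct, Pi.star_apply, Complex.re_sum]
  refine Finset.sum_congr rfl fun j _ => ?_
  rw [Complex.star_def, mul_comm, Complex.mul_conj, Complex.normSq_eq_norm_sq]
  norm_cast

theorem quad_self (ξ : Matrix (Fin n) (Fin n) ℂ) (y : Fin n → ℂ) :
    (star y ⬝ᵥ ((ξ * ξᴴ) *ᵥ y)).re = ∑ j, ‖(ξᴴ *ᵥ y) j‖ ^ 2 := by
  rw [← star_dot_self_re, star_mulVec, conjTranspose_conjTranspose, ← mulVec_mulVec,
    dotProduct_mulVec]

theorem quad_conj (N : Matrix (Fin n) (Fin n) ℂ) (y : Fin n → ℂ) :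
    (star y ⬝ᵥ (Nᴴ *ᵥ y)).re = (star y ⬝ᵥ (N *ᵥ y)).re := by
  have : star y ⬝ᵥ (Nᴴ *ᵥ y) = star (star y ⬝ᵥ (N *ᵥ y)) := by
    rw [← star_dotProduct_star, star_star, star_mulVec, dotProduct_mulVec, dotProduct_comm]
  rw [this]
  simp

theorem quad_ineq {N ξ η : Matrix (Fin n) (Fin n) ℂ}
    (hP : (N + Nᴴ - η * ηᴴ - ξ * ξᴴ).PosSemidef) (y : Fin n → ℂ) :
    ∑ j, ‖(ηᴴ *ᵥ y) j‖ ^ 2 + ∑ j, ‖(ξᴴ *ᵥ y) j‖ ^ 2 ≤ 2 * (star y ⬝ᵥ (N *ᵥ y)).re := by
  have h := (Complex.nonneg_iff.mp (hP.dotProduct_mulVec_nonneg y)).1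
  simp only [sub_mulVec, add_mulVec, dotProduct_sub, dotProduct_add, Complex.sub_re,
    Complex.add_re, quad_self, quad_conj] at h
  linarith

theorem det_ne_zero_of {N ξ η : Matrix (Fin n) (Fin n) ℂ}
    (hP : (N + Nᴴ - η * ηᴴ - ξ * ξᴴ).PosSemidef) (hY : (ξ * ξᴴ).PosDef) : N.det ≠ 0 := by
  intro h0
  obtain ⟨y, hy, hNy⟩ := Matrix.exists_mulVec_eq_zero_iff.mpr h0
  have h1 := quad_ineq hP y
  have h2 := (Complex.pos_iff.mp (hY.dotProduct_mulVec_pos hy)).1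
  rw [quad_self] at h2
  rw [hNy] at h1
  have h3 : 0 ≤ ∑ j, ‖(ηᴴ *ᵥ y) j‖ ^ 2 := by positivity
  simp at h1
  linarith

theorem contract_of {N ξ η : Matrix (Fin n) (Fin n) ℂ}
    (hP : (N + Nᴴ - η * ηᴴ - ξ * ξᴴ).PosSemidef) (hN : N.det ≠ 0) (a : Fin n → ℂ) :
    ∑ c, ‖∑ j, (ξᴴ * N⁻¹ * η) j c * a j‖ ^ 2 ≤ ∑ j, ‖a j‖ ^ 2 := by
  set u : Fin n → ℂ := a ᵥ* (ξᴴ * N⁻¹) with hu
  have huN : u ᵥ* N = a ᵥ* ξᴴ := by
    rw [hu, vecMul_vecMul, Matrix.mul_assoc, nonsing_inv_mul _ (Ne.isUnit hN), Matrix.mul_one]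
  have h1 := quad_ineq hP (star u)
  rw [star_star, dotProduct_mulVec, huN, ← dotProduct_mulVec] at h1
  set b := ξᴴ *ᵥ star u with hb
  have h2 : 2 * (a ⬝ᵥ b).re ≤ ∑ j, ‖a j‖ ^ 2 + ∑ j, ‖b j‖ ^ 2 := by
    simp only [dotProduct, Complex.re_sum, Finset.mul_sum, ← Finset.sum_add_distrib]
    refine Finset.sum_le_sum fun j _ => ?_
    have := Complex.re_le_norm (a j * b j)
    rw [norm_mul] at this
    nlinarith [sq_nonneg (‖a j‖ - ‖b j‖)]
  have h3 : ∀ c, ‖∑ j, (ξᴴ * N⁻¹ * η) j c * a j‖ = ‖(ηᴴ *ᵥ star u) c‖ := by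
    intro c
    have e1 : ∑ j, (ξᴴ * N⁻¹ * η) j c * a j = (u ᵥ* η) c := by
      rw [hu, vecMul_vecMul]
      simp only [vecMul, dotProduct]
      exact Finset.sum_congr rfl fun j _ => mul_comm _ _
    have e2 : ηᴴ *ᵥ star u = star (u ᵥ* η) := (star_vecMul η u).symm
    rw [e1, e2, Pi.star_apply, norm_star]
  simp only [h3]
  linarith

/-- Evaluation at a point. -/
def ev (V : Set ℂ) (z : ℂ) : Hol V →+* ℂ where
  toFun g := (g : ℂ → ℂ) z
  map_one' := rfl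
  map_mul' _ _ := rfl
  map_zero' := rfl
  map_add' _ _ := rfl

@[simp] theorem ev_apply (V : Set ℂ) (z : ℂ) (g : Hol V) : ev V z g = (g : ℂ → ℂ) z := rfl

/-- Constant matrices as matrices over `Hol V`. -/
noncomputable def cst (V : Set ℂ) (M : Matrix (Fin n) (Fin n) ℂ) :
    Matrix (Fin n) (Fin n) (Hol V) := M.map (algebraMap ℂ (Hol V))

theorem cst_map (V : Set ℂ) (z : ℂ) (M : Matrix (Fin n) (Fin n) ℂ) :
    (cst V M).map (ev V z) = M := by
  ext i j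
  simp [cst]

theorem cst_mul (V : Set ℂ) (M N : Matrix (Fin n) (Fin n) ℂ) :
    cst V (M * N) = cst V M * cst V N := Matrix.map_mul

/-- A matrix-valued functional calculus in which `g` acts as `T`, with complete bound `2`. -/
structure MCalc (T : Matrix (Fin n) (Fin n) ℂ) (V : Set ℂ) (g : Hol V)
    (J : Hol V →ₗ[ℂ] Matrix (Fin n) (Fin n) ℂ) : Prop where
  congr : ∀ h h' : Hol V, Set.EqOn (h : ℂ → ℂ) h' V → J h = J h'
  map_one : J 1 = 1
  map_g_mul : ∀ h : Hol V, J (g * h) = T * J h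
  comm : ∀ h : Hol V, J h * T = T * J h
  bound : ∀ F : Fin n → Fin n → Hol V,
    (∀ z ∈ V, ∀ a : Fin n → ℂ,
      ∑ i, ‖∑ j, (F i j : ℂ → ℂ) z * a j‖ ^ 2 ≤ ∑ j, ‖a j‖ ^ 2) →
    ∀ v : Fin n → Fin n → ℂ,
      ∑ i, ∑ a, ‖∑ j, (J (F i j) *ᵥ v j) a‖ ^ 2 ≤ 4 * ∑ j, ∑ a, ‖v j a‖ ^ 2

/-- The contraction of the calculus with the row index. -/
noncomputable def contr {V : Set ℂ} (J : Hol V →ₗ[ℂ] Matrix (Fin n) (Fin n) ℂ)
    (G : Matrix (Fin n) (Fin n) (Hol V)) : Matrix (Fin n) (Fin n) ℂ :=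
  Matrix.of fun a c => ∑ b, J (G b c) a b

section
variable {V : Set ℂ} {J : Hol V →ₗ[ℂ] Matrix (Fin n) (Fin n) ℂ}

theorem contr_add (G G' : Matrix (Fin n) (Fin n) (Hol V)) :
    contr J (G + G') = contr J G + contr J G' := by
  ext a c
  simp [contr, Finset.sum_add_distrib]

theorem contr_sub (G G' : Matrix (Fin n) (Fin n) (Hol V)) :
    contr J (G - G') = contr J G - contr J G' := by
  ext a c
  simp [contr, Finset.sum_sub_distrib]

theorem contr_mul_cst (G : Matrix (Fin n) (Fin n) (Hol V)) (M : Matrix (Fin n) (Fin n) ℂ) :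
    contr J (G * cst V M) = contr J G * M := by
  ext a c
  simp only [contr, cst, Matrix.of_apply, Matrix.mul_apply, Matrix.map_apply, map_sum,
    Matrix.sum_apply, Finset.sum_mul]
  rw [Finset.sum_comm]
  refine Finset.sum_congr rfl fun d _ => Finset.sum_congr rfl fun b _ => ?_
  rw [mul_comm, ← Algebra.smul_def, map_smul, Matrix.smul_apply, smul_eq_mul, mul_comm]

theorem contr_cst_mul (G : Matrix (Fin n) (Fin n) (Hol V)) (M : Matrix (Fin n) (Fin n) ℂ)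
    (a c : Fin n) :
    contr J (cst V M * G) a c = ∑ j, (J (G j c) * M) a j := by
  simp only [contr, cst, Matrix.of_apply, Matrix.mul_apply, Matrix.map_apply, map_sum,
    Matrix.sum_apply]
  rw [Finset.sum_comm]
  refine Finset.sum_congr rfl fun d _ => Finset.sum_congr rfl fun b _ => ?_
  rw [← Algebra.smul_def, map_smul, Matrix.smul_apply, smul_eq_mul, mul_comm]

variable {T : Matrix (Fin n) (Fin n) ℂ} {g : Hol V}

theorem MCalc.contr_one (hJ : MCalc T V g J) : contr J 1 = 1 := by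
  ext a c
  simp only [contr, Matrix.of_apply]
  rw [Finset.sum_eq_single c]
  · rw [Matrix.one_apply_eq, hJ.map_one]
  · intro b _ hb
    rw [Matrix.one_apply_ne hb, map_zero, Matrix.zero_apply]
  · simp

theorem MCalc.contr_congr (hJ : MCalc T V g J) (G G' : Matrix (Fin n) (Fin n) (Hol V))
    (h : ∀ z ∈ V, G.map (ev V z) = G'.map (ev V z)) : contr J G = contr J G' := by
  ext a c
  simp only [contr, Matrix.of_apply]
  refine Finset.sum_congr rfl fun b _ => ?_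
  rw [hJ.congr (G b c) (G' b c)]
  intro z hz
  exact congrFun (congrFun (h z hz) b) c

theorem MCalc.contr_T_mul (hJ : MCalc T V g J) (G : Matrix (Fin n) (Fin n) (Hol V)) :
    contr J (cst V T * G) = contr J (g • G) := by
  ext a c
  rw [contr_cst_mul]
  simp only [contr, Matrix.of_apply, Matrix.smul_apply, smul_eq_mul]
  refine Finset.sum_congr rfl fun b _ => ?_
  rw [hJ.map_g_mul, hJ.comm]

theorem MCalc.exists_feasible (hJ : MCalc T V g J) (hg : ∀ z ∈ V, ‖(g : ℂ → ℂ) z‖ ≤ 1) :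
    ∃ H ∈ box n, (H - Tᴴ * H * T).PosSemidef := by
  by_contra hcon
  push Not at hcon
  obtain ⟨Z, hZ, hZneg⟩ := exists_dual T hcon
  have hD : (Z - T * Z * Tᴴ).IsHermitian :=
    hZ.1.sub (isHermitian_mul_mul_conjTranspose T hZ.1)
  obtain ⟨ξ, η, hXY, hY, htr⟩ := exists_split _ hD hZneg
  have hP : ∀ z ∈ V, (pencil (ξ * ξᴴ) T Z ((g : ℂ → ℂ) z) +
      (pencil (ξ * ξᴴ) T Z ((g : ℂ → ℂ) z))ᴴ - η * ηᴴ - ξ * ξᴴ).PosSemidef :=
    fun z hz => pencil_psd hZ hY.1 hXY (hg z hz)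
  have hdet : ∀ z ∈ V, (pencil (ξ * ξᴴ) T Z ((g : ℂ → ℂ) z)).det ≠ 0 :=
    fun z hz => det_ne_zero_of (hP z hz) hY
  -- the pencil over `Hol V`
  set Nh : Matrix (Fin n) (Fin n) (Hol V) :=
    cst V (ξ * ξᴴ) + cst V T * cst V (Z * Tᴴ) - g • cst V (Z * Tᴴ) with hNh
  have hNh_map : ∀ z, Nh.map (ev V z) = pencil (ξ * ξᴴ) T Z ((g : ℂ → ℂ) z) := by
    intro z
    rw [hNh, ← cst_mul, Matrix.map_sub _ (map_sub _), Matrix.map_add _ (map_add _), cst_map,
      cst_map, pencil, Matrix.mul_assoc]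
    congr 1
  have hdet_map : ∀ z, ((Nh.det : Hol V) : ℂ → ℂ) z =
      (pencil (ξ * ξᴴ) T Z ((g : ℂ → ℂ) z)).det := by
    intro z
    rw [← hNh_map, ← ev_apply, RingHom.map_det]
    rfl
  let d' : Hol V := ⟨fun z => (((Nh.det : Hol V) : ℂ → ℂ) z)⁻¹,
    DifferentiableOn.inv (Nh.det).2 fun z hz => by rw [hdet_map]; exact hdet z hz⟩
  set W : Matrix (Fin n) (Fin n) (Hol V) := d' • Nh.adjugate with hW
  have hW_map : ∀ z, W.map (ev V z) = (pencil (ξ * ξᴴ) T Z ((g : ℂ → ℂ) z))⁻¹ := by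
    intro z
    have h1 : Nh.adjugate.map (ev V z) = (pencil (ξ * ξᴴ) T Z ((g : ℂ → ℂ) z)).adjugate := by
      rw [← hNh_map]
      exact RingHom.map_adjugate (ev V z) Nh
    rw [Matrix.inv_def, Ring.inverse_eq_inv', ← h1, ← hdet_map]
    ext i j
    simp [hW, d']
  have h1 : contr J (Nh * W) = 1 := by
    rw [← hJ.contr_one]
    refine hJ.contr_congr _ _ fun z hz => ?_
    rw [Matrix.map_mul, hNh_map, hW_map, mul_nonsing_inv _ (Ne.isUnit (hdet z hz))]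
    exact (Matrix.map_one _ (_root_.map_zero (ev V z)) (_root_.map_one (ev V z))).symm
  have h2 : contr J (cst V (ξ * ξᴴ) * W) = 1 := by
    rw [hNh, Matrix.sub_mul, Matrix.add_mul, contr_sub, contr_add, Matrix.mul_assoc,
      hJ.contr_T_mul, Matrix.smul_mul] at h1
    simpa using h1
  set F : Matrix (Fin n) (Fin n) (Hol V) := cst V ξᴴ * W * cst V η with hF
  have h3 : contr J (cst V ξ * F) = η := by
    rw [hF, ← Matrix.mul_assoc, ← Matrix.mul_assoc, ← cst_mul, contr_mul_cst, h2, Matrix.one_mul]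
  have hF_map : ∀ z, F.map (ev V z) = ξᴴ * (pencil (ξ * ξᴴ) T Z ((g : ℂ → ℂ) z))⁻¹ * η := by
    intro z
    rw [hF, Matrix.map_mul, Matrix.map_mul, cst_map, cst_map, hW_map]
  have hb := hJ.bound (fun c j => F j c) (fun z hz a => by
    have := contract_of (hP z hz) (hdet z hz) a
    rw [← hF_map] at this
    exact this) (fun j b => ξ b j)
  have h4 : ∀ c a, ∑ j, (J (F j c) *ᵥ fun b => ξ b j) a = η a c := by
    intro c a
    rw [← h3, contr_cst_mul]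
    rfl
  simp only [h4] at hb
  rw [sum_normSq_eq_trace, sum_normSq_eq_trace] at hb
  linarith

end

end Crest.Agent.R132.S180
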