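import Crest.Agent.R132.Core
import Crest.Agent.R132.Agree
import Crest.Agent.R132.TH
import Crest.Agent.R132.S180Calc

/-!
S0180 from the core calculus theorem.
-/

open scoped ComplexOrder
open Matrix Crest.AnalysisR.NumRange

namespace Crest.Agent.R132

namespace S180

variable {n : ℕ}

theorem exists_mcalc (A : Matrix (Fin n) (Fin n) ℂ) (V K : Set ℂ) (hVo : IsOpen V)
    (hVc : Convex ℝ V) (hK : IsCompact K) (hKc : Convex ℝ K) (hKV : K ⊆ V)
    (hA : numRange A ⊆ K) (f : ℂ → ℂ) (hf : DifferentiableOn ℂ f V) (p : Polynomial ℂ)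
    (hp : AgreesOnSpectrum A f p) (c : ℂ) :
    ∃ J : Hol V →ₗ[ℂ] Matrix (Fin n) (Fin n) ℂ,
      MCalc (c • Polynomial.aeval A p) V (c • (⟨f, hf⟩ : Hol V)) J := by
  let e := Matrix.toEuclideanCLM (n := Fin n) (𝕜 := ℂ)
  obtain ⟨I, hI⟩ := exists_calculus (e A) V K hVo hVc hK hKc hKV
    (fun x hx => hA ⟨x, hx, rfl⟩)
  let ea : Matrix (Fin n) (Fin n) ℂ ≃ₐ[ℂ]
      (EuclideanSpace ℂ (Fin n) →L[ℂ] EuclideanSpace ℂ (Fin n)) := e.toAlgEquiv
  have hea : ∀ M, ea M = e M := fun _ => rfl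
  let J : Hol V →ₗ[ℂ] Matrix (Fin n) (Fin n) ℂ := ea.symm.toLinearMap ∘ₗ I
  have hJ : ∀ h, ea (J h) = I h := fun h => ea.apply_symm_apply _
  have haeval : ∀ q : Polynomial ℂ, Polynomial.aeval (e A) q = ea (Polynomial.aeval A q) := by
    intro q
    rw [← hea]
    exact Polynomial.aeval_algHom_apply ea A q
  obtain ⟨k, hk, hfk⟩ := exists_factor_of_agrees A hVo
    ((spectrum_subset_numRange A).trans (hA.trans hKV)) hf hp
  have hmul : ∀ h : Hol V, J ((⟨f, hf⟩ : Hol V) * h) = Polynomial.aeval A p * J h := by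
    intro h
    apply ea.injective
    rw [hJ, map_mul ea, hJ, ← haeval, ← hI.map_poly_mul]
    have h0 : I (polyHol V A.charpoly * ((⟨k, hk⟩ : Hol V) * h)) = 0 := by
      rw [hI.map_poly_mul, haeval, Matrix.aeval_self_charpoly, map_zero, zero_mul]
    rw [← add_zero (I (polyHol V p * h)), ← h0, ← map_add]
    refine hI.congr _ _ fun z hz => ?_
    have := hfk z hz
    simp only [MulMemClass.coe_mul, Pi.mul_apply, AddMemClass.coe_add, Pi.add_apply,
      polyHol_apply, this]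
    ring
  refine ⟨J, ⟨?_, ?_, ?_, ?_, ?_⟩⟩
  · intro h h' hh
    apply ea.injective
    rw [hJ, hJ, hI.congr h h' hh]
  · apply ea.injective
    rw [hJ, hI.map_one, map_one]
  · intro h
    rw [smul_mul_assoc, map_smul, hmul, Matrix.smul_mul]
  · intro h
    rw [Matrix.smul_mul, Matrix.mul_smul]
    congr 1
    apply ea.injective
    rw [map_mul ea, map_mul ea, hJ]
    refine (hI.comm _ ?_ h).eq
    rw [← haeval]
    have := (Commute.all Polynomial.X p).map (Polynomial.aeval (e A))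
    rwa [Polynomial.aeval_X] at this
  · intro F hF v
    have hb := hI.bound (Fin n) F 1 (by simpa using hF) (fun j => WithLp.toLp 2 (v j))
    simp only [EuclideanSpace.norm_sq_eq] at hb
    have e1 : ∀ i a, (∑ j, I (F i j) (WithLp.toLp 2 (v j))) a = ∑ j, (J (F i j) *ᵥ v j) a := by
      intro i a
      simp only [WithLp.ofLp_sum, Finset.sum_apply]
      refine Finset.sum_congr rfl fun j _ => ?_
      rw [← hJ, hea]
      rfl
    simp only [e1] at hb
    norm_num at hb ⊢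
    exact hb

theorem exists_optimal (hn : 1 ≤ n) (T H0 : Matrix (Fin n) (Fin n) ℂ)
    (h0 : MetricFeasible T H0 4) :
    ∃ (H : Matrix (Fin n) (Fin n) ℂ) (κsq : ℝ), IsOptimalMetric T H κsq ∧ 1 ≤ κsq ∧ κsq ≤ 4 := by
  have hge : ∀ (H : Matrix (Fin n) (Fin n) ℂ) (τ : ℝ), MetricFeasible T H τ → 1 ≤ τ := by
    intro H τ h
    have h1 := h.2.1.add h.1
    have := (Complex.nonneg_iff.mp (h1.diag_nonneg (i := ⟨0, hn⟩))).1
    rw [Matrix.add_apply, Matrix.sub_apply, Matrix.sub_apply, Matrix.smul_apply,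
      Matrix.one_apply_eq] at this
    simp at this
    linarith
  let S : Set (Matrix (Fin n) (Fin n) ℂ × ℝ) := {x | MetricFeasible T x.1 x.2 ∧ x.2 ≤ 4}
  have hSc : IsClosed S := by
    refine IsClosed.inter (IsClosed.inter ?_ (IsClosed.inter ?_ ?_)) ?_
    · exact isClosed_psd.preimage
        (f := fun x : Matrix (Fin n) (Fin n) ℂ × ℝ => x.1 - 1) (by fun_prop)
    · exact isClosed_psd.preimage
        (f := fun x : Matrix (Fin n) (Fin n) ℂ × ℝ =>
          (x.2 : ℂ) • (1 : Matrix (Fin n) (Fin n) ℂ) - x.1) (by fun_prop)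
    · exact isClosed_psd.preimage
        (f := fun x : Matrix (Fin n) (Fin n) ℂ × ℝ => x.1 - Tᴴ * x.1 * T) (by fun_prop)
    · exact isClosed_le continuous_snd continuous_const
  have hSsub : S ⊆ box n ×ˢ Set.Icc (1 : ℝ) 4 := by
    rintro ⟨H, τ⟩ ⟨hf, h4⟩
    refine ⟨⟨hf.1, ?_⟩, hge _ _ hf, h4⟩
    have h1 := hf.2.1.add (psd_real_smul (PosSemidef.one (n := Fin n) (R := ℂ))
      (a := 4 - τ) (by simpa using h4))
    convert h1 using 1
    rw [← Complex.coe_smul]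
    push_cast
    module
  have hS : IsCompact S :=
    IsCompact.of_isClosed_subset (isCompact_box.prod isCompact_Icc) hSc hSsub
  obtain ⟨⟨H, κ⟩, ⟨hf, h4⟩, hmin⟩ :=
    hS.exists_isMinOn ⟨(H0, 4), h0, le_rfl⟩ continuous_snd.continuousOn
  refine ⟨H, κ, ⟨hf, fun H' τ' h' => ?_⟩, hge _ _ hf, h4⟩
  by_cases hτ : τ' ≤ 4
  · exact hmin (a := (H', τ')) ⟨h', hτ⟩
  · exact h4.trans (not_le.mp hτ).le

theorem feasible_of_scaled (T H : Matrix (Fin n) (Fin n) ℂ) {r : ℝ} (hr0 : 0 < r) (hr1 : r < 1)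
    (hH : H ∈ box n)
    (h : (H - (((r⁻¹ : ℝ) : ℂ) • T)ᴴ * H * (((r⁻¹ : ℝ) : ℂ) • T)).PosSemidef) :
    (H - Tᴴ * H * T).PosDef := by
  have hr2 : 0 < 1 - r ^ 2 := by nlinarith
  have hHpd : H.PosDef := by
    have := PosDef.posSemidef_add hH.1 PosDef.one
    simpa using this
  have h1 := PosDef.add_posSemidef (hHpd.smul hr2) (psd_real_smul h (sq_nonneg r))
  convert h1 using 1
  have hr : (r : ℂ) ≠ 0 := by exact_mod_cast hr0.ne'
  rw [conjTranspose_smul, Matrix.smul_mul, Matrix.smul_mul, Matrix.mul_smul, smul_smul,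
    ← Complex.coe_smul, ← Complex.coe_smul, smul_sub, smul_smul]
  have e : ((r ^ 2 : ℝ) : ℂ) * (star ((r⁻¹ : ℝ) : ℂ) * ((r⁻¹ : ℝ) : ℂ)) = 1 := by
    rw [Complex.star_def, Complex.conj_ofReal]
    push_cast
    field_simp
  rw [e]
  push_cast
  module

end S180

open S180 in
theorem s0180
    (n : ℕ) (hn : 1 ≤ n) (A : Matrix (Fin n) (Fin n) ℂ)
    (Ω U : Set ℂ) (hΩ₁ : IsOpen Ω) (_hΩ₂ : Bornology.IsBounded Ω) (_hΩ₃ : Convex ℝ Ω)
    (_hU : IsOpen U) (hΩU : closure Ω ⊆ U)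
    (f : ℂ → ℂ) (hf₁ : DifferentiableOn ℂ f U) (_hf₂ : Set.InjOn f U)
    (hf₃ : f '' Ω = Metric.ball 0 1)
    (hA : numRange A ⊆ Ω) (p : Polynomial ℂ) (hp : AgreesOnSpectrum A f p) :
    (∃ (H : Matrix (Fin n) (Fin n) ℂ) (τ : ℝ), MetricStrictlyFeasible (Polynomial.aeval A p) H τ) ∧
    ∃ (H : Matrix (Fin n) (Fin n) ℂ) (κsq : ℝ),
      IsOptimalMetric (Polynomial.aeval A p) H κsq ∧ 1 ≤ κsq ∧ κsq ≤ 4 := by
  have hKc : Convex ℝ (numRange A) :=
    convex_numericalRange (Matrix.toEuclideanCLM (n := Fin n) (𝕜 := ℂ) A)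
  have hK : IsCompact (numRange A) :=
    isCompact_numericalRange (Matrix.toEuclideanCLM (n := Fin n) (𝕜 := ℂ) A)
  obtain ⟨δ, hδ, hδΩ⟩ := hK.exists_cthickening_subset_open hΩ₁ hA
  have hΩU' : Ω ⊆ U := subset_closure.trans hΩU
  have hKδ : IsCompact (Metric.cthickening δ (numRange A)) := hK.cthickening
  obtain ⟨r, hr0, hr1, hr⟩ : ∃ r : ℝ, 0 < r ∧ r < 1 ∧
      ∀ z ∈ Metric.cthickening δ (numRange A), ‖f z‖ ≤ r := by
    have hcont : ContinuousOn (fun z => ‖f z‖) (Metric.cthickening δ (numRange A)) :=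
      (hf₁.continuousOn.mono (hδΩ.trans hΩU')).norm
    rcases (Metric.cthickening δ (numRange A)).eq_empty_or_nonempty with he | hne
    · exact ⟨1 / 2, by norm_num, by norm_num, by simp [he]⟩
    obtain ⟨z0, hz0, hmax⟩ := hKδ.exists_isMaxOn hne hcont
    have h1 : ‖f z0‖ < 1 := by
      have : f z0 ∈ Metric.ball (0 : ℂ) 1 := hf₃ ▸ ⟨z0, hδΩ hz0, rfl⟩
      simpa using this
    refine ⟨max (1 / 2) ‖f z0‖, lt_max_of_lt_left (by norm_num), max_lt (by norm_num) h1,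
      fun z hz => le_max_of_le_right (hmax hz)⟩
  set V := Metric.thickening δ (numRange A) with hV
  have hVsub : V ⊆ Metric.cthickening δ (numRange A) := Metric.thickening_subset_cthickening _ _
  have hfV : DifferentiableOn ℂ f V := hf₁.mono (hVsub.trans (hδΩ.trans hΩU'))
  obtain ⟨J, hJ⟩ := exists_mcalc A V (numRange A) Metric.isOpen_thickening (hKc.thickening δ) hK
    hKc (Metric.self_subset_thickening hδ _) subset_rfl f hfV p hp ((r⁻¹ : ℝ) : ℂ)
  obtain ⟨H, hH, hHT⟩ := hJ.exists_feasible (by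
    intro z hz
    have h1 := hr z (hVsub hz)
    change ‖((r⁻¹ : ℝ) : ℂ) * f z‖ ≤ 1
    rw [norm_mul, Complex.norm_real, Real.norm_of_nonneg (inv_nonneg.mpr hr0.le),
      inv_mul_le_iff₀ hr0]
    linarith)
  have hpd := feasible_of_scaled _ H hr0 hr1 hH hHT
  refine ⟨⟨(2 : ℝ) • H, 9, ?_, ?_, ?_⟩, exists_optimal hn _ H ⟨hH.1, hH.2, hpd.posSemidef⟩⟩
  · have := PosDef.posSemidef_add (psd_real_smul hH.1 (a := 2) (by norm_num)) PosDef.one
    convert this using 1
    module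
  · have := PosDef.posSemidef_add (psd_real_smul hH.2 (a := 2) (by norm_num)) PosDef.one
    convert this using 1
    rw [← Complex.coe_smul, ← Complex.coe_smul]
    push_cast
    module
  · have := hpd.smul (a := (2 : ℝ)) (by norm_num)
    convert this using 1
    rw [Matrix.mul_smul, Matrix.smul_mul, smul_sub]

end Crest.Agent.R132
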