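import Mathlib

/-!
Holomorphic inverse of an injective holomorphic map, and a change of variables on the circle.
-/

set_option autoImplicit false

namespace Crest.Agent.R132.S181

open Filter Topology Set

lemma not_eventually_const {U : Set ℂ} (hU : IsOpen U) {f : ℂ → ℂ} (hinj : InjOn f U) {z : ℂ}
    (hz : z ∈ U) : ¬ ∀ᶠ x in 𝓝 z, f x = f z := by
  intro h
  have h1 : ∀ᶠ x in 𝓝[≠] z, f x = f z ∧ x ∈ U :=
    nhdsWithin_le_nhds (h.and (hU.mem_nhds hz))
  obtain ⟨x, ⟨hx1, hx2⟩, hx3⟩ := (h1.and self_mem_nhdsWithin).exists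
  exact hx3 (hinj hx2 hz hx1)

lemma nhds_le_map {U : Set ℂ} (hU : IsOpen U) {f : ℂ → ℂ} (hf : DifferentiableOn ℂ f U)
    (hinj : InjOn f U) {z : ℂ} (hz : z ∈ U) : 𝓝 (f z) ≤ map f (𝓝 z) :=
  ((hf.analyticAt (hU.mem_nhds hz)).eventually_constant_or_nhds_le_map_nhds).resolve_left
    (not_eventually_const hU hinj hz)

lemma isOpen_image {U : Set ℂ} (hU : IsOpen U) {f : ℂ → ℂ} (hf : DifferentiableOn ℂ f U)
    (hinj : InjOn f U) : IsOpen (f '' U) := by
  rw [isOpen_iff_mem_nhds]
  rintro _ ⟨z, hz, rfl⟩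
  exact nhds_le_map hU hf hinj hz (image_mem_map (hU.mem_nhds hz))

lemma continuousAt_inv {U : Set ℂ} (hU : IsOpen U) {f : ℂ → ℂ} (hf : DifferentiableOn ℂ f U)
    (hinj : InjOn f U) {z : ℂ} (hz : z ∈ U) : ContinuousAt (Function.invFunOn f U) (f z) := by
  have h1 : Function.invFunOn f U (f z) = z := hinj.leftInvOn_invFunOn hz
  rw [ContinuousAt, h1]
  refine Tendsto.mono_left ?_ (nhds_le_map hU hf hinj hz)
  rw [tendsto_map'_iff]
  refine tendsto_id.congr' ?_
  filter_upwards [hU.mem_nhds hz] with x hx using (hinj.leftInvOn_invFunOn hx).symm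

lemma differentiableAt_inv_of_ne {U : Set ℂ} (hU : IsOpen U) {f : ℂ → ℂ}
    (hf : DifferentiableOn ℂ f U) (hinj : InjOn f U) {z : ℂ} (hz : z ∈ U) (hd : deriv f z ≠ 0) :
    DifferentiableAt ℂ (Function.invFunOn f U) (f z) := by
  have h1 : Function.invFunOn f U (f z) = z := hinj.leftInvOn_invFunOn hz
  have h2 : HasDerivAt f (deriv f z) (Function.invFunOn f U (f z)) := by
    rw [h1]; exact (hf.differentiableAt (hU.mem_nhds hz)).hasDerivAt
  refine (HasDerivAt.of_local_left_inverse (continuousAt_inv hU hf hinj hz) h2 hd ?_).differentiableAt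
  filter_upwards [(isOpen_image hU hf hinj).mem_nhds (mem_image_of_mem f hz)] with y hy
  exact Function.invFunOn_eq hy

theorem differentiableOn_inv {U : Set ℂ} (hU : IsOpen U) {f : ℂ → ℂ}
    (hf : DifferentiableOn ℂ f U) (hinj : InjOn f U) :
    DifferentiableOn ℂ (Function.invFunOn f U) (f '' U) := by
  rintro _ ⟨z, hz, rfl⟩
  refine DifferentiableAt.differentiableWithinAt ?_
  have h1 : Function.invFunOn f U (f z) = z := hinj.leftInvOn_invFunOn hz
  have ha : AnalyticAt ℂ (deriv f) z := (hf.analyticAt (hU.mem_nhds hz)).deriv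
  rcases ha.eventually_eq_zero_or_eventually_ne_zero with h | h
  · exfalso
    obtain ⟨ε, hε, hb⟩ := Metric.eventually_nhds_iff_ball.mp (h.and (hU.mem_nhds hz))
    apply not_eventually_const hU hinj hz
    filter_upwards [Metric.ball_mem_nhds z hε] with x hx
    exact Metric.isOpen_ball.is_const_of_deriv_eq_zero (convex_ball z ε).isPreconnected
      (hf.mono fun y hy => (hb y hy).2) (fun y hy => (hb y hy).1) hx (Metric.mem_ball_self hε)
  · refine (Complex.analyticAt_of_differentiable_on_punctured_nhds_of_continuousAt ?_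
      (continuousAt_inv hU hf hinj hz)).differentiableAt
    have hc := continuousAt_inv hU hf hinj hz
    rw [ContinuousAt, h1] at hc
    rw [eventually_nhdsWithin_iff] at h ⊢
    filter_upwards [hc.eventually h,
      (isOpen_image hU hf hinj).mem_nhds (mem_image_of_mem f hz)] with y hy1 hy2 hy3
    obtain ⟨x, hx, rfl⟩ := hy2
    have h2 : Function.invFunOn f U (f x) = x := hinj.leftInvOn_invFunOn hx
    rw [h2] at hy1
    refine differentiableAt_inv_of_ne hU hf hinj hx (hy1 ?_)
    rintro rfl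
    exact hy3 rfl

/-- Sign and total increment of a lift of a circle homeomorphism. -/
lemma lift_increment {φ : ℝ → ℝ} (hc : Continuous φ) (hm : StrictMonoOn φ (Ioo 0 (2 * Real.pi)))
    {k : ℤ} (hk : φ (2 * Real.pi) = φ 0 + k * (2 * Real.pi))
    (hne : ∀ θ ∈ Ioo 0 (2 * Real.pi), φ θ ≠ φ 0 + 2 * Real.pi) :
    φ (2 * Real.pi) = φ 0 + 2 * Real.pi := by
  have hpi := Real.pi_gt_three
  have h2 : (0 : ℝ) < 2 * Real.pi := by linarith
  have h1 : φ 0 < φ (2 * Real.pi) := by
    have a1 : φ 0 ≤ φ 1 := by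
      refine le_on_closure (f := φ) (g := fun _ => φ 1) (s := Ioo 0 1) (fun x hx => ?_)
        hc.continuousOn continuousOn_const (by rw [closure_Ioo (by norm_num)]; simp)
      exact (hm ⟨hx.1, by linarith [hx.2]⟩ ⟨by norm_num, by linarith⟩ hx.2).le
    have a2 : φ 1 < φ 2 := hm ⟨by norm_num, by linarith⟩ ⟨by norm_num, by linarith⟩ (by norm_num)
    have a3 : φ 2 ≤ φ (2 * Real.pi) := by
      refine le_on_closure (f := fun _ => φ 2) (g := φ) (s := Ioo 2 (2 * Real.pi)) (fun x hx => ?_)
        continuousOn_const hc.continuousOn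
        (by rw [closure_Ioo (by linarith)]; exact ⟨by linarith, le_rfl⟩)
      exact (hm ⟨by norm_num, by linarith⟩ ⟨by linarith [hx.1], hx.2⟩ hx.1).le
    linarith
  have hk0 : 0 < k := by
    have : (0 : ℝ) < k * (2 * Real.pi) := by linarith
    have := (mul_pos_iff_of_pos_right h2).mp this
    exact_mod_cast this
  have hk1 : k ≤ 1 := by
    by_contra hlt
    have : (2 : ℝ) ≤ k := by
      have : (2 : ℤ) ≤ k := by omega
      exact_mod_cast this
    have hmem : φ 0 + 2 * Real.pi ∈ Ioo (φ 0) (φ (2 * Real.pi)) := by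
      constructor
      · linarith
      · rw [hk]; nlinarith
    obtain ⟨θ, hθ, e⟩ := intermediate_value_Ioo h2.le hc.continuousOn hmem
    exact hne θ hθ e
  have : k = 1 := by omega
  rw [hk, this]; simp

/-- Change of variables along an injective `C¹` loop in the unit circle. -/
theorem circle_change {w w' : ℝ → ℂ} (hw : ∀ θ, HasDerivAt w (w' θ) θ) (hw' : Continuous w')
    (hn : ∀ θ, ‖w θ‖ = 1) (hper : Function.Periodic w (2 * Real.pi))
    (hinj : InjOn w (Ico 0 (2 * Real.pi))) :
    ∃ τ : ℝ → ℝ, Continuous τ ∧ Function.Periodic τ (2 * Real.pi) ∧ (∀ θ, 0 ≤ τ θ) ∧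
      ∀ F : ℂ → ℂ, ContinuousOn F (Metric.sphere 0 1) →
        ∫ θ in (0 : ℝ)..2 * Real.pi, (τ θ : ℂ) * F (w θ)
          = ∫ θ in (0 : ℝ)..2 * Real.pi, F (circleMap 0 1 θ) := by
  have hpi := Real.pi_pos
  have h2 : (0 : ℝ) < 2 * Real.pi := by linarith
  have hwc : Continuous w := continuous_iff_continuousAt.mpr fun θ => (hw θ).continuousAt
  let τ : ℝ → ℝ := fun θ => (w' θ * starRingEnd ℂ (w θ)).im
  have hτc : Continuous τ := by fun_prop
  have hone : ∀ θ, w θ * starRingEnd ℂ (w θ) = 1 := fun θ => by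
    rw [Complex.mul_conj', hn]; simp
  have hre : ∀ θ, w' θ = Complex.I * τ θ * w θ := fun θ => by
    have h1 : HasDerivAt (fun θ => w θ * starRingEnd ℂ (w θ))
        (w' θ * starRingEnd ℂ (w θ) + w θ * starRingEnd ℂ (w' θ)) θ :=
      (hw θ).mul (hw θ).star
    have h2 : (fun θ => w θ * starRingEnd ℂ (w θ)) = fun _ => 1 := funext hone
    rw [h2] at h1
    have h3 := h1.unique (hasDerivAt_const θ 1)
    have h4 : (w' θ * starRingEnd ℂ (w θ)).re = 0 := by
      have := congrArg Complex.re h3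
      simp at this ⊢
      linarith
    have h5 : w' θ * starRingEnd ℂ (w θ) = Complex.I * τ θ := by
      apply Complex.ext
      · simp only [h4]; simp
      · simp [τ]
    rw [← h5, mul_assoc, mul_comm _ (w θ), hone, mul_one]
  have hw'per : Function.Periodic w' (2 * Real.pi) := fun θ => by
    have h1 := (hw (θ + 2 * Real.pi)).comp_add_const θ (2 * Real.pi)
    simp only [hper _] at h1
    exact h1.unique (hw θ)
  have hτper : Function.Periodic τ (2 * Real.pi) := fun θ => by
    simp only [τ, hper θ, hw'per θ]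
  let φ : ℝ → ℝ := fun θ => Complex.arg (w 0) + ∫ s in (0 : ℝ)..θ, τ s
  have hφ : ∀ θ, HasDerivAt φ (τ θ) θ := fun θ =>
    ((hτc.integral_hasStrictDerivAt 0 θ).hasDerivAt).const_add _
  have hφc : Continuous φ := continuous_iff_continuousAt.mpr fun θ => (hφ θ).continuousAt
  have hexp : ∀ θ, w θ = circleMap 0 1 (φ θ) := by
    have hd : ∀ θ, HasDerivAt (fun θ => w θ * Complex.exp (-(φ θ * Complex.I))) 0 θ := by
      intro θ
      have h1 := (((hφ θ).ofReal_comp.mul_const Complex.I).neg).cexp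
      refine ((hw θ).mul h1).congr_deriv ?_
      rw [hre θ]
      simp only [Pi.neg_apply]
      ring
    intro θ
    have h1 := is_const_of_deriv_eq_zero (fun θ => (hd θ).differentiableAt)
      (fun θ => (hd θ).deriv) θ 0
    have h0 : w 0 = Complex.exp (φ 0 * Complex.I) := by
      have := Complex.norm_mul_exp_arg_mul_I (w 0)
      rw [hn 0] at this
      simpa [φ] using this.symm
    rw [h0, ← Complex.exp_add, add_neg_cancel, Complex.exp_zero] at h1
    rw [circleMap_zero]
    simp only [Complex.ofReal_one, one_mul]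
    rw [Complex.exp_neg] at h1
    exact (mul_inv_eq_one₀ (Complex.exp_ne_zero _)).mp h1
  obtain ⟨k, hk⟩ : ∃ k : ℤ, φ (2 * Real.pi) = φ 0 + k * (2 * Real.pi) := by
    have h1 : w (2 * Real.pi) = w 0 := by simpa using hper 0
    rw [hexp, hexp 0, circleMap_zero, circleMap_zero] at h1
    simp only [Complex.ofReal_one, one_mul] at h1
    obtain ⟨k, hk⟩ := Complex.exp_eq_exp_iff_exists_int.mp h1
    refine ⟨k, ?_⟩
    have := congrArg Complex.im hk
    simpa using this
  have hφinj : InjOn φ (Ioo 0 (2 * Real.pi)) := fun a ha b hb hab =>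
    hinj (Ioo_subset_Ico_self ha) (Ioo_subset_Ico_self hb) (by rw [hexp, hexp b, hab])
  have hne : ∀ θ ∈ Ioo 0 (2 * Real.pi), ∀ j : ℤ, φ θ ≠ φ 0 + j * (2 * Real.pi) := by
    intro θ hθ j h
    have : w θ = w 0 := by
      rw [hexp, hexp 0, h]
      exact (periodic_circleMap 0 1).int_mul j _
    exact hθ.1.ne' (hinj (Ioo_subset_Ico_self hθ) ⟨le_rfl, h2⟩ this)
  refine ⟨fun θ => |τ θ|, hτc.abs, fun θ => by simp only [hτper θ], fun θ => abs_nonneg _, ?_⟩
  intro F hF
  have hFc : Continuous fun θ => F (circleMap 0 1 θ) :=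
    hF.comp_continuous (continuous_circleMap 0 1) (fun θ => by simp)
  have hFper : Function.Periodic (fun θ => F (circleMap 0 1 θ)) (2 * Real.pi) := fun θ => by
    simp only [periodic_circleMap 0 1 θ]
  have hsub := intervalIntegral.integral_deriv_smul_comp (a := 0) (b := 2 * Real.pi)
    (fun θ _ => hφ θ) hτc.continuousOn hFc
  have hacc : ∀ θ ∈ Ioo 0 (2 * Real.pi), AccPt θ (𝓟 (Ioo 0 (2 * Real.pi))) := fun θ hθ =>
    (isOpen_Ioo.preperfect) θ hθ
  rcases ContinuousOn.strictMonoOn_of_injOn_Ioo h2 hφc.continuousOn hφinj with hm | hm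
  · have e := lift_increment hφc hm hk (fun θ hθ => by simpa using hne θ hθ 1)
    rw [e, hFper.intervalIntegral_add_eq (φ 0) 0, zero_add] at hsub
    rw [← hsub]
    refine intervalIntegral.integral_congr_ae_restrict ?_
    rw [uIoc_of_le h2.le, ← MeasureTheory.Measure.restrict_congr_set MeasureTheory.Ioo_ae_eq_Ioc]
    filter_upwards [MeasureTheory.ae_restrict_mem measurableSet_Ioo] with θ hθ
    have : 0 ≤ τ θ := (hφ θ).hasDerivWithinAt.nonneg_of_monotoneOn (hacc θ hθ) hm.monotoneOn
    simp only [abs_of_nonneg this, Function.comp, ← hexp, Complex.real_smul]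
  · have e := lift_increment (φ := fun θ => -φ θ) hφc.neg hm.neg (k := -k)
      (by simp only [hk]; push_cast; ring)
      (fun θ hθ h => hne θ hθ (-1) (by push_cast; linarith))
    have e' : φ 0 = φ (2 * Real.pi) + 2 * Real.pi := by linarith
    rw [intervalIntegral.integral_symm (φ (2 * Real.pi)), e',
      hFper.intervalIntegral_add_eq _ 0, zero_add] at hsub
    rw [← neg_eq_iff_eq_neg] at hsub
    rw [← hsub, ← intervalIntegral.integral_neg]
    refine intervalIntegral.integral_congr_ae_restrict ?_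
    rw [uIoc_of_le h2.le, ← MeasureTheory.Measure.restrict_congr_set MeasureTheory.Ioo_ae_eq_Ioc]
    filter_upwards [MeasureTheory.ae_restrict_mem measurableSet_Ioo] with θ hθ
    have : τ θ ≤ 0 := (hφ θ).hasDerivWithinAt.nonpos_of_antitoneOn (hacc θ hθ) hm.antitoneOn
    simp only [abs_of_nonpos this, Function.comp, ← hexp, Complex.real_smul]
    push_cast
    ring

end Crest.Agent.R132.S181
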