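import Mathlib

/-!
Operator norm estimates for averages of Kronecker products.
-/

set_option autoImplicit false

namespace Crest.Agent.R132.S181

open Matrix
open scoped ComplexOrder Kronecker MatrixOrder

variable {ι κ : Type*} [Fintype ι] [DecidableEq ι] [Fintype κ] [DecidableEq κ]

/-- shorthand for the operator attached to a matrix -/
noncomputable abbrev op (X : Matrix ι ι ℂ) : EuclideanSpace ℂ ι →L[ℂ] EuclideanSpace ℂ ι :=
  Matrix.toEuclideanCLM (n := ι) (𝕜 := ℂ) X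

lemma inner_op (X : Matrix ι ι ℂ) (y x : EuclideanSpace ℂ ι) :
    inner ℂ y (op X x) = star y.ofLp ⬝ᵥ (X *ᵥ x.ofLp) := by
  rw [EuclideanSpace.inner_eq_star_dotProduct, dotProduct_comm]
  rfl

lemma inner_op_conjTranspose_mul (C X : Matrix ι ι ℂ) (y x : EuclideanSpace ℂ ι) :
    inner ℂ y (op (Cᴴ * X) x) = inner ℂ (op C y) (op X x) := by
  rw [← star_eq_conjTranspose, op, map_mul, map_star, ContinuousLinearMap.star_eq_adjoint,
    mul_apply_eq_comp, ContinuousLinearMap.adjoint_inner_right]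

lemma inner_defect (X : Matrix ι ι ℂ) (c : ℝ) (x : EuclideanSpace ℂ ι) :
    star x.ofLp ⬝ᵥ ((((c ^ 2 : ℝ) : ℂ) • (1 : Matrix ι ι ℂ) - Xᴴ * X) *ᵥ x.ofLp)
      = ((c ^ 2 * ‖x‖ ^ 2 - ‖op X x‖ ^ 2 : ℝ) : ℂ) := by
  rw [← inner_op, op, map_sub, map_smul, map_one, _root_.sub_apply, inner_sub_right,
    inner_op_conjTranspose_mul, _root_.smul_apply, inner_smul_right,
    one_apply_eq_self, inner_self_eq_norm_sq_to_K, inner_self_eq_norm_sq_to_K]
  simp

lemma norm_op_le_iff (X : Matrix ι ι ℂ) {c : ℝ} (hc : 0 ≤ c) :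
    ‖op X‖ ≤ c ↔ (((c ^ 2 : ℝ) : ℂ) • (1 : Matrix ι ι ℂ) - Xᴴ * X).PosSemidef := by
  constructor
  · intro h
    refine PosSemidef.of_dotProduct_mulVec_nonneg ?_ fun x => ?_
    · refine IsHermitian.sub ?_ (isHermitian_conjTranspose_mul_self X)
      simp [IsHermitian, conjTranspose_smul]
    · have := inner_defect X c (WithLp.toLp 2 x)
      rw [WithLp.ofLp_toLp] at this
      rw [this, Complex.zero_le_real]
      have h1 := (op X).le_of_opNorm_le h (WithLp.toLp 2 x)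
      have h2 := pow_le_pow_left₀ (norm_nonneg _) h1 2
      rw [mul_pow] at h2
      linarith
  · intro h
    refine ContinuousLinearMap.opNorm_le_bound _ hc fun x => ?_
    have := h.dotProduct_mulVec_nonneg x.ofLp
    rw [inner_defect, Complex.zero_le_real] at this
    refine le_of_sq_le_sq (h := ?_) (by positivity) |> fun h => h
    rw [mul_pow]
    linarith

omit [Fintype ι] [DecidableEq ι] [Fintype κ] [DecidableEq κ] in
lemma sub_kron (A A' : Matrix ι ι ℂ) (B : Matrix κ κ ℂ) : (A - A') ⊗ₖ B = A ⊗ₖ B - A' ⊗ₖ B := by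
  ext i j; simp [sub_mul]

omit [Fintype ι] [DecidableEq ι] [Fintype κ] [DecidableEq κ] in
lemma kron_sub (A : Matrix ι ι ℂ) (B B' : Matrix κ κ ℂ) : A ⊗ₖ (B - B') = A ⊗ₖ B - A ⊗ₖ B' := by
  ext i j; simp [mul_sub]

lemma norm_kron_one_le {X : Matrix ι ι ℂ} {c : ℝ} (h : ‖op X‖ ≤ c) :
    ‖op (X ⊗ₖ (1 : Matrix κ κ ℂ))‖ ≤ c := by
  have hc : 0 ≤ c := (norm_nonneg _).trans h
  rw [norm_op_le_iff _ hc] at h ⊢
  have := h.kronecker (PosSemidef.one (n := κ) (R := ℂ))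
  rwa [sub_kron, smul_kronecker, one_kronecker_one, ← mul_one (1 : Matrix κ κ ℂ),
    mul_kronecker_mul, ← conjTranspose_one (n := κ), ← conjTranspose_kronecker,
    conjTranspose_one] at this

lemma norm_one_kron_le {X : Matrix κ κ ℂ} {c : ℝ} (h : ‖op X‖ ≤ c) :
    ‖op ((1 : Matrix ι ι ℂ) ⊗ₖ X)‖ ≤ c := by
  have hc : 0 ≤ c := (norm_nonneg _).trans h
  rw [norm_op_le_iff _ hc] at h ⊢
  have := (PosSemidef.one (n := ι) (R := ℂ)).kronecker h
  rwa [kron_sub, kronecker_smul, one_kronecker_one, ← mul_one (1 : Matrix ι ι ℂ),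
    mul_kronecker_mul, ← conjTranspose_one (n := ι), ← conjTranspose_kronecker,
    conjTranspose_one] at this

lemma re_inner_kron_le {L : Matrix ι ι ℂ} (hL : L.PosSemidef) {v : Matrix κ κ ℂ} {M : ℝ}
    (hv : ‖op v‖ ≤ M) (x y : EuclideanSpace ℂ (ι × κ)) :
    0 ≤ ((M / 2 : ℝ) * (inner ℂ x (op (L ⊗ₖ (1 : Matrix κ κ ℂ)) x)
      + inner ℂ y (op (L ⊗ₖ (1 : Matrix κ κ ℂ)) y)) - inner ℂ y (op (L ⊗ₖ v) x)).re := by
  have hM : 0 ≤ M := (norm_nonneg _).trans hv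
  obtain ⟨C, rfl⟩ := CStarAlgebra.nonneg_iff_eq_star_mul_self.mp hL.nonneg
  rw [star_eq_conjTranspose]
  have e1 : (Cᴴ * C) ⊗ₖ (1 : Matrix κ κ ℂ) = (C ⊗ₖ 1)ᴴ * (C ⊗ₖ 1) := by
    rw [conjTranspose_kronecker, ← mul_kronecker_mul]; simp
  have e2 : (Cᴴ * C) ⊗ₖ v = (C ⊗ₖ 1)ᴴ * (((1 : Matrix ι ι ℂ) ⊗ₖ v) * (C ⊗ₖ 1)) := by
    rw [conjTranspose_kronecker, ← mul_kronecker_mul, ← mul_kronecker_mul]; simp
  rw [e1, e2, inner_op_conjTranspose_mul, inner_op_conjTranspose_mul, inner_op_conjTranspose_mul,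
    inner_self_eq_norm_sq_to_K, inner_self_eq_norm_sq_to_K]
  set X := op (C ⊗ₖ (1 : Matrix κ κ ℂ)) x with hX
  set Y := op (C ⊗ₖ (1 : Matrix κ κ ℂ)) y
  have e3 : op (((1 : Matrix ι ι ℂ) ⊗ₖ v) * (C ⊗ₖ 1)) x = op ((1 : Matrix ι ι ℂ) ⊗ₖ v) X := by
    rw [hX, op, map_mul]; rfl
  rw [e3]
  have h1 := (op ((1 : Matrix ι ι ℂ) ⊗ₖ v)).le_of_opNorm_le (norm_one_kron_le hv) X
  have h2 : (inner ℂ Y (op ((1 : Matrix ι ι ℂ) ⊗ₖ v) X)).re ≤ ‖Y‖ * (M * ‖X‖) :=
    ((Complex.re_le_norm _).trans (norm_inner_le_norm _ _)).trans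
      (mul_le_mul_of_nonneg_left h1 (norm_nonneg _))
  have h3 : ((((M / 2 : ℝ) : ℂ)) * ((‖X‖ : ℂ) ^ 2 + (‖Y‖ : ℂ) ^ 2)).re
      = M / 2 * (‖X‖ ^ 2 + ‖Y‖ ^ 2) := by
    rw [← Complex.ofReal_pow, ← Complex.ofReal_pow, ← Complex.ofReal_add, ← Complex.ofReal_mul,
      Complex.ofReal_re]
  rw [Complex.sub_re]
  erw [h3]
  nlinarith [mul_nonneg hM (sq_nonneg (‖X‖ - ‖Y‖))]

lemma inner_op_sum (X : Matrix ι ι ℂ) (y x : EuclideanSpace ℂ ι) :
    inner ℂ y (op X x) = ∑ i, ∑ j, (star (y.ofLp i) * x.ofLp j) * X i j := by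
  rw [inner_op]
  simp only [dotProduct, mulVec, Finset.mul_sum, Pi.star_apply]
  refine Finset.sum_congr rfl fun i _ => Finset.sum_congr rfl fun j _ => by ring

lemma continuous_inner_op {F : ℝ → Matrix ι ι ℂ} (hF : ∀ i j, Continuous fun θ => F θ i j)
    (y x : EuclideanSpace ℂ ι) : Continuous fun θ => inner ℂ y (op (F θ) x) := by
  simp only [inner_op_sum]
  fun_prop

lemma inner_op_integral {F : ℝ → Matrix ι ι ℂ} (hF : ∀ i j, Continuous fun θ => F θ i j)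
    {K : Matrix ι ι ℂ} {c : ℂ} {a b : ℝ} (hK : ∀ i j, K i j = c * ∫ θ in a..b, F θ i j)
    (y x : EuclideanSpace ℂ ι) :
    inner ℂ y (op K x) = c * ∫ θ in a..b, inner ℂ y (op (F θ) x) := by
  simp only [inner_op_sum, hK]
  rw [intervalIntegral.integral_finsetSum (fun i _ => Continuous.intervalIntegrable (by fun_prop) _ _),
    Finset.mul_sum]
  refine Finset.sum_congr rfl fun i _ => ?_
  rw [intervalIntegral.integral_finsetSum (fun i _ => Continuous.intervalIntegrable (by fun_prop) _ _),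
    Finset.mul_sum]
  refine Finset.sum_congr rfl fun j _ => ?_
  rw [intervalIntegral.integral_const_mul]
  ring

theorem norm_mean_le {L : ℝ → Matrix ι ι ℂ} (hLc : ∀ a b, Continuous fun θ => L θ a b)
    (hL : ∀ θ, (L θ).PosSemidef)
    (hmean : ∀ a b, (2 * Real.pi : ℂ)⁻¹ * (∫ θ in (0 : ℝ)..2 * Real.pi, L θ a b)
      = (1 : Matrix ι ι ℂ) a b)
    {v : ℝ → Matrix κ κ ℂ} (hvc : ∀ c d, Continuous fun θ => v θ c d) {M : ℝ}
    (hv : ∀ θ, ‖op (v θ)‖ ≤ M) {K : Matrix (ι × κ) (ι × κ) ℂ}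
    (hK : ∀ i j, K i j = (2 * Real.pi : ℂ)⁻¹ *
      ∫ θ in (0 : ℝ)..2 * Real.pi, L θ i.1 j.1 * v θ i.2 j.2) :
    ‖op K‖ ≤ M := by
  have hM : 0 ≤ M := (norm_nonneg _).trans (hv 0)
  have c1 : ∀ i j : ι × κ, Continuous fun θ => (L θ ⊗ₖ v θ) i j := fun i j =>
    (hLc _ _).mul (hvc _ _)
  have c2 : ∀ i j : ι × κ, Continuous fun θ => (L θ ⊗ₖ (1 : Matrix κ κ ℂ)) i j := fun i j =>
    (hLc _ _).mul continuous_const
  have hone : ∀ i j : ι × κ, (1 : Matrix (ι × κ) (ι × κ) ℂ) i j = (2 * Real.pi : ℂ)⁻¹ *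
      ∫ θ in (0 : ℝ)..2 * Real.pi, (L θ ⊗ₖ (1 : Matrix κ κ ℂ)) i j := by
    intro i j
    rw [← one_kronecker_one]
    simp only [kroneckerMap_apply]
    rw [intervalIntegral.integral_mul_const, ← mul_assoc, hmean]
  have key : ∀ x y : EuclideanSpace ℂ (ι × κ),
      (inner ℂ y (op K x)).re ≤ M / 2 * (‖x‖ ^ 2 + ‖y‖ ^ 2) := by
    intro x y
    have e1 := inner_op_integral c1 hK y x
    have e2 := inner_op_integral c2 hone x x
    have e3 := inner_op_integral c2 hone y y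
    have i1 := continuous_inner_op c1 y x
    have i2 := continuous_inner_op c2 x x
    have i3 := continuous_inner_op c2 y y
    rw [op, map_one, one_apply_eq_self, inner_self_eq_norm_sq_to_K] at e2 e3
    have hz : Continuous fun θ => ((M / 2 : ℝ) : ℂ) *
        (inner ℂ x (op (L θ ⊗ₖ (1 : Matrix κ κ ℂ)) x)
          + inner ℂ y (op (L θ ⊗ₖ (1 : Matrix κ κ ℂ)) y)) - inner ℂ y (op (L θ ⊗ₖ v θ) x) :=
      (continuous_const.mul (i2.add i3)).sub i1
    have h0 : 0 ≤ (∫ θ in (0 : ℝ)..2 * Real.pi, ((M / 2 : ℝ) : ℂ) *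
        (inner ℂ x (op (L θ ⊗ₖ (1 : Matrix κ κ ℂ)) x)
          + inner ℂ y (op (L θ ⊗ₖ (1 : Matrix κ κ ℂ)) y))
            - inner ℂ y (op (L θ ⊗ₖ v θ) x)).re := by
      have := Complex.reCLM.intervalIntegral_comp_comm (μ := MeasureTheory.volume)
        (hz.intervalIntegrable 0 (2 * Real.pi))
      simp only [Complex.reCLM_apply] at this
      rw [← this]
      exact intervalIntegral.integral_nonneg (by positivity)
        fun θ _ => re_inner_kron_le (hL θ) (hv θ) x y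
    rw [intervalIntegral.integral_sub
      ((continuous_const.fun_mul (i2.fun_add i3)).intervalIntegrable _ _)
      (i1.intervalIntegrable _ _), intervalIntegral.integral_const_mul,
      intervalIntegral.integral_add (i2.intervalIntegrable _ _) (i3.intervalIntegrable _ _)] at h0
    have hpi : (2 * Real.pi : ℂ) ≠ 0 := by simp
    rw [eq_comm, inv_mul_eq_iff_eq_mul₀ hpi] at e1 e2 e3
    rw [e1, e2, e3] at h0
    have e4 : ((M / 2 : ℝ) : ℂ) * (2 * Real.pi * (‖x‖ : ℂ) ^ 2 + 2 * Real.pi * (‖y‖ : ℂ) ^ 2)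
        - 2 * Real.pi * inner ℂ y (op K x) = ((2 * Real.pi : ℝ) : ℂ) *
          (((M / 2 * (‖x‖ ^ 2 + ‖y‖ ^ 2) : ℝ) : ℂ) - inner ℂ y (op K x)) := by
      push_cast; ring
    erw [e4] at h0
    rw [Complex.re_ofReal_mul, Complex.sub_re, Complex.ofReal_re] at h0
    have := nonneg_of_mul_nonneg_right h0 (by positivity) |> fun h => h
    linarith
  refine ContinuousLinearMap.opNorm_le_bound _ hM fun x => ?_
  rcases hM.eq_or_lt with h0 | h0
  · have := key x (op K x)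
    rw [inner_self_eq_norm_sq_to_K, ← h0] at this
    have e : (((‖op K x‖ : ℝ) : ℂ) ^ 2).re = ‖op K x‖ ^ 2 := by
      rw [← Complex.ofReal_pow, Complex.ofReal_re]
    erw [e] at this
    rw [← h0]
    nlinarith [norm_nonneg (op K x)]
  · have := key x (((M⁻¹ : ℝ) : ℂ) • op K x)
    rw [inner_smul_left, inner_self_eq_norm_sq_to_K, norm_smul] at this
    have e : (starRingEnd ℂ ((M⁻¹ : ℝ) : ℂ) * ((‖op K x‖ : ℝ) : ℂ) ^ 2).re
        = M⁻¹ * ‖op K x‖ ^ 2 := by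
      rw [Complex.conj_ofReal, ← Complex.ofReal_pow, ← Complex.ofReal_mul, Complex.ofReal_re]
    erw [e] at this
    rw [Complex.norm_real, Real.norm_of_nonneg (by positivity)] at this
    have h1 : ‖op K x‖ ^ 2 ≤ (M * ‖x‖) ^ 2 := by
      have h2 := mul_le_mul_of_nonneg_left this h0.le
      have h3 : M * (M⁻¹ * ‖op K x‖ ^ 2) = ‖op K x‖ ^ 2 := by field_simp
      have h4 : M * (M / 2 * (‖x‖ ^ 2 + (M⁻¹ * ‖op K x‖) ^ 2))
          = (M * ‖x‖) ^ 2 / 2 + ‖op K x‖ ^ 2 / 2 := by field_simp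
      linarith
    exact (pow_le_pow_iff_left₀ (norm_nonneg _) (by positivity) two_ne_zero).mp h1

end Crest.Agent.R132.S181
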