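import Mathlib

/-!
Polynomial approximation of holomorphic functions modulo the characteristic polynomial.
-/

set_option autoImplicit false

namespace Crest.Agent.R132.S181

open Filter Topology Set Polynomial

lemma factor_multiset {V : Set ℂ} (hV : IsOpen V) (s : Multiset ℂ) (hs : ∀ μ ∈ s, μ ∈ V)
    {g : ℂ → ℂ} (hg : DifferentiableOn ℂ g V) :
    ∃ ρ : ℂ[X], ∃ k : ℂ → ℂ, DifferentiableOn ℂ k V ∧
      ∀ z ∈ V, g z = ρ.eval z + ((s.map fun μ => X - C μ).prod).eval z * k z := by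
  induction s using Multiset.induction_on generalizing g with
  | empty => exact ⟨0, g, hg, fun z _ => by simp⟩
  | cons μ s ih =>
    have hμ : μ ∈ V := hs μ (Multiset.mem_cons_self _ _)
    obtain ⟨ρ, k, hk, h⟩ := ih (fun ν hν => hs ν (Multiset.mem_cons_of_mem hν))
      ((Complex.differentiableOn_dslope (hV.mem_nhds hμ)).mpr hg)
    refine ⟨C (g μ) + (X - C μ) * ρ, k, hk, fun z hz => ?_⟩
    have h1 := sub_smul_dslope g μ z
    rw [h z hz, smul_eq_mul] at h1
    simp only [Multiset.map_cons, Multiset.prod_cons, eval_add, eval_mul, eval_sub, eval_X, eval_C]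
    linear_combination -h1

lemma dvd_of_factor_multiset {V : Set ℂ} (hV : IsOpen V) (s : Multiset ℂ) (hs : ∀ μ ∈ s, μ ∈ V)
    (a : ℂ[X]) {k : ℂ → ℂ} (hk : ContinuousOn k V)
    (h : ∀ z ∈ V, a.eval z = ((s.map fun μ => X - C μ).prod).eval z * k z) :
    (s.map fun μ => X - C μ).prod ∣ a := by
  induction s using Multiset.induction_on generalizing a with
  | empty => simp
  | cons μ s ih =>
    have hμ : μ ∈ V := hs μ (Multiset.mem_cons_self _ _)
    simp only [Multiset.map_cons, Multiset.prod_cons, eval_mul, eval_sub, eval_X, eval_C] at h ⊢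
    have h0 : a.IsRoot μ := by simpa using h μ hμ
    obtain ⟨a', rfl⟩ := dvd_iff_isRoot.mpr h0
    refine mul_dvd_mul_left _ (ih (fun ν hν => hs ν (Multiset.mem_cons_of_mem hν)) a' ?_)
    have hne : ∀ z ∈ V, z ≠ μ →
        a'.eval z = ((s.map fun μ => X - C μ).prod).eval z * k z := by
      intro z hz hzμ
      have := h z hz
      simp only [eval_mul, eval_sub, eval_X, eval_C, mul_assoc] at this
      exact mul_left_cancel₀ (sub_ne_zero.mpr hzμ) this
    intro z hz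
    by_cases hzμ : z = μ
    · subst hzμ
      have c1 : ContinuousAt (fun z => a'.eval z) z := a'.continuous.continuousAt
      have c2 : ContinuousAt (fun z => ((s.map fun μ => X - C μ).prod).eval z * k z) z :=
        (Polynomial.continuous _).continuousAt.mul (hk.continuousAt (hV.mem_nhds hz))
      refine tendsto_nhds_unique_of_eventuallyEq (l := 𝓝[≠] z) (c1.mono_left nhdsWithin_le_nhds)
        (c2.mono_left nhdsWithin_le_nhds) ?_
      filter_upwards [nhdsWithin_le_nhds (hV.mem_nhds hz), self_mem_nhdsWithin] with x hx1 hx2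
      exact hne x hx1 hx2
    · exact hne z hz hzμ

lemma charpoly_eq_prod {ι : Type*} [Fintype ι] [DecidableEq ι] (A : Matrix ι ι ℂ) :
    A.charpoly = (A.charpoly.roots.map fun μ => X - C μ).prod :=
  (IsAlgClosed.splits A.charpoly).eq_prod_roots_of_monic A.charpoly_monic

lemma roots_mem {ι : Type*} [Fintype ι] [DecidableEq ι] {A : Matrix ι ι ℂ} {V : Set ℂ}
    (h : spectrum ℂ A ⊆ V) : ∀ μ ∈ A.charpoly.roots, μ ∈ V := fun _ hμ =>
  h (Matrix.mem_spectrum_iff_isRoot_charpoly.mpr (isRoot_of_mem_roots hμ))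

/-- `g ≡ a` modulo `χ` among holomorphic functions on `V`. -/
def Rel (V : Set ℂ) (χ : ℂ[X]) (g : ℂ → ℂ) (a : ℂ[X]) : Prop :=
  ∃ k : ℂ → ℂ, DifferentiableOn ℂ k V ∧ ∀ z ∈ V, g z = a.eval z + χ.eval z * k z

lemma exists_rel {ι : Type*} [Fintype ι] [DecidableEq ι] {A : Matrix ι ι ℂ} {V : Set ℂ}
    (hV : IsOpen V) (h : spectrum ℂ A ⊆ V) {g : ℂ → ℂ} (hg : DifferentiableOn ℂ g V) :
    ∃ ρ, Rel V A.charpoly g ρ := by
  obtain ⟨ρ, k, hk, e⟩ := factor_multiset hV _ (roots_mem h) hg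
  rw [← charpoly_eq_prod] at e
  exact ⟨ρ, k, hk, e⟩

lemma Rel.aeval_eq {ι : Type*} [Fintype ι] [DecidableEq ι] {A : Matrix ι ι ℂ} {V : Set ℂ}
    (hV : IsOpen V) (h : spectrum ℂ A ⊆ V) {g : ℂ → ℂ} {a b : ℂ[X]}
    (ha : Rel V A.charpoly g a) (hb : Rel V A.charpoly g b) : aeval A a = aeval A b := by
  obtain ⟨k, hk, e⟩ := ha
  obtain ⟨k', hk', e'⟩ := hb
  have := dvd_of_factor_multiset hV _ (roots_mem h) (a - b) (k := fun z => k' z - k z)
    (hk'.sub hk).continuousOn (fun z hz => by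
      rw [← charpoly_eq_prod, eval_sub]
      linear_combination e' z hz - e z hz)
  rw [← charpoly_eq_prod] at this
  obtain ⟨c, hc⟩ := this
  rw [← sub_eq_zero, ← map_sub, hc, map_mul, Matrix.aeval_self_charpoly, zero_mul]

lemma Rel.congr {V : Set ℂ} {χ : ℂ[X]} {g g' : ℂ → ℂ} {a : ℂ[X]} (h : Rel V χ g a)
    (e : ∀ z ∈ V, g' z = g z) : Rel V χ g' a := by
  obtain ⟨k, hk, h⟩ := h
  exact ⟨k, hk, fun z hz => (e z hz).trans (h z hz)⟩

lemma Rel.add {V : Set ℂ} {χ : ℂ[X]} {g g' : ℂ → ℂ} {a a' : ℂ[X]} (h : Rel V χ g a)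
    (h' : Rel V χ g' a') : Rel V χ (fun z => g z + g' z) (a + a') := by
  obtain ⟨k, hk, e⟩ := h
  obtain ⟨k', hk', e'⟩ := h'
  refine ⟨fun z => k z + k' z, hk.add hk', fun z hz => ?_⟩
  simp only [e z hz, e' z hz, eval_add]
  ring

lemma Rel.mul {V : Set ℂ} {χ : ℂ[X]} {g g' : ℂ → ℂ} {a a' : ℂ[X]} (h : Rel V χ g a)
    (h' : Rel V χ g' a') : Rel V χ (fun z => g z * g' z) (a * a') := by
  obtain ⟨k, hk, e⟩ := h
  obtain ⟨k', hk', e'⟩ := h'
  refine ⟨fun z => a.eval z * k' z + k z * a'.eval z + χ.eval z * (k z * k' z),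
    ((a.differentiable.differentiableOn.mul hk').add
      (hk.mul a'.differentiable.differentiableOn)).add
      (χ.differentiable.differentiableOn.mul (hk.mul hk')), fun z hz => ?_⟩
  simp only [e z hz, e' z hz, eval_mul]
  ring

lemma rel_const (V : Set ℂ) (χ : ℂ[X]) (c : ℂ) : Rel V χ (fun _ => c) (C c) :=
  ⟨fun _ => 0, differentiableOn_const _, fun z _ => by simp⟩

lemma Rel.comp {V : Set ℂ} {χ : ℂ[X]} {f : ℂ → ℂ} {p : ℂ[X]} (h : Rel V χ f p) (ρ : ℂ[X]) :
    Rel V χ (fun z => ρ.eval (f z)) (ρ.comp p) := by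
  induction ρ using Polynomial.induction_on with
  | C a => simpa using rel_const V χ a
  | add ρ ρ' h1 h2 => simpa using h1.add h2
  | monomial n a ih =>
    have := ih.mul h
    simpa [pow_succ, mul_assoc] using this

theorem aeval_eq_of_comp {ι : Type*} [Fintype ι] [DecidableEq ι] {A : Matrix ι ι ℂ} {V : Set ℂ}
    (hV : IsOpen V) (h : spectrum ℂ A ⊆ V) {f v k : ℂ → ℂ} {p q ρ ψ : ℂ[X]}
    (hf : Rel V A.charpoly f p) (hv : Rel V A.charpoly v q) (hk : DifferentiableOn ℂ k V)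
    (hψ : aeval (aeval A p) ψ = 0)
    (e : ∀ z ∈ V, v z = ρ.eval (f z) + ψ.eval (f z) * k z) :
    aeval A q = aeval (aeval A p) ρ := by
  obtain ⟨ρ', hρ'⟩ := exists_rel hV h hk
  have h1 := ((hf.comp ρ).add ((hf.comp ψ).mul hρ')).congr e
  rw [hv.aeval_eq hV h h1, map_add, map_mul, aeval_comp, aeval_comp, hψ, zero_mul, add_zero]

end Crest.Agent.R132.S181
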