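import Mathlib
import Crest.Agent.R132.S181Poly

/-!
The operator Poisson kernel of a matrix contraction with spectrum in the open unit disc.
-/

set_option autoImplicit false

namespace Crest.Agent.R132.S181

open Filter Topology Set Polynomial Matrix Real
open scoped ComplexOrder

variable {ι : Type*} [Fintype ι] [DecidableEq ι]

lemma differentiable_det {M : ℂ → Matrix ι ι ℂ} (h : ∀ a b, Differentiable ℂ fun u => M u a b) :
    Differentiable ℂ fun u => (M u).det := by
  simp only [Matrix.det_apply']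
  refine Differentiable.fun_sum fun σ _ => Differentiable.const_mul ?_ _
  exact Differentiable.fun_finsetProd fun i _ => h _ _

/-- The resolvent `(1 - u X)⁻¹`. -/
noncomputable def res (X : Matrix ι ι ℂ) (u : ℂ) : Matrix ι ι ℂ := (1 - u • X)⁻¹

lemma differentiableAt_res (X : Matrix ι ι ℂ) {u : ℂ} (hu : IsUnit (1 - u • X)) (a b : ι) :
    DifferentiableAt ℂ (fun u => res X u a b) u := by
  have h0 : ∀ a b, Differentiable ℂ fun u : ℂ => (1 - u • X) a b := fun a b => by
    simp only [Matrix.sub_apply, Matrix.smul_apply, smul_eq_mul]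
    fun_prop
  have h1 : Differentiable ℂ fun u : ℂ => (1 - u • X).adjugate a b := by
    simp only [Matrix.adjugate_apply]
    refine differentiable_det fun c d => ?_
    by_cases hc : c = b
    · subst hc; simp
    · simpa only [Matrix.updateRow_ne hc] using h0 c d
  simp only [res, Matrix.inv_def, Ring.inverse_eq_inv', Matrix.smul_apply, smul_eq_mul]
  refine DifferentiableAt.mul (DifferentiableAt.inv (differentiable_det h0 u) ?_) (h1 u)
  exact ((Matrix.isUnit_iff_isUnit_det _).mp hu).ne_zero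

lemma isUnit_one_sub {T : Matrix ι ι ℂ} (hT : spectrum ℂ T ⊆ Metric.ball 0 1) {u : ℂ}
    (hu : ‖u‖ ≤ 1) : IsUnit (1 - u • T) := by
  by_cases h0 : u = 0
  · simp [h0]
  have h1 : u⁻¹ ∉ spectrum ℂ T := fun h => by
    have := hT h
    rw [mem_ball_zero_iff, norm_inv] at this
    have h2 : 0 < ‖u‖ := norm_pos_iff.mpr h0
    have h3 := (inv_lt_one₀ h2).mp this
    linarith
  rw [spectrum.notMem_iff] at h1
  have e : 1 - u • T = algebraMap ℂ _ u * (algebraMap ℂ _ u⁻¹ - T) := by
    rw [mul_sub, ← map_mul, mul_inv_cancel₀ h0, map_one, Algebra.smul_def]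
  rw [e]
  exact ((IsUnit.mk0 u h0).map _).mul h1

lemma isUnit_one_sub_star {T : Matrix ι ι ℂ} (hT : spectrum ℂ T ⊆ Metric.ball 0 1) {u : ℂ}
    (hu : ‖u‖ ≤ 1) : IsUnit (1 - u • Tᴴ) := by
  have := isUnit_one_sub hT (u := star u) (by simpa using hu)
  rw [← Matrix.isUnit_conjTranspose] at this
  simpa using this

/-- The operator Poisson kernel. -/
noncomputable def pois (T : Matrix ι ι ℂ) (w : ℂ) : Matrix ι ι ℂ :=
  res T w⁻¹ + res Tᴴ w - 1

lemma pois_posSemidef {T : Matrix ι ι ℂ} (hT : spectrum ℂ T ⊆ Metric.ball 0 1)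
    (hc : (1 - Tᴴ * T).PosSemidef) {w : ℂ} (hw : ‖w‖ = 1) : (pois T w).PosSemidef := by
  have hw0 : w ≠ 0 := by rintro rfl; simp at hw
  have hs : star w⁻¹ = w := by
    rw [Complex.inv_eq_conj hw]; simp
  have hu := isUnit_one_sub hT (u := w⁻¹) (by simp [hw])
  set N := 1 - w⁻¹ • T with hN
  have hNH : Nᴴ = 1 - w • Tᴴ := by
    rw [hN, conjTranspose_sub, conjTranspose_smul, hs, conjTranspose_one]
  have hd : IsUnit N.det := (Matrix.isUnit_iff_isUnit_det _).mp hu
  have e1 : N * N⁻¹ = 1 := Matrix.mul_nonsing_inv _ hd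
  have e2 : N⁻¹ᴴ * Nᴴ = 1 := by rw [← conjTranspose_mul, e1, conjTranspose_one]
  have e3 : 1 - Tᴴ * T = Nᴴ + N - Nᴴ * N := by
    rw [hNH, hN]
    simp only [sub_mul, mul_sub, Matrix.smul_mul, Matrix.mul_smul, smul_smul, one_mul, mul_one,
      inv_mul_cancel₀ hw0, one_smul]
    abel
  have e4 : pois T w = N⁻¹ᴴ * (1 - Tᴴ * T) * N⁻¹ := by
    rw [e3, pois, res, res, ← hN, ← hNH, ← conjTranspose_nonsing_inv]
    calc N⁻¹ + N⁻¹ᴴ - 1 = (N⁻¹ᴴ * Nᴴ) * N⁻¹ + N⁻¹ᴴ * (N * N⁻¹) - (N⁻¹ᴴ * Nᴴ) * (N * N⁻¹) := by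
          rw [e1, e2]; simp
      _ = _ := by noncomm_ring
  rw [e4]
  exact hc.conjTranspose_mul_mul_same _

lemma continuousOn_res_inv {T : Matrix ι ι ℂ} (hT : spectrum ℂ T ⊆ Metric.ball 0 1) (a b : ι) :
    ContinuousOn (fun w : ℂ => res T w⁻¹ a b) (Metric.sphere 0 1) := by
  intro w hw
  have hw1 : ‖w‖ = 1 := by simpa using hw
  have hw0 : w ≠ 0 := by rintro rfl; simp at hw1
  refine ContinuousAt.continuousWithinAt ?_
  exact ContinuousAt.comp (f := fun w : ℂ => w⁻¹) (g := fun u => res T u a b)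
    (differentiableAt_res T (isUnit_one_sub hT (by simp [hw1])) a b).continuousAt
    (continuousAt_inv₀ hw0)

lemma differentiableOn_res {T : Matrix ι ι ℂ} (hT : spectrum ℂ T ⊆ Metric.ball 0 1) (a b : ι) :
    DifferentiableOn ℂ (fun w : ℂ => res T w a b) (Metric.closedBall 0 1) := fun _ hw =>
  (differentiableAt_res T (isUnit_one_sub hT (by simpa using hw)) a b).differentiableWithinAt

lemma differentiableOn_res_star {T : Matrix ι ι ℂ} (hT : spectrum ℂ T ⊆ Metric.ball 0 1)
    (a b : ι) : DifferentiableOn ℂ (fun w : ℂ => res Tᴴ w a b) (Metric.closedBall 0 1) :=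
  fun _ hw =>
  (differentiableAt_res Tᴴ (isUnit_one_sub_star hT (by simpa using hw)) a b).differentiableWithinAt

lemma continuousOn_pois {T : Matrix ι ι ℂ} (hT : spectrum ℂ T ⊆ Metric.ball 0 1) (a b : ι) :
    ContinuousOn (fun w : ℂ => pois T w a b) (Metric.sphere 0 1) := by
  simp only [pois, Matrix.sub_apply, Matrix.add_apply]
  exact ((continuousOn_res_inv hT a b).add
    ((differentiableOn_res_star hT a b).continuousOn.mono Metric.sphere_subset_closedBall)).sub
    continuousOn_const

lemma avg_holo {F : ℂ → ℂ} (hF : DifferentiableOn ℂ F (Metric.closedBall 0 1)) :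
    circleAverage F 0 1 = F 0 := by
  apply DiffContOnCl.circleAverage
  rw [abs_one]
  apply DifferentiableOn.diffContOnCl
  rwa [closure_ball _ one_ne_zero]

lemma ci {F : ℂ → ℂ} (hF : ContinuousOn F (Metric.sphere 0 1)) : CircleIntegrable F 0 1 :=
  hF.circleIntegrable zero_le_one

/-- The Cauchy integral functional calculus. -/
noncomputable def cau (T : Matrix ι ι ℂ) (g : ℂ → ℂ) : Matrix ι ι ℂ :=
  Matrix.of fun a b => circleAverage (fun w => res T w⁻¹ a b * g w) 0 1

lemma cau_one {T : Matrix ι ι ℂ} (hT : spectrum ℂ T ⊆ Metric.ball 0 1) :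
    cau T (fun _ => 1) = 1 := by
  ext a b
  simp only [cau, of_apply, mul_one]
  rw [circleAverage_zero_one_congr_inv (f := fun u => res T u a b),
    avg_holo (differentiableOn_res hT a b)]
  simp [res]

lemma cau_add {T : Matrix ι ι ℂ} (hT : spectrum ℂ T ⊆ Metric.ball 0 1) {g g' : ℂ → ℂ}
    (hg : ContinuousOn g (Metric.sphere 0 1)) (hg' : ContinuousOn g' (Metric.sphere 0 1)) :
    cau T (fun w => g w + g' w) = cau T g + cau T g' := by
  ext a b
  simp only [cau, of_apply, Matrix.add_apply, mul_add]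
  exact circleAverage_fun_add (ci ((continuousOn_res_inv hT a b).mul hg))
    (ci ((continuousOn_res_inv hT a b).mul hg'))

lemma avg_const_mul (c : ℂ) (F : ℂ → ℂ) :
    circleAverage (fun w => c * F w) 0 1 = c * circleAverage F 0 1 := by
  simpa using circleAverage_fun_smul (a := c) (f := F) (c := 0) (R := 1)

lemma cau_const_mul (T : Matrix ι ι ℂ) (c : ℂ) (g : ℂ → ℂ) :
    cau T (fun w => c * g w) = c • cau T g := by
  ext a b
  simp only [cau, of_apply, Matrix.smul_apply, smul_eq_mul, ← avg_const_mul, mul_left_comm]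

lemma cau_X_mul {T : Matrix ι ι ℂ} (hT : spectrum ℂ T ⊆ Metric.ball 0 1) {g : ℂ → ℂ}
    (hg : DifferentiableOn ℂ g (Metric.closedBall 0 1)) :
    cau T (fun w => w * g w) = T * cau T g := by
  have hgc := hg.continuousOn.mono Metric.sphere_subset_closedBall
  ext a b
  simp only [cau, of_apply, Matrix.mul_apply]
  have e : EqOn (fun w => res T w⁻¹ a b * (w * g w))
      (fun w => (1 : Matrix ι ι ℂ) a b * (w * g w) + ∑ c, T a c * (res T w⁻¹ c b * g w))
      (Metric.sphere 0 |1|) := by
    intro w hw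
    have hw1 : ‖w‖ = 1 := by simpa using hw
    have hw0 : w ≠ 0 := by rintro rfl; simp at hw1
    have hu := isUnit_one_sub hT (u := w⁻¹) (by simp [hw1])
    have e1 : (1 - w⁻¹ • T) * res T w⁻¹ = 1 :=
      Matrix.mul_nonsing_inv _ ((Matrix.isUnit_iff_isUnit_det _).mp hu)
    rw [sub_mul, one_mul, Matrix.smul_mul] at e1
    have e2 := congrFun (congrFun e1 a) b
    simp only [Matrix.sub_apply, Matrix.smul_apply, smul_eq_mul, Matrix.mul_apply] at e2
    simp only [← e2, ← mul_assoc, ← Finset.sum_mul]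
    field_simp
    ring
  rw [circleAverage_congr_sphere e, circleAverage_fun_add
    (ci (continuousOn_const.fun_mul ((continuousOn_id' _).fun_mul hgc)))
    (ci (continuousOn_finsetSum _ fun c _ =>
      continuousOn_const.fun_mul ((continuousOn_res_inv hT c b).fun_mul hgc))),
    avg_const_mul, avg_holo (F := fun w => w * g w) (differentiableOn_id.mul hg),
    circleAverage_fun_sum (fun c _ =>
      ci (continuousOn_const.fun_mul ((continuousOn_res_inv hT c b).fun_mul hgc)))]
  simp only [avg_const_mul, zero_mul, mul_zero, zero_add]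

lemma cau_poly_mul {T : Matrix ι ι ℂ} (hT : spectrum ℂ T ⊆ Metric.ball 0 1) (ρ : ℂ[X])
    {g : ℂ → ℂ} (hg : DifferentiableOn ℂ g (Metric.closedBall 0 1)) :
    cau T (fun w => ρ.eval w * g w) = aeval T ρ * cau T g := by
  have hgc := hg.continuousOn.mono Metric.sphere_subset_closedBall
  induction ρ using Polynomial.induction_on with
  | C a => simp only [eval_C, cau_const_mul, aeval_C, Algebra.smul_def]
  | add ρ ρ' h1 h2 =>
    simp only [eval_add, add_mul, map_add]
    rw [cau_add hT (ρ.continuous.continuousOn.fun_mul hgc)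
      (ρ'.continuous.continuousOn.fun_mul hgc), h1, h2]
  | monomial n a ih =>
    have e : (fun w => (C a * X ^ (n + 1)).eval w * g w)
        = fun w => w * ((C a * X ^ n).eval w * g w) := by
      ext w; simp; ring
    rw [e, cau_X_mul hT ((Polynomial.differentiable _).differentiableOn.fun_mul hg), ih, ← mul_assoc]
    congr 1
    simp only [map_mul, aeval_C, map_pow, aeval_X]
    rw [pow_succ', ← mul_assoc, ← mul_assoc, Algebra.commutes]

theorem poisson_formula {T : Matrix ι ι ℂ} (hT : spectrum ℂ T ⊆ Metric.ball 0 1) {D : Set ℂ}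
    (hD : Metric.closedBall 0 1 ⊆ D) {g : ℂ → ℂ} (hg : DifferentiableOn ℂ g D) {ρ : ℂ[X]}
    (h : Rel D T.charpoly g ρ) (a b : ι) :
    circleAverage (fun w => pois T w a b * g w) 0 1 = aeval T ρ a b := by
  obtain ⟨k, hk, e⟩ := h
  have hg' := hg.mono hD
  have hk' := hk.mono hD
  have hgc := hg'.continuousOn.mono Metric.sphere_subset_closedBall
  have hkc := hk'.continuousOn.mono Metric.sphere_subset_closedBall
  have h1 : cau T g = aeval T ρ := by
    have : cau T g = cau T (fun w => ρ.eval w * 1 + T.charpoly.eval w * k w) := by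
      ext a b
      simp only [cau, of_apply]
      refine circleAverage_congr_sphere fun w hw => ?_
      rw [abs_one] at hw
      simp only [e w (hD (Metric.sphere_subset_closedBall hw)), mul_one]
    rw [this, cau_add hT (ρ.continuous.continuousOn.fun_mul continuousOn_const)
      ((Polynomial.continuous _).continuousOn.fun_mul hkc), cau_poly_mul hT _ hk',
      cau_poly_mul hT _ (differentiableOn_const _), cau_one hT, Matrix.aeval_self_charpoly]
    simp
  have h2 : (fun w => pois T w a b * g w) = fun w => res T w⁻¹ a b * g w +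
      (res Tᴴ w a b - (1 : Matrix ι ι ℂ) a b) * g w := by
    ext w
    simp only [pois, Matrix.sub_apply, Matrix.add_apply]
    ring
  have h3 : DifferentiableOn ℂ (fun w => (res Tᴴ w a b - (1 : Matrix ι ι ℂ) a b) * g w)
      (Metric.closedBall 0 1) :=
    ((differentiableOn_res_star hT a b).sub (differentiableOn_const _)).mul hg'
  rw [h2, circleAverage_fun_add (ci ((continuousOn_res_inv hT a b).fun_mul hgc))
    (ci (h3.continuousOn.mono Metric.sphere_subset_closedBall)), avg_holo h3, ← h1]
  simp [cau, res]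

end Crest.Agent.R132.S181
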