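import Mathlib
import Crest.Prelude.Def_NumRangeMetric
import Crest.Agent.R132.Agree
import Crest.Agent.R132.S181Inv
import Crest.Agent.R132.S181Poisson
import Crest.Agent.R132.S181Norm

/-!
Assembly of the common positive boundary density.
-/

set_option autoImplicit false

namespace Crest.Agent.R132.S181

open Filter Topology Set Polynomial Matrix
open scoped ComplexOrder Kronecker
open Crest.AnalysisR.NumRange

lemma boundary_facts {Ω U : Set ℂ} (hΩ₁ : IsOpen Ω) (hΩU : closure Ω ⊆ U)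
    {f : ℂ → ℂ} (hf₁ : DifferentiableOn ℂ f U) (hf₂ : Set.InjOn f U)
    (hf₃ : f '' Ω = Metric.ball 0 1) {G : ℂ → ℂ} {r : ℝ} (hr₂ : r < 1)
    (hG₁ : DifferentiableOn ℂ G {t : ℂ | r < ‖t‖}) (hG₂ : Set.InjOn G {t : ℂ | r < ‖t‖})
    (hG₃ : G '' {t : ℂ | 1 < ‖t‖} = (closure Ω)ᶜ) {t : ℂ} (ht : ‖t‖ = 1) :
    G t ∈ closure Ω ∧ ‖f (G t)‖ = 1 := by
  have hto : t ∈ {t : ℂ | r < ‖t‖} := by simp [ht, hr₂]
  have h1 : G t ∈ closure Ω := by
    by_contra h
    have : G t ∈ G '' {t : ℂ | 1 < ‖t‖} := by rw [hG₃]; exact h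
    obtain ⟨t', ht', e⟩ := this
    have ht'' : 1 < ‖t'‖ := ht'
    have := hG₂ (show r < ‖t'‖ by linarith) hto e
    rw [this, ht] at ht''
    exact lt_irrefl _ ht''
  have h2 : G t ∉ Ω := by
    have hopen : IsOpen {t : ℂ | r < ‖t‖} := isOpen_lt continuous_const continuous_norm
    have hc : ContinuousAt G t := (hG₁.differentiableAt (hopen.mem_nhds hto)).continuousAt
    have hcl : t ∈ closure {t : ℂ | 1 < ‖t‖} := by
      have e : {t : ℂ | 1 < ‖t‖} = (Metric.closedBall 0 1)ᶜ := by ext; simp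
      rw [e, closure_compl, interior_closedBall _ one_ne_zero]
      simp [ht]
    have := hc.continuousWithinAt.mem_closure_image hcl
    rw [hG₃] at this
    have h3 : closure (closure Ω)ᶜ ⊆ Ωᶜ :=
      closure_minimal (compl_subset_compl.mpr subset_closure) hΩ₁.isClosed_compl
    exact h3 this
  refine ⟨h1, le_antisymm ?_ ?_⟩
  · have := ((hf₁.continuousOn.mono hΩU) _ h1).mono subset_closure |>.mem_closure_image h1
    rw [hf₃, closure_ball _ one_ne_zero] at this
    simpa using this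
  · by_contra h
    have : f (G t) ∈ f '' Ω := by rw [hf₃]; simpa using h
    obtain ⟨z, hz, e⟩ := this
    exact h2 (hf₂ (hΩU (subset_closure hz)) (hΩU h1) e ▸ hz)

lemma closedBall_subset {Ω U : Set ℂ} (hΩ₂ : Bornology.IsBounded Ω) (hΩU : closure Ω ⊆ U)
    {f : ℂ → ℂ} (hf₁ : DifferentiableOn ℂ f U) (hf₃ : f '' Ω = Metric.ball 0 1) :
    Metric.closedBall 0 1 ⊆ f '' closure Ω := by
  have := (hΩ₂.isCompact_closure.image_of_continuousOn (hf₁.continuousOn.mono hΩU)).isClosed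
  rw [← closure_ball _ one_ne_zero, ← hf₃]
  exact closure_minimal (image_mono subset_closure) this

lemma aeval_conj {ι : Type*} [Fintype ι] [DecidableEq ι] {S : Matrix ι ι ℂ} (hS : IsUnit S.det)
    (A : Matrix ι ι ℂ) (q : ℂ[X]) : aeval (S * A * S⁻¹) q = S * aeval A q * S⁻¹ := by
  have e1 : S * S⁻¹ = 1 := Matrix.mul_nonsing_inv _ hS
  have e2 : S⁻¹ * S = 1 := Matrix.nonsing_inv_mul _ hS
  induction q using Polynomial.induction_on with
  | C a => simp [Algebra.algebraMap_eq_smul_one, e1]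
  | add q q' h1 h2 => simp only [map_add, h1, h2, mul_add, add_mul]
  | monomial n a ih =>
    rw [pow_succ, ← mul_assoc, map_mul, ih, map_mul (aeval A) _ X, aeval_X, aeval_X]
    calc S * aeval A (C a * X ^ n) * S⁻¹ * (S * A * S⁻¹)
        = S * aeval A (C a * X ^ n) * (S⁻¹ * S) * A * S⁻¹ := by noncomm_ring
      _ = _ := by rw [e2]; noncomm_ring

lemma charpoly_conj {ι : Type*} [Fintype ι] [DecidableEq ι] {S : Matrix ι ι ℂ} (hS : IsUnit S.det)
    (A : Matrix ι ι ℂ) : (S * A * S⁻¹).charpoly = A.charpoly := by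
  rw [Matrix.charpoly_mul_comm, ← mul_assoc, Matrix.nonsing_inv_mul _ hS, one_mul]

theorem s0181
    (n : ℕ) (hn : 1 ≤ n) (A : Matrix (Fin n) (Fin n) ℂ)
    (Ω U : Set ℂ) (hΩ₁ : IsOpen Ω) (hΩ₂ : Bornology.IsBounded Ω)
    (hU : IsOpen U) (hΩU : closure Ω ⊆ U)
    (f : ℂ → ℂ) (hf₁ : DifferentiableOn ℂ f U) (hf₂ : Set.InjOn f U)
    (hf₃ : f '' Ω = Metric.ball 0 1)
    (G : ℂ → ℂ) (r : ℝ) (hr₂ : r < 1)
    (hG₁ : DifferentiableOn ℂ G {t : ℂ | r < ‖t‖}) (hG₂ : Set.InjOn G {t : ℂ | r < ‖t‖})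
    (hG₃ : G '' {t : ℂ | 1 < ‖t‖} = (closure Ω)ᶜ)
    (hA : numRange A ⊆ Ω) (p : Polynomial ℂ) (hp : AgreesOnSpectrum A f p)
    (H : Matrix (Fin n) (Fin n) ℂ) (κsq : ℝ) (hH : MetricFeasible (Polynomial.aeval A p) H κsq)
    (S : Matrix (Fin n) (Fin n) ℂ) (hS₁ : S.PosSemidef) (hS₂ : S * S = H) :
    ∃ Λ : ℝ → Matrix (Fin n) (Fin n) ℂ, Continuous Λ ∧ Function.Periodic Λ (2 * Real.pi) ∧
      (∀ θ, (Λ θ).PosSemidef) ∧
      (∀ a b, (2 * Real.pi : ℂ)⁻¹ * (∫ θ in (0 : ℝ)..2 * Real.pi, Λ θ a b)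
        = (1 : Matrix (Fin n) (Fin n) ℂ) a b) ∧
      ∀ (m : ℕ), 1 ≤ m → ∀ (V : Set ℂ), IsOpen V → closure Ω ⊆ V →
        ∀ v : ℂ → Matrix (Fin m) (Fin m) ℂ, (∀ c d, DifferentiableOn ℂ (fun z => v z c d) V) →
        ∀ q : Fin m → Fin m → Polynomial ℂ,
          (∀ c d, AgreesOnSpectrum A (fun z => v z c d) (q c d)) →
          (∀ a b c d, Polynomial.aeval (S * A * S⁻¹) (q c d) a b =
              (2 * Real.pi : ℂ)⁻¹ * (∫ θ in (0 : ℝ)..2 * Real.pi,
                Λ θ a b * v (G (Complex.exp ((θ : ℂ) * Complex.I))) c d)) ∧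
          ∀ M : ℝ, (∀ z ∈ closure Ω, ‖Matrix.toEuclideanCLM (n := Fin m) (𝕜 := ℂ) (v z)‖ ≤ M) →
            ‖Matrix.toEuclideanCLM (n := Fin n × Fin m) (𝕜 := ℂ)
                (Matrix.of fun (i : Fin n × Fin m) (j : Fin n × Fin m) =>
                  Polynomial.aeval A (q i.2 j.2) i.1 j.1)‖ ≤ Real.sqrt κsq * M := by
  obtain ⟨hH1, hH2, hH3⟩ := hH
  have : Nonempty (Fin n) := ⟨⟨0, hn⟩⟩
  -- the matrix S
  have hSh : Sᴴ = S := hS₁.isHermitian
  have hHd : H.PosDef := by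
    have := (PosDef.one (n := Fin n) (R := ℂ)).add_posSemidef hH1
    rwa [add_sub_cancel] at this
  have hSd : IsUnit S.det := by
    have := (Matrix.isUnit_iff_isUnit_det _).mp hHd.isUnit
    rw [← hS₂, det_mul] at this
    exact isUnit_of_mul_isUnit_left this
  have e1 : S * S⁻¹ = 1 := Matrix.mul_nonsing_inv _ hSd
  have e2 : S⁻¹ * S = 1 := Matrix.nonsing_inv_mul _ hSd
  have hSih : S⁻¹ᴴ = S⁻¹ := by rw [conjTranspose_nonsing_inv, hSh]
  set B := S * A * S⁻¹ with hB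
  set T := aeval B p with hT
  have hTe : T = S * aeval A p * S⁻¹ := aeval_conj hSd A p
  have hχ : B.charpoly = A.charpoly := charpoly_conj hSd A
  have hspA : spectrum ℂ A ⊆ Ω := (spectrum_subset_numRange A).trans hA
  have hspB : spectrum ℂ B = spectrum ℂ A := by
    ext μ
    rw [Matrix.mem_spectrum_iff_isRoot_charpoly, Matrix.mem_spectrum_iff_isRoot_charpoly, hχ]
  have hspT : spectrum ℂ T ⊆ Metric.ball 0 1 := by
    rw [hT, spectrum.map_polynomial_aeval_of_nonempty B p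
      (spectrum.nonempty_of_isAlgClosed_of_finiteDimensional ℂ B), hspB]
    rintro _ ⟨μ, hμ, rfl⟩
    have := hp μ hμ 0 hn
    simp only [iteratedDeriv_zero] at this
    simp only [this]
    rw [← hf₃]
    exact mem_image_of_mem f (hspA hμ)
  have hTc : (1 - Tᴴ * T).PosSemidef := by
    have := hH3.conjTranspose_mul_mul_same S⁻¹
    convert this using 1
    rw [hTe, conjTranspose_mul, conjTranspose_mul, hSih, hSh, ← hS₂]
    calc 1 - S⁻¹ * ((aeval A p)ᴴ * S) * (S * aeval A p * S⁻¹)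
        = (S⁻¹ * S) * (S * S⁻¹) - S⁻¹ * ((aeval A p)ᴴ * S) * (S * aeval A p * S⁻¹) := by
          rw [e1, e2, one_mul]
      _ = _ := by noncomm_ring
  -- the boundary loop
  have hopen : IsOpen {t : ℂ | r < ‖t‖} := isOpen_lt continuous_const continuous_norm
  let e : ℝ → ℂ := fun θ => Complex.exp ((θ : ℂ) * Complex.I)
  have he : ∀ θ, e θ = circleMap 0 1 θ := fun θ => by simp [e, circleMap]
  have hen : ∀ θ, ‖e θ‖ = 1 := fun θ => Complex.norm_exp_ofReal_mul_I θ
  have heo : ∀ θ, e θ ∈ {t : ℂ | r < ‖t‖} := fun θ => by simp [hen, hr₂]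
  have hec : Continuous e := by fun_prop
  have hb := fun θ => boundary_facts hΩ₁ hΩU hf₁ hf₂ hf₃ hr₂ hG₁ hG₂ hG₃ (hen θ)
  have hGc : Continuous fun θ => G (e θ) := hG₁.continuousOn.comp_continuous hec heo
  let w : ℝ → ℂ := fun θ => f (G (e θ))
  let w' : ℝ → ℂ := fun θ => deriv f (G (e θ)) * (deriv G (e θ) * (e θ * Complex.I))
  have hw : ∀ θ, HasDerivAt w (w' θ) θ := fun θ => by
    have h1 : HasDerivAt e (e θ * Complex.I) θ := by
      simpa using ((hasDerivAt_id θ).ofReal_comp.mul_const Complex.I).cexp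
    have h2 := (hG₁.differentiableAt (hopen.mem_nhds (heo θ))).hasDerivAt.comp θ h1
    exact (hf₁.differentiableAt (hU.mem_nhds (hΩU (hb θ).1))).hasDerivAt.comp θ h2
  have hw' : Continuous w' :=
    ((hf₁.deriv hU).continuousOn.comp_continuous hGc fun θ => hΩU (hb θ).1).mul
      (((hG₁.deriv hopen).continuousOn.comp_continuous hec heo).mul (hec.mul continuous_const))
  have hwc : Continuous w := continuous_iff_continuousAt.mpr fun θ => (hw θ).continuousAt
  have hwper : Function.Periodic w (2 * Real.pi) := fun θ => by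
    simp only [w, he, periodic_circleMap 0 1 θ]
  have hwinj : InjOn w (Ico 0 (2 * Real.pi)) := fun a ha b hb' hab => by
    have h1 := hG₂ (heo a) (heo b) (hf₂ (hΩU (hb a).1) (hΩU (hb b).1) hab)
    rw [he, he] at h1
    exact injOn_circleMap_of_abs_sub_le' one_ne_zero (by simp) ha hb' h1
  obtain ⟨τ, hτc, hτper, hτ0, hτ⟩ := circle_change hw hw' (fun θ => (hb θ).2) hwper hwinj
  have hwS : ∀ θ, w θ ∈ Metric.sphere (0 : ℂ) 1 := fun θ => by simpa using (hb θ).2
  let Λ : ℝ → Matrix (Fin n) (Fin n) ℂ := fun θ => (τ θ : ℂ) • pois T (w θ)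
  have hΛc : ∀ a b, Continuous fun θ => Λ θ a b := fun a b =>
    (Complex.continuous_ofReal.comp hτc).mul ((continuousOn_pois hspT a b).comp_continuous hwc hwS)
  have hΛp : ∀ θ, (Λ θ).PosSemidef := fun θ =>
    (pois_posSemidef hspT hTc (hb θ).2).smul (by exact_mod_cast hτ0 θ)
  -- the representation formula
  have main : ∀ (V : Set ℂ), IsOpen V → closure Ω ⊆ V → ∀ v : ℂ → ℂ, DifferentiableOn ℂ v V →
      ∀ q : ℂ[X], AgreesOnSpectrum A v q → ∀ a b, aeval B q a b =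
        (2 * Real.pi : ℂ)⁻¹ * (∫ θ in (0 : ℝ)..2 * Real.pi, Λ θ a b * v (G (e θ))) := by
    intro V hV hΩV v hv q hq a b
    have hV' : IsOpen (V ∩ U) := hV.inter hU
    have hΩV' : closure Ω ⊆ V ∩ U := subset_inter hΩV hΩU
    have hf' : DifferentiableOn ℂ f (V ∩ U) := hf₁.mono inter_subset_right
    have hi' : InjOn f (V ∩ U) := hf₂.mono inter_subset_right
    have hv' : DifferentiableOn ℂ v (V ∩ U) := hv.mono inter_subset_left
    have hsp' : spectrum ℂ A ⊆ V ∩ U := hspA.trans (subset_closure.trans hΩV')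
    have hD : IsOpen (f '' (V ∩ U)) := isOpen_image hV' hf' hi'
    have hDb : Metric.closedBall 0 1 ⊆ f '' (V ∩ U) :=
      (closedBall_subset hΩ₂ hΩU hf₁ hf₃).trans (image_mono hΩV')
    let g : ℂ → ℂ := fun y => v (Function.invFunOn f (V ∩ U) y)
    have hg : DifferentiableOn ℂ g (f '' (V ∩ U)) :=
      hv'.comp (differentiableOn_inv hV' hf' hi') fun y hy => Function.invFunOn_mem hy
    have hgf : ∀ z ∈ V ∩ U, g (f z) = v z := fun z hz => by
      simp only [g, hi'.leftInvOn_invFunOn hz]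
    obtain ⟨ρ, hρ⟩ := exists_rel hD (hspT.trans (Metric.ball_subset_closedBall.trans hDb)) hg
    have h1 := poisson_formula hspT hDb hg hρ a b
    obtain ⟨k, hk, hk'⟩ := hρ
    have h2 : aeval B q = aeval T ρ := by
      refine aeval_eq_of_comp hV' (hspB ▸ hsp') (f := f) (v := v) (k := fun z => k (f z))
        (ψ := T.charpoly) ?_ ?_ (hk.comp hf' (mapsTo_image _ _)) (Matrix.aeval_self_charpoly T)
        (fun z hz => by rw [← hgf z hz, hk' _ (mem_image_of_mem f hz)])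
      · rw [hχ]; exact exists_factor_of_agrees A hV' hsp' hf' hp
      · rw [hχ]; exact exists_factor_of_agrees A hV' hsp' hv' hq
    rw [h2, ← h1, Real.circleAverage_def, ← hτ (fun w => pois T w a b * g w)
      ((continuousOn_pois hspT a b).mul
        (hg.continuousOn.mono (Metric.sphere_subset_closedBall.trans hDb))),
      Complex.real_smul]
    push_cast
    congr 1
    refine intervalIntegral.integral_congr fun θ _ => ?_
    simp only [Λ, w, hgf _ (hΩV' (hb θ).1), Matrix.smul_apply, smul_eq_mul, mul_assoc]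
  have hmean : ∀ a b, (2 * Real.pi : ℂ)⁻¹ * (∫ θ in (0 : ℝ)..2 * Real.pi, Λ θ a b)
      = (1 : Matrix (Fin n) (Fin n) ℂ) a b := by
    intro a b
    have := main univ isOpen_univ (subset_univ _) (fun _ => 1) (differentiableOn_const _) 1
      (fun μ _ j _ => by simp only [eval_one]) a b
    simpa using this.symm
  refine ⟨Λ, continuous_matrix hΛc, fun θ => by simp only [Λ, hτper θ, hwper θ], hΛp, hmean, ?_⟩
  intro m _ V hV hΩV v hv q hq
  have hrep := fun a b c d => main V hV hΩV _ (hv c d) _ (hq c d) a b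
  refine ⟨hrep, fun M hM => ?_⟩
  have hK : ‖op (Matrix.of fun (i : Fin n × Fin m) (j : Fin n × Fin m) =>
      aeval B (q i.2 j.2) i.1 j.1)‖ ≤ M :=
    norm_mean_le hΛc hΛp hmean (v := fun θ => v (G (e θ)))
      (fun c d => (hv c d).continuousOn.comp_continuous hGc fun θ => hΩV (hb θ).1)
      (fun θ => hM _ (hb θ).1) (fun i j => hrep _ _ _ _)
  have hκ : 0 ≤ κsq := by
    have := (hH2.add hH1).add (PosSemidef.one (n := Fin n) (R := ℂ))
    have h2 := this.diag_nonneg (i := ⟨0, hn⟩)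
    simpa using h2
  have hS : ‖op S‖ ≤ √κsq := by
    rw [norm_op_le_iff _ (Real.sqrt_nonneg _), Real.sq_sqrt hκ, hSh, hS₂]
    exact hH2
  have hSi : ‖op S⁻¹‖ ≤ 1 := by
    rw [norm_op_le_iff _ zero_le_one]
    have := hH1.conjTranspose_mul_mul_same S⁻¹
    convert this using 1
    rw [hSih, ← hS₂, mul_sub, sub_mul, ← mul_assoc, e2, one_mul, e1]
    simp
  have hfac : (Matrix.of fun (i : Fin n × Fin m) (j : Fin n × Fin m) =>
      aeval A (q i.2 j.2) i.1 j.1) = (S⁻¹ ⊗ₖ (1 : Matrix (Fin m) (Fin m) ℂ)) *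
        (Matrix.of fun (i : Fin n × Fin m) (j : Fin n × Fin m) => aeval B (q i.2 j.2) i.1 j.1) *
        (S ⊗ₖ (1 : Matrix (Fin m) (Fin m) ℂ)) := by
    ext i j
    have h1 : aeval A (q i.2 j.2) = S⁻¹ * aeval B (q i.2 j.2) * S := by
      rw [hB, aeval_conj hSd]
      calc aeval A (q i.2 j.2) = (S⁻¹ * S) * aeval A (q i.2 j.2) * (S⁻¹ * S) := by
            rw [e2, one_mul, mul_one]
        _ = _ := by noncomm_ring
    rw [of_apply, h1]
    simp [Matrix.mul_apply, Fintype.sum_prod_type, Matrix.one_apply]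
  rw [hfac, map_mul, map_mul]
  have hM0 : 0 ≤ M := (norm_nonneg _).trans hK
  calc _ ≤ 1 * M * √κsq := by
        refine (norm_mul_le _ _).trans (mul_le_mul ((norm_mul_le _ _).trans
          (mul_le_mul (norm_kron_one_le hSi) hK (norm_nonneg _) zero_le_one))
          (norm_kron_one_le hS) (norm_nonneg _) (by positivity))
    _ = _ := by ring

end Crest.Agent.R132.S181
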